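import Mathlib

open Finset Real

namespace Vale.Agent.Lib.P262S

section Generic

set_option linter.unusedSectionVars false

variable {α E : Type*} [NormedAddCommGroup E] [InnerProductSpace ℝ E]

/-- the signed vector of a tagged item -/
noncomputable def sgnA (w : α → E) (q : α × Bool) : E :=
  if q.2 then w q.1 else -(w q.1)

/-- items with tag `true` in order -/
def plA : List (α × Bool) → List α
  | [] => []
  | (v, true) :: t => v :: plA t
  | (_, false) :: t => plA t

/-- items with tag `false` in order -/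
def miA : List (α × Bool) → List α
  | [] => []
  | (_, true) :: t => miA t
  | (v, false) :: t => v :: miA t

lemma plA_add_miA (w : α → E) (T : List (α × Bool)) :
    ((plA T).map w).sum + ((miA T).map w).sum = (T.map (fun q => w q.1)).sum := by
  induction T with
  | nil => simp [plA, miA]
  | cons q t ih =>
    rcases q with ⟨v, b⟩
    cases b
    · simp only [plA, miA, List.map_cons, List.sum_cons]
      rw [← ih]
      abel
    · simp only [plA, miA, List.map_cons, List.sum_cons]
      rw [← ih]
      abel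

lemma plA_sub_miA (w : α → E) (T : List (α × Bool)) :
    ((plA T).map w).sum - ((miA T).map w).sum = (T.map (sgnA w)).sum := by
  induction T with
  | nil => simp [plA, miA]
  | cons q t ih =>
    rcases q with ⟨v, b⟩
    cases b
    · simp only [plA, miA, List.map_cons, List.sum_cons, sgnA, Bool.false_eq_true, if_false]
      rw [← ih]
      abel
    · simp only [plA, miA, List.map_cons, List.sum_cons, sgnA, if_true]
      rw [← ih]
      abel

lemma plA_take (T : List (α × Bool)) (j : ℕ) : ∃ k, (plA T).take j = plA (T.take k) := by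
  induction T generalizing j with
  | nil => exact ⟨0, by simp [plA]⟩
  | cons q t ih =>
    rcases q with ⟨v, b⟩
    cases b
    · obtain ⟨k, hk⟩ := ih j
      refine ⟨k + 1, ?_⟩
      simp only [plA, List.take_succ_cons]
      exact hk
    · cases j with
      | zero => exact ⟨0, by simp [plA]⟩
      | succ j =>
        obtain ⟨k, hk⟩ := ih j
        refine ⟨k + 1, ?_⟩
        simp only [plA, List.take_succ_cons, hk]

lemma miA_take (T : List (α × Bool)) (j : ℕ) : ∃ k, (miA T).take j = miA (T.take k) := by
  induction T generalizing j with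
  | nil => exact ⟨0, by simp [miA]⟩
  | cons q t ih =>
    rcases q with ⟨v, b⟩
    cases b
    · cases j with
      | zero => exact ⟨0, by simp [miA]⟩
      | succ j =>
        obtain ⟨k, hk⟩ := ih j
        refine ⟨k + 1, ?_⟩
        simp only [miA, List.take_succ_cons, hk]
    · obtain ⟨k, hk⟩ := ih j
      refine ⟨k + 1, ?_⟩
      simp only [miA, List.take_succ_cons]
      exact hk

lemma plA_miA_perm (T : List (α × Bool)) : (plA T ++ miA T).Perm (T.map Prod.fst) := by
  induction T with
  | nil => simp [plA, miA]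
  | cons q t ih =>
    rcases q with ⟨v, b⟩
    cases b
    · simp only [plA, miA, List.map_cons]
      exact List.perm_middle.trans (ih.cons v)
    · simp only [plA, miA, List.map_cons, List.cons_append]
      exact ih.cons v

lemma perm_chobA (T : List (α × Bool)) : (plA T ++ (miA T).reverse).Perm (T.map Prod.fst) :=
  ((List.reverse_perm (miA T)).append_left (plA T)).trans (plA_miA_perm T)

/-- Chobanyan's rearrangement, nonzero total sum -/
lemma chobA (w : α → E) (T : List (α × Bool)) {A B C : ℝ}
    (hC : ‖(T.map (fun q => w q.1)).sum‖ ≤ C)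
    (hA : ∀ k, ‖((T.take k).map (fun q => w q.1)).sum‖ ≤ A)
    (hB : ∀ k, ‖((T.take k).map (sgnA w)).sum‖ ≤ B)
    (k : ℕ) : ‖(((plA T ++ (miA T).reverse).take k).map w).sum‖ ≤ C + (A + B) / 2 := by
  have hC0 : 0 ≤ C := (norm_nonneg _).trans hC
  have half : ∀ a b p : E, a + b = (2:ℝ) • p → ‖a‖ ≤ A → ‖b‖ ≤ B → ‖p‖ ≤ (A + B) / 2 := by
    intro a b p h ha hb
    have h1 : ‖(2:ℝ) • p‖ ≤ A + B := by
      rw [← h]
      exact (norm_add_le _ _).trans (add_le_add ha hb)
    rw [norm_smul] at h1
    simp only [Real.norm_eq_abs, abs_two] at h1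
    linarith
  rcases le_or_gt k (plA T).length with hk | hk
  · rw [List.take_append_of_le_length hk]
    obtain ⟨i, hi⟩ := plA_take T k
    rw [hi]
    set X := T.take i
    have : ‖((plA X).map w).sum‖ ≤ (A + B) / 2 := by
      refine half _ _ _ ?_ (hA i) (hB i)
      rw [← plA_add_miA w X, ← plA_sub_miA w X, two_smul]
      abel
    linarith
  · have e1 : (plA T ++ (miA T).reverse).take k
        = plA T ++ (miA T).reverse.take (k - (plA T).length) := by
      rw [List.take_append, List.take_of_length_le hk.le]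
    rw [e1, List.map_append, List.sum_append, List.take_reverse, List.map_reverse,
      List.sum_reverse]
    set j := (miA T).length - (k - (plA T).length)
    have e2 : ((plA T).map w).sum + (((miA T).drop j).map w).sum
        = (T.map (fun q => w q.1)).sum - (((miA T).take j).map w).sum := by
      have e3 : (((miA T).take j).map w).sum + (((miA T).drop j).map w).sum
          = ((miA T).map w).sum := by
        rw [← List.sum_append, ← List.map_append, List.take_append_drop]
      have e4 := plA_add_miA w T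
      rw [← e3] at e4
      rw [← e4]
      abel
    rw [e2]
    obtain ⟨i, hi⟩ := miA_take T j
    rw [hi]
    set X := T.take i
    have h5 : ‖((miA X).map w).sum‖ ≤ (A + B) / 2 := by
      refine half _ (-(X.map (sgnA w)).sum) _ ?_ (hA i) (by rw [norm_neg]; exact hB i)
      rw [← plA_add_miA w X, ← plA_sub_miA w X, two_smul]
      abel
    exact (norm_sub_le _ _).trans (add_le_add hC h5)

/-- greedy signs -/
lemma greedy_signs (w : α → E) (l : List α) :
    ∃ T : List (α × Bool), T.map Prod.fst = l ∧
      ∀ k, ‖((T.take k).map (sgnA w)).sum‖ ^ 2 ≤ (l.map fun a => ‖w a‖ ^ 2).sum := by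
  induction l using List.reverseRecOn with
  | nil => exact ⟨[], rfl, by simp⟩
  | append_singleton l a ih =>
    obtain ⟨T, hT, hb⟩ := ih
    have hnn : 0 ≤ ‖w a‖ ^ 2 := by positivity
    set S := (T.map (sgnA w)).sum with hS
    have hS2 : ‖S‖ ^ 2 ≤ (l.map fun a => ‖w a‖ ^ 2).sum := by
      have := hb T.length
      rwa [List.take_length] at this
    obtain ⟨b, hb2⟩ : ∃ b : Bool, ‖S + sgnA w (a, b)‖ ^ 2 ≤ ‖S‖ ^ 2 + ‖w a‖ ^ 2 := by
      by_cases h : inner ℝ S (w a) ≤ 0
      · refine ⟨true, ?_⟩
        simp only [sgnA, if_true]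
        rw [norm_add_sq_real]
        linarith
      · refine ⟨false, ?_⟩
        push Not at h
        simp only [sgnA, Bool.false_eq_true, if_false]
        rw [norm_add_sq_real, norm_neg, inner_neg_right]
        linarith
    refine ⟨T ++ [(a, b)], by simp [hT], ?_⟩
    intro k
    have hsum : ((l ++ [a]).map fun a => ‖w a‖ ^ 2).sum
        = (l.map fun a => ‖w a‖ ^ 2).sum + ‖w a‖ ^ 2 := by
      simp
    rw [hsum]
    rcases le_or_gt k T.length with hk | hk
    · rw [List.take_append_of_le_length hk]
      linarith [hb k]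
    · have : (T ++ [(a, b)]).take k = T ++ [(a, b)] := by
        apply List.take_of_length_le
        simp only [List.length_append, List.length_singleton]
        omega
      rw [this, List.map_append, List.sum_append]
      simp only [List.map_singleton, List.sum_singleton]
      rw [← hS]
      linarith

/-- the abstract leaf order -/
theorem leaf_order_abs (l : List α) (w : α → E) {τ B : ℝ}
    (ht : (l.map fun a => ‖w a‖ ^ 2).sum ≤ τ) (hB : ‖(l.map w).sum‖ ≤ B) :
    ∃ l' : List α, l'.Perm l ∧ ∀ k, ‖((l'.take k).map w).sum‖ ≤ 2 * B + √τ := by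
  classical
  have hne : l.permutations.toFinset.Nonempty := ⟨l, by simp⟩
  let Ar : List α → ℝ := fun l' =>
    (Finset.range (l.length + 1)).sup' (by simp) fun k => ‖((l'.take k).map w).sum‖
  have hAr : ∀ l' : List α, l'.Perm l → ∀ k, ‖((l'.take k).map w).sum‖ ≤ Ar l' := by
    intro l' hl' k
    rcases le_or_gt k l.length with hk | hk
    · exact Finset.le_sup' (fun k => ‖((l'.take k).map w).sum‖) (Finset.mem_range_succ_iff.2 hk)
    · have h1 : l'.take k = l'.take l.length := by
        rw [List.take_of_length_le (by rw [hl'.length_eq]; exact hk.le),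
          List.take_of_length_le (by rw [hl'.length_eq])]
      rw [h1]
      exact Finset.le_sup' (fun k => ‖((l'.take k).map w).sum‖)
        (Finset.mem_range_succ_iff.2 le_rfl)
  obtain ⟨l₀, hl₀, hmin⟩ := Finset.exists_min_image _ Ar hne
  have hl₀p : l₀.Perm l := by simpa using hl₀
  refine ⟨l₀, hl₀p, ?_⟩
  obtain ⟨T, hT1, hT2⟩ := greedy_signs w l₀
  have hτ : (l₀.map fun a => ‖w a‖ ^ 2).sum ≤ τ := by
    rw [(hl₀p.map _).sum_eq]
    exact ht
  have hT3 : ∀ k, ‖((T.take k).map (sgnA w)).sum‖ ≤ √τ := by
    intro k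
    apply Real.le_sqrt_of_sq_le
    exact (hT2 k).trans hτ
  have hmapfst : ∀ X : List (α × Bool), X.map (fun q => w q.1) = (X.map Prod.fst).map w := by
    intro X
    simp [List.map_map, Function.comp_def]
  have hC : ‖(T.map (fun q => w q.1)).sum‖ ≤ B := by
    rw [hmapfst, hT1, (hl₀p.map _).sum_eq]
    exact hB
  have hA : ∀ k, ‖((T.take k).map (fun q => w q.1)).sum‖ ≤ Ar l₀ := by
    intro k
    rw [hmapfst, List.map_take, hT1]
    exact hAr l₀ hl₀p k
  have hnew := chobA w T hC hA hT3
  set l₁ := plA T ++ (miA T).reverse with hl₁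
  have hl₁p : l₁.Perm l := by
    have := perm_chobA T
    rw [hT1] at this
    exact this.trans hl₀p
  have hle : Ar l₀ ≤ Ar l₁ := hmin l₁ (by simpa using hl₁p)
  have hle2 : Ar l₁ ≤ B + (Ar l₀ + √τ) / 2 := by
    apply Finset.sup'_le
    intro k _
    exact hnew k
  have hfin : Ar l₀ ≤ 2 * B + √τ := by linarith
  intro k
  exact (hAr l₀ hl₀p k).trans hfin

end Generic

lemma norm_toLp_eq {I : Type} [Fintype I] (x : I → ℝ) :
    ‖(WithLp.toLp 2 x : EuclideanSpace ℝ I)‖ = √(∑ i, x i ^ 2) := by
  rw [EuclideanSpace.norm_eq]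
  simp [Real.norm_eq_abs, sq_abs]

/-- **Leaf order**: a family with small trace has an order with small prefixes. -/
theorem leaf_order {α I : Type} [Fintype I] (l : List α) (w : α → I → ℝ) {τ : ℝ}
    (ht : (l.map fun a => ∑ i, w a i ^ 2).sum ≤ τ) {B : ℝ}
    (hB : √(∑ i, ((l.map w).sum i) ^ 2) ≤ B) :
    ∃ l' : List α, l'.Perm l ∧ ∀ k, √(∑ i, (((l'.take k).map w).sum i) ^ 2) ≤ 2 * B + √τ := by
  let W : α → EuclideanSpace ℝ I := fun a => WithLp.toLp 2 (w a)
  have hsum : ∀ X : List α, (X.map W).sum = WithLp.toLp 2 ((X.map w).sum) := by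
    intro X
    induction X with
    | nil => simp
    | cons a t ih =>
      simp only [List.map_cons, List.sum_cons, ih]
      rfl
  have hn : ∀ X : List α, ‖(X.map W).sum‖ = √(∑ i, ((X.map w).sum i) ^ 2) := by
    intro X
    rw [hsum, norm_toLp_eq]
  have hnw : ∀ a, ‖W a‖ ^ 2 = ∑ i, w a i ^ 2 := by
    intro a
    simp only [W]
    rw [norm_toLp_eq, Real.sq_sqrt (Finset.sum_nonneg fun i _ => sq_nonneg _)]
  have ht' : (l.map fun a => ‖W a‖ ^ 2).sum ≤ τ := by
    simpa only [hnw] using ht
  obtain ⟨l', hl', hk⟩ := leaf_order_abs (B := B) l W ht' (by rw [hn]; exact hB)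
  refine ⟨l', hl', fun k => ?_⟩
  rw [← hn]
  exact hk k

/-- **Eigenbasis reduction**: a zero-sum family can be written in an orthonormal basis of the span
of its second moment: all prefix norms are preserved. -/
theorem eigen_reduction {d : ℕ} {ι : Type} [Fintype ι] (v : ι → EuclideanSpace ℝ (Fin d)) :
    ∃ (d' : ℕ) (w : ι → Fin d' → ℝ) (f : Fin d' → ℝ), d' ≤ d ∧ (∀ i, 0 < f i) ∧
      (∀ i i', ∑ u, w u i * w u i' = if i = i' then f i ^ 2 else 0) ∧
      ∀ (c : ι → ℝ), ∑ i, (∑ u, c u * w u i) ^ 2 = ‖∑ u, c u • v u‖ ^ 2 := by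
  classical
  -- the second moment operator
  let T : EuclideanSpace ℝ (Fin d) →ₗ[ℝ] EuclideanSpace ℝ (Fin d) :=
    ∑ u, (LinearMap.toSpanSingleton ℝ _ (v u)).comp (innerₛₗ ℝ (v u))
  have hTapp : ∀ x, T x = ∑ u, inner ℝ (v u) x • v u := by
    intro x
    simp [T, LinearMap.sum_apply]
  have hTsym : T.IsSymmetric := by
    intro x y
    rw [hTapp, hTapp, sum_inner, inner_sum]
    refine Finset.sum_congr rfl fun u _ => ?_
    rw [inner_smul_left, inner_smul_right]
    simp only [conj_trivial]
    rw [real_inner_comm (v u) x]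
    ring
  have hfr : Module.finrank ℝ (EuclideanSpace ℝ (Fin d)) = d := finrank_euclideanSpace_fin
  let b := hTsym.eigenvectorBasis hfr
  let lam := hTsym.eigenvalues hfr
  have hb : ∀ a, T (b a) = lam a • b a := fun a => by
    have h := hTsym.apply_eigenvectorBasis hfr a
    simp only [RCLike.ofReal_real_eq_id, id] at h
    exact h
  have hlam : ∀ a a', ∑ u, inner ℝ (v u) (b a) * inner ℝ (v u) (b a')
      = if a = a' then lam a else 0 := by
    intro a a'
    have h1 : inner ℝ (b a') (T (b a)) = ∑ u, inner ℝ (v u) (b a) * inner ℝ (v u) (b a') := by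
      rw [hTapp, inner_sum]
      refine Finset.sum_congr rfl fun u _ => ?_
      rw [inner_smul_right, real_inner_comm (v u) (b a')]
    rw [← h1, hb, inner_smul_right, b.inner_eq_ite]
    by_cases h : a = a'
    · subst h; simp
    · have h' : a' ≠ a := fun e => h e.symm
      simp [h, h']
  have hlam0 : ∀ a, 0 ≤ lam a := by
    intro a
    have := hlam a a
    rw [if_pos rfl] at this
    rw [← this]
    exact Finset.sum_nonneg fun u _ => mul_self_nonneg _
  have hzero : ∀ a, lam a = 0 → ∀ u, inner ℝ (v u) (b a) = 0 := by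
    intro a ha u
    have h1 := hlam a a
    rw [if_pos rfl, ha] at h1
    have h2 := (Finset.sum_eq_zero_iff_of_nonneg (fun u _ => mul_self_nonneg _)).1 h1 u
      (Finset.mem_univ u)
    exact mul_self_eq_zero.1 h2
  let J : Finset (Fin d) := Finset.univ.filter fun a => lam a ≠ 0
  let e : Fin J.card ≃ J := J.equivFin.symm
  refine ⟨J.card, fun u i => inner ℝ (v u) (b (e i)), fun i => √(lam (e i)), ?_, ?_, ?_, ?_⟩
  · calc J.card ≤ (Finset.univ : Finset (Fin d)).card := Finset.card_le_card (Finset.subset_univ _)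
      _ = d := by simp
  · intro i
    apply Real.sqrt_pos.2
    have h1 : lam (e i) ≠ 0 := (Finset.mem_filter.1 (e i).2).2
    exact lt_of_le_of_ne (hlam0 _) (Ne.symm h1)
  · intro i i'
    rw [hlam]
    by_cases h : i = i'
    · subst h
      simp [Real.sq_sqrt (hlam0 _)]
    · have h' : ((e i : Fin d)) ≠ e i' := by
        intro h2
        exact h (e.injective (Subtype.ext h2))
      simp [h, h']
  · intro c
    set x := ∑ u, c u • v u with hx
    have h1 : ∀ a, ∑ u, c u * inner ℝ (v u) (b a) = inner ℝ x (b a) := by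
      intro a
      rw [hx, sum_inner]
      refine Finset.sum_congr rfl fun u _ => ?_
      rw [real_inner_smul_left]
    have h2 : ∑ i, (∑ u, c u * inner ℝ (v u) (b (e i))) ^ 2 = ∑ i : Fin J.card, inner ℝ x (b (e i)) ^ 2 :=
      Finset.sum_congr rfl fun i _ => by rw [h1]
    rw [h2]
    have h3 : ∑ i : Fin J.card, inner ℝ x (b (e i)) ^ 2 = ∑ a : J, inner ℝ x (b a) ^ 2 :=
      Equiv.sum_comp e (fun a : J => inner ℝ x (b a) ^ 2)
    rw [h3, Finset.sum_coe_sort J (fun a => inner ℝ x (b a) ^ 2)]
    have h4 : ∑ a ∈ J, inner ℝ x (b a) ^ 2 = ∑ a, inner ℝ x (b a) ^ 2 := by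
      apply Finset.sum_subset (Finset.subset_univ _)
      intro a _ ha
      have h5 : lam a = 0 := by
        by_contra h6
        exact ha (Finset.mem_filter.2 ⟨Finset.mem_univ _, h6⟩)
      rw [← h1]
      simp [hzero a h5]
    rw [h4]
    have h6 := b.sum_sq_norm_inner_right x
    simp only [Real.norm_eq_abs, sq_abs] at h6
    rw [← h6]
    refine Finset.sum_congr rfl fun a _ => ?_
    rw [real_inner_comm]

end Vale.Agent.Lib.P262S
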