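import Vale.Agent.Lib.P262S.Steer

open Finset Real

namespace Vale.Agent.Lib.P262S

section NB
set_option linter.unusedSectionVars false
variable {ι E : Type} [AddCommGroup E] [Module ℝ E]

/-- the new block of an item -/
noncomputable def newBl (pos : ι → ℕ) (χ : ι → ℝ) (M' : ℕ) (u : ι) : ℕ :=
  if (pos u + 1 = 16 * ((pos u + 1) / 16) ∨ pos u = 16 * ((pos u + 1) / 16))
      ∧ 0 < (pos u + 1) / 16 ∧ (pos u + 1) / 16 < M' then
    (if χ u = 1 then (pos u + 1) / 16 - 1 else (pos u + 1) / 16)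
  else pos u / 16

/-- reservoir at boundary `s` -/
def Zs (Lt : Finset ι) (pos : ι → ℕ) (s : ℕ) : Finset ι :=
  Lt.filter (fun u => pos u + 1 = 16 * s ∨ pos u = 16 * s)

lemma newBl_lt_iff (pos : ι → ℕ) (χ : ι → ℝ) {M' s : ℕ} (hs : 0 < s) (hsM : s < M') (u : ι) :
    newBl pos χ M' u < s ↔
      pos u + 1 < 16 * s ∨ ((pos u + 1 = 16 * s ∨ pos u = 16 * s) ∧ χ u = 1) := by
  unfold newBl
  set p := pos u with hp
  have h1 : (p + 1) = 16 * ((p + 1) / 16) + (p + 1) % 16 := (Nat.div_add_mod _ _).symm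
  have h2 := Nat.mod_lt (p + 1) (by norm_num : 16 > 0)
  set s' := (p + 1) / 16 with hs'
  have h3 : p = 16 * (p / 16) + p % 16 := (Nat.div_add_mod _ _).symm
  have h4 := Nat.mod_lt p (by norm_num : 16 > 0)
  split_ifs with hc hχ
  · obtain ⟨hc1, hc2, hc3⟩ := hc
    constructor
    · intro h
      rcases lt_trichotomy s' s with h5 | h5 | h5
      · left
        omega
      · right
        rw [h5] at hc1
        exact ⟨hc1, hχ⟩
      · omega
    · rintro (h | ⟨h, _⟩) <;> omega
  · obtain ⟨hc1, hc2, hc3⟩ := hc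
    constructor
    · intro h
      left
      omega
    · rintro (h | ⟨h, h'⟩)
      · omega
      · rcases lt_trichotomy s' s with h5 | h5 | h5
        · omega
        · exact absurd h' hχ
        · omega
  · constructor
    · intro h
      left
      have : p / 16 < s := h
      by_contra hcon
      have h6 : 16 * s ≤ p + 1 := by omega
      have h7 : p < 16 * s := by
        have : p / 16 + 1 ≤ s := h
        omega
      have h8 : p + 1 = 16 * s := by omega
      apply hc
      have : s' = s := by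
        rw [hs', h8]
        simp
      rw [this]
      exact ⟨Or.inl h8, hs, hsM⟩
    · rintro (h | ⟨h, _⟩)
      · have : p / 16 < s := by omega
        exact this
      · exfalso
        apply hc
        have : s' = s := by
          rcases h with h | h
          · rw [hs', h]
            simp
          · rw [hs', h]
            omega
        rw [this]
        exact ⟨h, hs, hsM⟩

lemma newBl_lt_top (pos : ι → ℕ) (χ : ι → ℝ) {M' : ℕ} {u : ι} (hu : pos u < 16 * M') :
    newBl pos χ M' u < M' := by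
  unfold newBl
  split_ifs with hc hχ
  · omega
  · exact hc.2.2
  · omega

lemma sm_new (Lt : Finset ι) (pos : ι → ℕ) (χ : ι → ℝ) (hχ : ∀ u, χ u = 0 ∨ χ u = 1) (g : ι → E)
    {M' s : ℕ} (hs : 0 < s) (hsM : s < M') :
    Sm Lt (newBl pos χ M') g s = Sm Lt pos g (16 * s - 1) + ∑ u ∈ Zs Lt pos s, χ u • g u := by
  classical
  unfold Sm Zs
  have h1 : ∑ u ∈ Lt.filter (fun u => pos u + 1 = 16 * s ∨ pos u = 16 * s), χ u • g u
      = ∑ u ∈ (Lt.filter (fun u => pos u + 1 = 16 * s ∨ pos u = 16 * s)).filter (fun u => χ u = 1), g u := by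
    rw [Finset.sum_filter (s := Lt.filter _) (p := fun u => χ u = 1)]
    apply Finset.sum_congr rfl
    intro u _
    rcases hχ u with h | h
    · simp [h]
    · simp [h]
  rw [h1, ← Finset.sum_union]
  · apply Finset.sum_congr _ (fun _ _ => rfl)
    ext u
    simp only [mem_filter, mem_union, newBl_lt_iff pos χ hs hsM u]
    constructor
    · rintro ⟨h1, h2 | h2⟩
      · left
        exact ⟨h1, by omega⟩
      · right
        exact ⟨⟨h1, h2.1⟩, h2.2⟩
    · rintro (⟨h1, h2⟩ | ⟨⟨h1, h2⟩, h3⟩)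
      · exact ⟨h1, Or.inl (by omega)⟩
      · exact ⟨h1, Or.inr ⟨h2, h3⟩⟩
  · rw [Finset.disjoint_left]
    intro u hu hu'
    simp only [mem_filter] at hu hu'
    omega

lemma sm_new_top (Lt : Finset ι) (pos : ι → ℕ) (χ : ι → ℝ) (g : ι → E) {M' : ℕ}
    (hu : ∀ u ∈ Lt, pos u < 16 * M') :
    Sm Lt (newBl pos χ M') g M' = Sm Lt pos g (16 * M') := by
  unfold Sm
  apply Finset.sum_congr _ (fun _ _ => rfl)
  ext u
  simp only [mem_filter]
  constructor
  · rintro ⟨h1, _⟩
    exact ⟨h1, hu u h1⟩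
  · rintro ⟨h1, _⟩
    exact ⟨h1, newBl_lt_top pos χ (hu u h1)⟩

lemma z_sum (Lt : Finset ι) (pos : ι → ℕ) (g : ι → E) {s : ℕ} (hs : 0 < s) :
    Sm Lt pos g (16 * s + 1) = Sm Lt pos g (16 * s - 1) + ∑ u ∈ Zs Lt pos s, g u := by
  classical
  unfold Sm Zs
  rw [← Finset.sum_union]
  · apply Finset.sum_congr _ (fun _ _ => rfl)
    ext u
    simp only [mem_filter, mem_union]
    constructor
    · rintro ⟨h1, h2⟩
      by_cases h3 : pos u < 16 * s - 1
      · exact Or.inl ⟨h1, h3⟩
      · exact Or.inr ⟨h1, by omega⟩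
    · rintro (⟨h1, h2⟩ | ⟨h1, h2⟩)
      · exact ⟨h1, by omega⟩
      · exact ⟨h1, by omega⟩
  · rw [Finset.disjoint_left]
    intro u hu hu'
    simp only [mem_filter] at hu hu'
    omega

/-- the baseline at boundary `s`: average of the two neighbouring positions -/
noncomputable def Bas (Lt : Finset ι) (pos : ι → ℕ) (g : ι → E) (s : ℕ) : E :=
  (1 / 2 : ℝ) • (Sm Lt pos g (16 * s - 1) + Sm Lt pos g (16 * s + 1))

lemma sm_new_bas (Lt : Finset ι) (pos : ι → ℕ) (χ y : ι → ℝ) (hχ : ∀ u, χ u = 0 ∨ χ u = 1) (g : ι → E)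
    {M' s : ℕ} (hs : 0 < s) (hsM : s < M') :
    Sm Lt (newBl pos χ M') g s = Bas Lt pos g s + ∑ u ∈ Zs Lt pos s, y u • g u
      + ∑ u ∈ Zs Lt pos s, (χ u - (1 / 2 + y u)) • g u := by
  rw [sm_new Lt pos χ hχ g hs hsM]
  unfold Bas
  rw [z_sum Lt pos g hs]
  rw [add_assoc, ← Finset.sum_add_distrib]
  have e : ∀ u, y u • g u + (χ u - (1 / 2 + y u)) • g u = χ u • g u - (1 / 2 : ℝ) • g u := by
    intro u
    rw [← add_smul, ← sub_smul]
    congr 1
    ring
  simp_rw [e]
  rw [Finset.sum_sub_distrib, ← Finset.smul_sum]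
  module

end NB

end Vale.Agent.Lib.P262S
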