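import Vale.Agent.Lib.P262S.Defs

section
open MeasureTheory ProbabilityTheory WithLp Real
open scoped ENNReal

namespace Vale.Agent.Lib.P262S

open Vale.Agent.Lib.P262B

/-! ### Gaussian tail of a slab -/

lemma slab_one {m : ℕ} (c : Eu m) (hc : ‖c‖ ≤ 1) {R : ℝ} (hR : 0 ≤ R) :
    (stdGaussian (Eu m)).real {z | R ≤ inner ℝ c z} ≤ exp (-(R ^ 2 / 2)) := by
  let L : StrongDual ℝ (Eu m) := innerSL ℝ c
  have hmap : (stdGaussian (Eu m)).map L = gaussianReal 0 (‖c‖ ^ 2).toNNReal := by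
    have := IsGaussian.map_eq_gaussianReal (μ := stdGaussian (Eu m)) L
    rw [integral_strongDual_stdGaussian, variance_dual_stdGaussian, innerSL_apply_norm] at this
    exact this
  have hm := mgf_gaussianReal hmap R
  have hint : Integrable (fun z => Real.exp (R * L z)) (stdGaussian (Eu m)) := by
    have h1 : Integrable (fun x : ℝ => Real.exp (R * x)) ((stdGaussian (Eu m)).map L) := by
      rw [hmap]
      exact integrable_exp_mul_gaussianReal R
    exact h1.comp_measurable L.continuous.measurable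
  have h := measure_ge_le_exp_mul_mgf (X := L) (μ := stdGaussian (Eu m)) R hR hint
  rw [hm] at h
  have e : {z | R ≤ inner ℝ c z} = {ω | R ≤ L ω} := by
    ext z; simp [L]
  rw [e]
  refine h.trans ?_
  rw [← exp_add]
  apply exp_le_exp.2
  have hv : (((‖c‖ ^ 2).toNNReal : NNReal) : ℝ) = ‖c‖ ^ 2 := Real.coe_toNNReal _ (by positivity)
  rw [hv]
  have h2 : ‖c‖ ^ 2 ≤ 1 := pow_le_one₀ (norm_nonneg _) hc
  have h3 : 0 ≤ R ^ 2 := by positivity
  nlinarith

lemma slab_tail {m : ℕ} (c : Eu m) (hc : ‖c‖ ≤ 1) {R : ℝ} (hR : 0 ≤ R) :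
    (stdGaussian (Eu m)).real {z | R < |inner ℝ c z|} ≤ 2 * exp (-(R ^ 2 / 2)) := by
  have h1 := slab_one c hc hR
  have h2 := slab_one (-c) (by simpa using hc) hR
  have hsub : {z : Eu m | R < |inner ℝ c z|}
      ⊆ {z | R ≤ inner ℝ c z} ∪ {z | R ≤ inner ℝ (-c) z} := by
    intro z hz
    have hz' : R < |inner ℝ c z| := hz
    rcases lt_abs.1 hz' with h | h
    · exact Or.inl (le_of_lt h)
    · right
      change R ≤ inner ℝ (-c) z
      rw [inner_neg_left]
      exact le_of_lt h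
  have h3 := measureReal_mono (μ := stdGaussian (Eu m)) hsub (measure_ne_top _ _)
  have h4 := measureReal_union_le (μ := stdGaussian (Eu m)) {z | R ≤ inner ℝ c z} {z | R ≤ inner ℝ (-c) z}
  linarith


/-! ### Signs with marks -/

/-- Signs for a sequence of vectors of norm `r0`; partial sums at the marks stay in `K`. -/
theorem signs_fun {D : ℕ} {δ : ℝ} {K : Set (Eu (D + 1))} (hK : IsCompact K) (hKc : Convex ℝ K)
    (hKs : ∀ x ∈ K, -x ∈ K) (hδ : (stdGaussian (Eu (D + 1))).real Kᶜ ≤ δ)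
    (d : ℕ → Eu (D + 1)) (marks : Finset ℕ) (M : ℕ) (hd : ∀ t, t < M → ‖d t‖ = r0) :
    ∀ L : Set (Eu (D + 1)), IsCompact L → Convex ℝ L → (∀ x ∈ L, -x ∈ L) →
      1 / 2 + ((marks.filter (· < M)).card : ℝ) * δ ≤ (stdGaussian (Eu (D + 1))).real L →
      ∃ s : ℕ → ℝ, (∀ t, s t = 1 ∨ s t = -1) ∧
        (∀ j ∈ marks, j < M → ∑ i ∈ Finset.range j, s i • d i ∈ K) ∧
        ∑ i ∈ Finset.range M, s i • d i ∈ L := by
  have hδ0 : 0 ≤ δ := le_trans measureReal_nonneg hδ
  induction M with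
  | zero =>
    intro L hL hLc hLs hLm
    have hpos : 0 < (stdGaussian (Eu (D + 1))).real L := by
      have h0 : (0:ℝ) ≤ ((marks.filter (· < 0)).card : ℝ) * δ := by positivity
      linarith
    have hne : L.Nonempty := by
      by_contra hemp
      rw [Set.not_nonempty_iff_eq_empty] at hemp
      simp [hemp] at hpos
    obtain ⟨x, hx⟩ := hne
    have h0 : (0 : Eu (D + 1)) ∈ L := by
      have := hLc hx (hLs x hx) (a := 1 / 2) (b := 1 / 2) (by norm_num) (by norm_num) (by norm_num)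
      simpa using this
    refine ⟨fun _ => 1, fun _ => Or.inl rfl, ?_, by simpa using h0⟩
    intro j _ hj
    omega
  | succ M ih =>
    intro L hL hLc hLs hLm
    have hfa : ‖d M‖ = r0 := hd M (by omega)
    have hft : ∀ t, t < M → ‖d t‖ = r0 := fun t ht => hd t (by omega)
    have hune : d M ≠ 0 := by
      rw [← norm_pos_iff, hfa]
      exact r0_pos
    have hL12 : 1 / 2 ≤ (stdGaussian (Eu (D + 1))).real L := by
      have h1 : (0:ℝ) ≤ ((marks.filter (· < M + 1)).card : ℝ) * δ := by positivity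
      linarith
    have hstar := main_E hL hLc hfa hL12
    have hS : IsCompact (starBody L (d M)) := starBody_compact hL hune
    -- the next body
    have hnext : ∃ L' : Set (Eu (D + 1)), IsCompact L' ∧ Convex ℝ L' ∧ (∀ x ∈ L', -x ∈ L') ∧
        L' ⊆ starBody L (d M) ∧ (M ∈ marks → L' ⊆ K) ∧
        1 / 2 + ((marks.filter (· < M)).card : ℝ) * δ ≤ (stdGaussian (Eu (D + 1))).real L' := by
      by_cases hM : M ∈ marks
      · refine ⟨starBody L (d M) ∩ K, hS.inter_right hK.isClosed,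
          (starBody_convex hLc _).inter hKc, ?_, Set.inter_subset_left,
          fun _ => Set.inter_subset_right, ?_⟩
        · intro x hx
          exact ⟨starBody_symm hLs _ x hx.1, hKs x hx.2⟩
        · have h1 : (stdGaussian (Eu (D + 1))).real (starBody L (d M))
              ≤ (stdGaussian (Eu (D + 1))).real (starBody L (d M) ∩ K)
                + (stdGaussian (Eu (D + 1))).real Kᶜ := by
            have hsub : starBody L (d M) ⊆ (starBody L (d M) ∩ K) ∪ Kᶜ := by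
              intro x hx
              by_cases hb : x ∈ K
              · exact Or.inl ⟨hx, hb⟩
              · exact Or.inr hb
            exact (measureReal_mono hsub (measure_ne_top _ _)).trans
              (measureReal_union_le _ _)
          have h2 : marks.filter (· < M + 1) = insert M (marks.filter (· < M)) := by
            ext x
            simp only [Finset.mem_filter, Finset.mem_insert]
            constructor
            · rintro ⟨h, h'⟩
              by_cases hx : x = M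
              · exact Or.inl hx
              · exact Or.inr ⟨h, by omega⟩
            · rintro (rfl | ⟨h, h'⟩)
              · exact ⟨hM, by omega⟩
              · exact ⟨h, by omega⟩
          have h3 : ((marks.filter (· < M + 1)).card : ℝ)
              = ((marks.filter (· < M)).card : ℝ) + 1 := by
            rw [h2, Finset.card_insert_of_notMem (by simp)]
            push_cast
            ring
          rw [h3] at hLm
          nlinarith
      · refine ⟨starBody L (d M), hS, starBody_convex hLc _, starBody_symm hLs _,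
          subset_rfl, fun h => absurd h hM, ?_⟩
        have h2 : marks.filter (· < M + 1) = marks.filter (· < M) := by
          ext x
          simp only [Finset.mem_filter]
          constructor
          · rintro ⟨h, h'⟩
            refine ⟨h, ?_⟩
            by_contra hx
            have : x = M := by omega
            exact hM (this ▸ h)
          · rintro ⟨h, h'⟩
            exact ⟨h, by omega⟩
        rw [h2] at hLm
        linarith
    obtain ⟨L', hL'c, hL'v, hL's, hL'sub, hL'K, hL'm⟩ := hnext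
    obtain ⟨s, hs1, hs2, hs3⟩ := ih hft L' hL'c hL'v hL's hL'm
    set x := ∑ i ∈ Finset.range M, s i • d i with hx
    have hsign := starBody_sign hLc (hL'sub hs3)
    have key : ∃ b : ℝ, (b = 1 ∨ b = -1) ∧ x + b • d M ∈ L := by
      rcases hsign with h | h
      · exact ⟨1, Or.inl rfl, by simpa using h⟩
      · refine ⟨-1, Or.inr rfl, ?_⟩
        simpa [sub_eq_add_neg] using h
    obtain ⟨b, hb, hbL⟩ := key
    have hupd : ∀ j, j ≤ M → ∑ i ∈ Finset.range j, (Function.update s M b) i • d i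
        = ∑ i ∈ Finset.range j, s i • d i := by
      intro j hj
      apply Finset.sum_congr rfl
      intro i hi
      have : i ≠ M := by
        have := Finset.mem_range.1 hi
        omega
      rw [Function.update_of_ne this]
    refine ⟨Function.update s M b, ?_, ?_, ?_⟩
    · intro t
      by_cases ht : t = M
      · subst ht
        simpa using hb
      · rw [Function.update_of_ne ht]
        exact hs1 t
    · intro j hj hjM
      rw [hupd j (by omega)]
      rcases Nat.lt_succ_iff_lt_or_eq.1 hjM with h | h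
      · exact hs2 j hj h
      · subst h
        exact hL'K hj hs3
    · rw [Finset.sum_range_succ, hupd M le_rfl, Function.update_self]
      exact hbL

/-! ### The body of tests and the tests version of the signs -/

section Tests

variable {J : Type} [Fintype J]

/-- transport of a function on `J` to Euclidean space -/
noncomputable def toE (v : J → ℝ) : Eu (Fintype.card J) :=
  toLp 2 (fun i => v ((Fintype.equivFin J).symm i))

lemma norm_toE_sq (v : J → ℝ) : ‖toE v‖ ^ 2 = ∑ x, v x ^ 2 := by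
  rw [EuclideanSpace.real_norm_sq_eq]
  simp only [toE, PiLp.toLp_apply]
  exact Equiv.sum_comp (Fintype.equivFin J).symm fun x => v x ^ 2

lemma norm_toE_le (v : J → ℝ) (h : ∑ x, v x ^ 2 ≤ 1) : ‖toE v‖ ≤ 1 := by
  have h1 := norm_toE_sq v
  rw [← h1] at h
  exact (pow_le_one_iff_of_nonneg (norm_nonneg _) (by norm_num)).1 h

/-- the test vector: no component along the new coordinate -/
noncomputable def tv (c : J → ℝ) : Eu (Fintype.card J + 1) :=
  toLp 2 (Fin.cons 0 (fun i => c ((Fintype.equivFin J).symm i)))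

lemma norm_tv_sq (c : J → ℝ) : ‖tv c‖ ^ 2 = ∑ x, c x ^ 2 := by
  rw [EuclideanSpace.real_norm_sq_eq, Fin.sum_univ_succ]
  simp only [tv, PiLp.toLp_apply, Fin.cons_zero, Fin.cons_succ]
  have := Equiv.sum_comp (Fintype.equivFin J).symm fun x => c x ^ 2
  simp only [ne_eq, OfNat.ofNat_ne_zero, not_false_eq_true, zero_pow, zero_add]
  exact this

lemma norm_tv_le (c : J → ℝ) (h : ∑ x, c x ^ 2 ≤ 1) : ‖tv c‖ ≤ 1 := by
  have h1 := norm_tv_sq c
  rw [← h1] at h
  exact (pow_le_one_iff_of_nonneg (norm_nonneg _) (by norm_num)).1 h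

lemma inner_tv_lift (c v : J → ℝ) :
    inner ℝ (tv c) (lift (toE v)) = r0 * ∑ x, c x * v x := by
  rw [PiLp.inner_apply, Fin.sum_univ_succ]
  simp only [tv, lift, toE, PiLp.toLp_apply, Fin.cons_zero, Fin.cons_succ, RCLike.inner_apply,
    conj_trivial, zero_add, mul_zero]
  rw [Finset.mul_sum]
  have := Equiv.sum_comp (Fintype.equivFin J).symm fun x => r0 * (c x * v x)
  rw [← this]
  apply Finset.sum_congr rfl
  intro i _
  ring

/-- the body cut out by the tests -/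
theorem exists_body (T : Finset ((J → ℝ) × ℝ)) (hT : ∀ t ∈ T, ∑ x, t.1 x ^ 2 ≤ 1 ∧ 0 ≤ t.2)
    {ε : ℝ} (hε : 0 < ε) :
    ∃ K : Set (Eu (Fintype.card J + 1)), IsCompact K ∧ Convex ℝ K ∧ (∀ x ∈ K, -x ∈ K) ∧
      (stdGaussian (Eu (Fintype.card J + 1))).real Kᶜ ≤ ε + ∑ t ∈ T, 2 * exp (-(t.2 ^ 2 / 2)) ∧
      ∀ z ∈ K, ∀ t ∈ T, |inner ℝ (tv t.1) z| ≤ t.2 := by
  classical
  set m := Fintype.card J + 1 with hm
  -- a big radius
  obtain ⟨ρ, hρ0, hρ⟩ : ∃ ρ : ℝ, 0 ≤ ρ ∧ (2:ℝ) ^ m * exp (-(ρ ^ 2 / 4)) ≤ ε := by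
    have h2 : (0:ℝ) < 2 ^ m := by positivity
    refine ⟨√(4 * max 0 (log (2 ^ m / ε))), by positivity, ?_⟩
    rw [Real.sq_sqrt (by positivity)]
    have e : 4 * max 0 (log (2 ^ m / ε)) / 4 = max 0 (log (2 ^ m / ε)) := by ring
    rw [e]
    have h3 : exp (-(max 0 (log (2 ^ m / ε)))) ≤ exp (-(log (2 ^ m / ε))) :=
      exp_le_exp.2 (neg_le_neg (le_max_right _ _))
    rw [exp_neg (log _), exp_log (by positivity)] at h3
    calc (2:ℝ) ^ m * exp (-(max 0 (log (2 ^ m / ε))))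
        ≤ 2 ^ m * (2 ^ m / ε)⁻¹ := mul_le_mul_of_nonneg_left h3 h2.le
      _ = ε := by field_simp
  let S : ((J → ℝ) × ℝ) → Set (Eu m) := fun t => {z | |inner ℝ (tv t.1) z| ≤ t.2}
  let Int : Set (Eu m) := ⋂ t ∈ T, S t
  have hSc : ∀ t, IsClosed (S t) := fun t =>
    isClosed_le (by fun_prop) continuous_const
  have hIntc : IsClosed Int := isClosed_biInter fun t _ => hSc t
  refine ⟨Metric.closedBall 0 ρ ∩ Int, (isCompact_closedBall _ _).inter_right hIntc, ?_, ?_, ?_, ?_⟩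
  · apply (convex_closedBall _ _).inter
    apply convex_iInter₂
    intro t _ x hx y hy a b ha hb hab
    have hx' : |inner ℝ (tv t.1) x| ≤ t.2 := hx
    have hy' : |inner ℝ (tv t.1) y| ≤ t.2 := hy
    change |inner ℝ (tv t.1) (a • x + b • y)| ≤ t.2
    rw [inner_add_right, inner_smul_right, inner_smul_right]
    refine (abs_add_le _ _).trans ?_
    rw [abs_mul, abs_mul, abs_of_nonneg ha, abs_of_nonneg hb]
    calc a * |inner ℝ (tv t.1) x| + b * |inner ℝ (tv t.1) y|
        ≤ a * t.2 + b * t.2 := add_le_add (mul_le_mul_of_nonneg_left hx' ha)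
          (mul_le_mul_of_nonneg_left hy' hb)
      _ = t.2 := by rw [← add_mul, hab, one_mul]
  · rintro x ⟨hx1, hx2⟩
    refine ⟨by simpa using hx1, ?_⟩
    simp only [Int, Set.mem_iInter] at hx2 ⊢
    intro t ht
    have := hx2 t ht
    change |inner ℝ (tv t.1) (-x)| ≤ t.2
    rw [inner_neg_right, abs_neg]
    exact this
  · have hsub : (Metric.closedBall (0 : Eu m) ρ ∩ Int)ᶜ
        ⊆ (Metric.closedBall (0 : Eu m) ρ)ᶜ
          ∪ ⋃ t ∈ T, {z : Eu m | t.2 < |inner ℝ (tv t.1) z|} := by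
      intro z hz
      by_cases hb : z ∈ Metric.closedBall (0 : Eu m) ρ
      · right
        have hzI : z ∉ Int := fun h => hz ⟨hb, h⟩
        simp only [Int, Set.mem_iInter, not_forall] at hzI
        obtain ⟨t, ht, hzt⟩ := hzI
        simp only [Set.mem_iUnion]
        have hzt' : ¬ |inner ℝ (tv t.1) z| ≤ t.2 := hzt
        exact ⟨t, ht, not_le.1 hzt'⟩
      · exact Or.inl hb
    have h1 := measureReal_mono (μ := stdGaussian (Eu m)) hsub (measure_ne_top _ _)
    have h2 := measureReal_union_le (μ := stdGaussian (Eu m)) (Metric.closedBall (0 : Eu m) ρ)ᶜ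
      (⋃ t ∈ T, {z : Eu m | t.2 < |inner ℝ (tv t.1) z|})
    have h3 : (stdGaussian (Eu m)).real (⋃ t ∈ T, {z : Eu m | t.2 < |inner ℝ (tv t.1) z|})
        ≤ ∑ t ∈ T, 2 * exp (-(t.2 ^ 2 / 2)) := by
      refine (measureReal_biUnion_finset_le _ _).trans ?_
      apply Finset.sum_le_sum
      intro t ht
      exact slab_tail (tv t.1) (norm_tv_le _ (hT t ht).1) (hT t ht).2
    have h4 := gauss_tail m hρ0
    linarith
  · rintro z ⟨_, hz⟩ t ht
    simp only [Int, Set.mem_iInter] at hz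
    exact hz t ht

/-- Banaszczyk signs against a finite family of tests, at marked partial sums. -/
theorem signs_tests (M : ℕ) (v : ℕ → J → ℝ) (hv : ∀ t, t < M → ∑ x, v t x ^ 2 ≤ 1)
    (T : Finset ((J → ℝ) × ℝ)) (hT : ∀ t ∈ T, ∑ x, t.1 x ^ 2 ≤ 1 ∧ 0 ≤ t.2)
    (marks : Finset ℕ) (hb : ((marks.card : ℝ) + 1) * ∑ t ∈ T, 2 * exp (-(t.2 ^ 2 / 2)) ≤ 1 / 4) :
    ∃ s : ℕ → ℝ, (∀ t, s t = 1 ∨ s t = -1) ∧ ∀ j ∈ marks, j ≤ M → ∀ t ∈ T,
      |∑ i ∈ Finset.range j, s i * ∑ x, t.1 x * v i x| ≤ t.2 / r0 := by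
  have hr := r0_pos
  have hc : (0:ℝ) < (marks.card : ℝ) + 1 := by positivity
  set ε : ℝ := 1 / (4 * ((marks.card : ℝ) + 1)) with hε
  have hε0 : 0 < ε := by positivity
  obtain ⟨K, hK, hKc, hKs, hKm, hKt⟩ := exists_body T hT hε0
  set δ := ε + ∑ t ∈ T, 2 * exp (-(t.2 ^ 2 / 2)) with hδ
  have hδm : ((marks.card : ℝ) + 1) * δ ≤ 1 / 2 := by
    have h1 : ((marks.card : ℝ) + 1) * ε = 1 / 4 := by
      rw [hε]; field_simp
    rw [hδ, mul_add, h1]
    linarith
  have hδ0 : 0 ≤ δ := le_trans measureReal_nonneg hKm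
  set d : ℕ → Eu (Fintype.card J + 1) := fun i => lift (toE (v i)) with hd
  have hdn : ∀ t, t < M → ‖d t‖ = r0 := fun t ht => norm_lift (norm_toE_le _ (hv t ht))
  have hKmeas : 1 / 2 + ((marks.filter (· < M)).card : ℝ) * δ
      ≤ (stdGaussian (Eu (Fintype.card J + 1))).real K := by
    have h1 : (stdGaussian (Eu (Fintype.card J + 1))).real K
        = 1 - (stdGaussian (Eu (Fintype.card J + 1))).real Kᶜ := by
      rw [probReal_compl_eq_one_sub hK.measurableSet]
      ring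
    rw [h1]
    have h2 : ((marks.filter (· < M)).card : ℝ) ≤ marks.card := by
      exact_mod_cast Finset.card_filter_le _ _
    nlinarith
  obtain ⟨s, hs1, hs2, hs3⟩ := signs_fun hK hKc hKs hKm d marks M hdn K hK hKc hKs hKmeas
  refine ⟨s, hs1, ?_⟩
  intro j hj hjM t ht
  have hin : ∑ i ∈ Finset.range j, s i • d i ∈ K := by
    rcases Nat.lt_or_ge j M with h | h
    · exact hs2 j hj h
    · have : j = M := le_antisymm hjM h
      rw [this]
      exact hs3
  have h1 := hKt _ hin t ht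
  rw [inner_sum] at h1
  have h2 : ∑ i ∈ Finset.range j, inner ℝ (tv t.1) (s i • d i)
      = r0 * ∑ i ∈ Finset.range j, s i * ∑ x, t.1 x * v i x := by
    rw [Finset.mul_sum]
    apply Finset.sum_congr rfl
    intro i _
    rw [inner_smul_right, hd]
    simp only
    rw [inner_tv_lift]
    ring
  rw [h2, abs_mul, abs_of_pos hr] at h1
  rw [le_div_iff₀ hr, mul_comm]
  exact h1

end Tests

end Vale.Agent.Lib.P262S
end

section
open Finset Real

namespace Vale.Agent.Lib.P262S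

open Vale.Agent.Lib.P262B

/-! ### One folding step, at the level of positions -/

/-- sign of position `i` under the pair signs `s` -/
noncomputable def sg (s : ℕ → ℝ) (i : ℕ) : ℝ := s (i / 2) * (if i % 2 = 0 then 1 else -1)

lemma sg_cases {s : ℕ → ℝ} (hs : ∀ t, s t = 1 ∨ s t = -1) (i : ℕ) : sg s i = 1 ∨ sg s i = -1 := by
  unfold sg
  rcases hs (i / 2) with h | h <;> by_cases hi : i % 2 = 0 <;> simp [h, hi]

lemma sg_even (s : ℕ → ℝ) (t : ℕ) : sg s (2 * t) = s t := by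
  unfold sg
  have h1 : 2 * t / 2 = t := by omega
  simp [h1]

lemma sg_odd (s : ℕ → ℝ) (t : ℕ) : sg s (2 * t + 1) = - s t := by
  unfold sg
  have h1 : (2 * t + 1) / 2 = t := by omega
  have h2 : (2 * t + 1) % 2 ≠ 0 := by omega
  simp [h1, h2]

open scoped Classical in
/-- new position after the folding with signs `s`: plus items forward, minus items reversed -/
noncomputable def np (P : ℕ) (s : ℕ → ℝ) (i : ℕ) : ℕ := if sg s i = 1 then i / 2 else 2 * P - 1 - i / 2

lemma np_lt {P : ℕ} (s : ℕ → ℝ) {i : ℕ} (hi : i < 2 * P) : np P s i < 2 * P := by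
  unfold np
  split_ifs <;> omega

lemma np_inj {P : ℕ} {s : ℕ → ℝ} (hs : ∀ t, s t = 1 ∨ s t = -1) {i i' : ℕ} (hi : i < 2 * P)
    (hi' : i' < 2 * P) (h : np P s i = np P s i') : i = i' := by
  unfold np at h
  by_cases h1 : sg s i = 1 <;> by_cases h2 : sg s i' = 1
  · rw [if_pos h1, if_pos h2] at h
    unfold sg at h1 h2
    rw [← h] at h2
    by_cases e1 : i % 2 = 0 <;> by_cases e2 : i' % 2 = 0
    · omega
    · simp only [e1, e2, if_true, if_false] at h1 h2
      norm_num at h1 h2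
      linarith
    · simp only [e1, e2, if_true, if_false] at h1 h2
      norm_num at h1 h2
      linarith
    · omega
  · rw [if_pos h1, if_neg h2] at h
    omega
  · rw [if_neg h1, if_pos h2] at h
    omega
  · rw [if_neg h1, if_neg h2] at h
    have h1' : sg s i = -1 := (sg_cases hs i).resolve_left h1
    have h2' : sg s i' = -1 := (sg_cases hs i').resolve_left h2
    unfold sg at h1' h2'
    have h3 : i / 2 = i' / 2 := by omega
    rw [← h3] at h2'
    by_cases e1 : i % 2 = 0 <;> by_cases e2 : i' % 2 = 0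
    · omega
    · simp only [e1, e2, if_true, if_false] at h1' h2'
      norm_num at h1' h2'
      linarith
    · simp only [e1, e2, if_true, if_false] at h1' h2'
      norm_num at h1' h2'
      linarith
    · omega

lemma ind1 {P : ℕ} {s : ℕ → ℝ} (hs : ∀ t, s t = 1 ∨ s t = -1) {i j : ℕ} (hi : i < 2 * P)
    (hj : j ≤ P) :
    ((if np P s i < j then (1:ℝ) else 0) - (j:ℝ) / ((2 * P : ℕ) : ℝ))
      = (1 / 2) * ((if i < 2 * j then (1:ℝ) else 0) - ((2 * j : ℕ) : ℝ) / ((2 * P : ℕ) : ℝ))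
        + (1 / 2) * (if i < 2 * j then sg s i else 0) := by
  have e : ((2 * j : ℕ) : ℝ) / ((2 * P : ℕ) : ℝ) = 2 * ((j:ℝ) / ((2 * P : ℕ) : ℝ)) := by
    push_cast; ring
  rw [e]
  set x := (j:ℝ) / ((2 * P : ℕ) : ℝ)
  unfold np
  rcases sg_cases hs i with h1 | h1
  · rw [if_pos h1]
    by_cases h : i < 2 * j
    · have : i / 2 < j := by omega
      rw [if_pos this, if_pos h, if_pos h, h1]
      ring
    · have : ¬ i / 2 < j := by omega
      rw [if_neg this, if_neg h, if_neg h]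
      ring
  · have h1' : sg s i ≠ 1 := by rw [h1]; norm_num
    rw [if_neg h1']
    have : ¬ 2 * P - 1 - i / 2 < j := by omega
    rw [if_neg this]
    by_cases h : i < 2 * j
    · rw [if_pos h, if_pos h, h1]
      ring
    · rw [if_neg h, if_neg h]
      ring

lemma ind2 {P : ℕ} {s : ℕ → ℝ} (hs : ∀ t, s t = 1 ∨ s t = -1) {i j : ℕ} (hi : i < 2 * P)
    (hj : j ≤ P) :
    ((if np P s i < 2 * P - j then (1:ℝ) else 0) - ((2 * P - j : ℕ) : ℝ) / ((2 * P : ℕ) : ℝ))
      = - ((1 / 2) * ((if i < 2 * j then (1:ℝ) else 0) - ((2 * j : ℕ) : ℝ) / ((2 * P : ℕ) : ℝ)))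
        + (1 / 2) * (if i < 2 * j then sg s i else 0) := by
  have hP : ((2 * P : ℕ) : ℝ) ≠ 0 := by
    have : 0 < 2 * P := by omega
    exact_mod_cast this.ne'
  have e : ((2 * j : ℕ) : ℝ) / ((2 * P : ℕ) : ℝ) = 2 * ((j:ℝ) / ((2 * P : ℕ) : ℝ)) := by
    push_cast; ring
  have e2 : ((2 * P - j : ℕ) : ℝ) / ((2 * P : ℕ) : ℝ) = 1 - (j:ℝ) / ((2 * P : ℕ) : ℝ) := by
    have : j ≤ 2 * P := by omega
    rw [Nat.cast_sub this]
    field_simp
  rw [e, e2]
  set x := (j:ℝ) / ((2 * P : ℕ) : ℝ)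
  unfold np
  rcases sg_cases hs i with h1 | h1
  · rw [if_pos h1]
    have : i / 2 < 2 * P - j := by omega
    rw [if_pos this]
    by_cases h : i < 2 * j
    · rw [if_pos h, if_pos h, h1]
      ring
    · rw [if_neg h, if_neg h]
      ring
  · have h1' : sg s i ≠ 1 := by rw [h1]; norm_num
    rw [if_neg h1']
    by_cases h : i < 2 * j
    · have : ¬ 2 * P - 1 - i / 2 < 2 * P - j := by omega
      rw [if_neg this, if_pos h, if_pos h, h1]
      ring
    · have : 2 * P - 1 - i / 2 < 2 * P - j := by omega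
      rw [if_pos this, if_neg h, if_neg h]
      ring

/-! ### Deviations -/

section Dev

variable {α : Type} [Fintype α]

/-- centred deviation at position `K` -/
noncomputable def dev (pos : α → ℕ) (N : ℕ) (φ : α → ℝ) (K : ℕ) : ℝ :=
  ∑ a, ((if pos a < K then (1:ℝ) else 0) - (K:ℝ) / N) * φ a

/-- half the signed sum -/
noncomputable def sgs (pos : α → ℕ) (s : ℕ → ℝ) (φ : α → ℝ) (j : ℕ) : ℝ :=
  (1 / 2) * ∑ a, (if pos a < 2 * j then sg s (pos a) else 0) * φ a

lemma dev_np1 {P : ℕ} {s : ℕ → ℝ} (hs : ∀ t, s t = 1 ∨ s t = -1) {pos pos' : α → ℕ}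
    (hpos : ∀ a, pos a < 2 * P) (h' : ∀ a, pos' a = np P s (pos a)) (φ : α → ℝ) {j : ℕ}
    (hj : j ≤ P) :
    dev pos' (2 * P) φ j = (1 / 2) * dev pos (2 * P) φ (2 * j) + sgs pos s φ j := by
  unfold dev sgs
  rw [Finset.mul_sum, Finset.mul_sum, ← Finset.sum_add_distrib]
  apply Finset.sum_congr rfl
  intro a _
  rw [h', ind1 hs (hpos a) hj]
  ring

lemma dev_np2 {P : ℕ} {s : ℕ → ℝ} (hs : ∀ t, s t = 1 ∨ s t = -1) {pos pos' : α → ℕ}
    (hpos : ∀ a, pos a < 2 * P) (h' : ∀ a, pos' a = np P s (pos a)) (φ : α → ℝ) {j : ℕ}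
    (hj : j ≤ P) :
    dev pos' (2 * P) φ (2 * P - j) = - ((1 / 2) * dev pos (2 * P) φ (2 * j)) + sgs pos s φ j := by
  unfold dev sgs
  rw [Finset.mul_sum, Finset.mul_sum, ← Finset.sum_neg_distrib, ← Finset.sum_add_distrib]
  apply Finset.sum_congr rfl
  intro a _
  rw [h', ind2 hs (hpos a) hj]
  ring

/-- transfer of sums along a bijection onto `Fin N` -/
lemma sum_transfer {N : ℕ} (σ : α ≃ Fin N) (F : ℕ → ℝ) (g : α → ℝ) :
    ∑ a, F (σ a) * g a = ∑ i ∈ range N, F i * (if h : i < N then g (σ.symm ⟨i, h⟩) else 0) := by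
  rw [← Fin.sum_univ_eq_sum_range (fun i => F i * (if h : i < N then g (σ.symm ⟨i, h⟩) else 0)) N,
    ← Equiv.sum_comp σ]
  apply Finset.sum_congr rfl
  intro a _
  simp

lemma sum_pair (f : ℕ → ℝ) (j : ℕ) :
    ∑ i ∈ range (2 * j), f i = ∑ t ∈ range j, (f (2 * t) + f (2 * t + 1)) := by
  induction j with
  | zero => simp
  | succ j ih =>
    rw [show 2 * (j + 1) = 2 * j + 1 + 1 by ring, Finset.sum_range_succ, Finset.sum_range_succ, ih,
      Finset.sum_range_succ]
    ring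

lemma sgs_eq {N : ℕ} (σ : α ≃ Fin N) (s : ℕ → ℝ) (φ : α → ℝ) {j : ℕ} (hj : 2 * j ≤ N) :
    sgs (fun a => (σ a : ℕ)) s φ j = ∑ t ∈ range j, s t *
      (((if h : 2 * t < N then φ (σ.symm ⟨2 * t, h⟩) else 0)
        - (if h : 2 * t + 1 < N then φ (σ.symm ⟨2 * t + 1, h⟩) else 0)) / 2) := by
  unfold sgs
  rw [sum_transfer σ (fun i => if i < 2 * j then sg s i else 0) φ]
  have hsub : range (2 * j) ⊆ range N := Finset.range_subset_range.2 hj
  rw [← Finset.sum_subset hsub]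
  · have : ∀ i ∈ range (2 * j), (if i < 2 * j then sg s i else 0) *
        (if h : i < N then φ (σ.symm ⟨i, h⟩) else 0)
        = sg s i * (if h : i < N then φ (σ.symm ⟨i, h⟩) else 0) := by
      intro i hi
      rw [if_pos (Finset.mem_range.1 hi)]
    rw [Finset.sum_congr rfl this, sum_pair, Finset.mul_sum]
    apply Finset.sum_congr rfl
    intro t _
    rw [sg_even, sg_odd]
    ring
  · intro i _ hi
    have : ¬ i < 2 * j := fun h => hi (Finset.mem_range.2 h)
    rw [if_neg this, zero_mul]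

end Dev


/-! ### The grid theorem -/

section Grid

variable {α J : Type} [Fintype α] [Fintype J]

/-- the vector at position `i` -/
noncomputable def itemV {N : ℕ} (σ : α ≃ Fin N) (l : α → J → ℝ) (i : ℕ) (x : J) : ℝ :=
  if h : i < N then l (σ.symm ⟨i, h⟩) x else 0

lemma inner_itemV {N : ℕ} (σ : α ≃ Fin N) (l : α → J → ℝ) (c : J → ℝ) (i : ℕ) :
    ∑ x, c x * itemV σ l i x = if h : i < N then ∑ x, c x * l (σ.symm ⟨i, h⟩) x else 0 := by
  unfold itemV
  split_ifs <;> simp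

lemma sq_itemV {N : ℕ} (σ : α ≃ Fin N) (l : α → J → ℝ) (hl : ∀ a, ∑ x, l a x ^ 2 ≤ 1) (i : ℕ) :
    ∑ x, itemV σ l i x ^ 2 ≤ 1 := by
  unfold itemV
  split_ifs with h
  · exact hl _
  · simp

lemma sq_half {N : ℕ} (σ : α ≃ Fin N) (l : α → J → ℝ) (hl : ∀ a, ∑ x, l a x ^ 2 ≤ 1) (t : ℕ) :
    ∑ x, ((itemV σ l (2 * t) x - itemV σ l (2 * t + 1) x) / 2) ^ 2 ≤ 1 := by
  have h1 := sq_itemV σ l hl (2 * t)
  have h2 := sq_itemV σ l hl (2 * t + 1)
  have h3 : ∑ x, ((itemV σ l (2 * t) x - itemV σ l (2 * t + 1) x) / 2) ^ 2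
      ≤ ∑ x, (itemV σ l (2 * t) x ^ 2 + itemV σ l (2 * t + 1) x ^ 2) / 2 := by
    apply Finset.sum_le_sum
    intro x _
    nlinarith [sq_nonneg (itemV σ l (2 * t) x + itemV σ l (2 * t + 1) x)]
  rw [← Finset.sum_div, Finset.sum_add_distrib] at h3
  linarith

theorem fold_step {N P : ℕ} (hNP : N = 2 * P) (σ : α ≃ Fin N) {s : ℕ → ℝ}
    (hs : ∀ t, s t = 1 ∨ s t = -1) : ∃ σ' : α ≃ Fin N, ∀ a, (σ' a : ℕ) = np P s (σ a) := by
  subst hNP
  let f : α → Fin (2 * P) := fun a => ⟨np P s (σ a), np_lt s (σ a).2⟩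
  have hf : Function.Injective f := by
    intro a b hab
    have h1 : np P s (σ a) = np P s (σ b) := congrArg Fin.val hab
    have h2 := np_inj hs (σ a).2 (σ b).2 h1
    exact σ.injective (Fin.ext h2)
  have hb : Function.Bijective f := by
    rw [Fintype.bijective_iff_injective_and_card]
    exact ⟨hf, Fintype.card_congr σ⟩
  exact ⟨Equiv.ofBijective f hb, fun a => rfl⟩

lemma step_bound {N P n w : ℕ} (hNP : N = 2 * P) (hnw : N = n * w) {pos pos' : α → ℕ}
    {s : ℕ → ℝ} (hs : ∀ t, s t = 1 ∨ s t = -1) (hpos : ∀ a, pos a < N)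
    (h' : ∀ a, pos' a = np P s (pos a)) (φ : α → ℝ) {D Z : ℝ}
    (hD : ∀ k, k ≤ n → |dev pos N φ (k * w)| ≤ D)
    (hS : ∀ k, 2 * k ≤ n → |sgs pos s φ (k * w)| ≤ Z) :
    ∀ k, k ≤ n → |dev pos' N φ (k * w)| ≤ (1 / 2) * D + Z := by
  subst hNP
  intro k hk
  by_cases h2k : 2 * k ≤ n
  · have hj : k * w ≤ P := by
      have h1 : (2 * k) * w ≤ n * w := Nat.mul_le_mul_right w h2k
      have h2 : (2 * k) * w = 2 * (k * w) := by ring
      omega
    rw [dev_np1 hs hpos h' φ hj]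
    have e : 2 * (k * w) = (2 * k) * w := by ring
    rw [e]
    have h1 := hD (2 * k) h2k
    have h2 := hS k h2k
    refine (abs_add_le _ _).trans ?_
    rw [abs_mul, abs_of_pos (by norm_num : (0:ℝ) < 1 / 2)]
    linarith
  · obtain ⟨k', hk'⟩ : ∃ k', n = k + k' := ⟨n - k, by omega⟩
    have h2k' : 2 * k' ≤ n := by omega
    have hnwk : n * w = k * w + k' * w := by rw [hk']; ring
    have hj : k' * w ≤ P := by
      have h1 : (2 * k') * w ≤ n * w := Nat.mul_le_mul_right w h2k'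
      have h2 : (2 * k') * w = 2 * (k' * w) := by ring
      omega
    have ek : k * w = 2 * P - k' * w := by omega
    rw [ek, dev_np2 hs hpos h' φ hj]
    have e : 2 * (k' * w) = (2 * k') * w := by ring
    rw [e]
    have h1 := hD (2 * k') h2k'
    have h2 := hS k' h2k'
    refine (abs_add_le _ _).trans ?_
    rw [abs_neg, abs_mul, abs_of_pos (by norm_num : (0:ℝ) < 1 / 2)]
    linarith


/-- the minimal trick -/
lemma min_trick {S I : Type} [Finite S] [Nonempty S] (Q : Finset I) (hQ : Q.Nonempty)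
    (val : S → I → ℝ) (c : ℝ)
    (hstep : ∀ σ D, (∀ q ∈ Q, val σ q ≤ D) → ∃ σ', ∀ q ∈ Q, val σ' q ≤ (1 / 2) * D + c) :
    ∃ σ, ∀ q ∈ Q, val σ q ≤ 2 * c := by
  let A : S → ℝ := fun σ => Q.sup' hQ (val σ)
  obtain ⟨σ, hσ⟩ := Finite.exists_min A
  have hle : ∀ τ, ∀ q ∈ Q, val τ q ≤ A τ := fun τ q hq => Finset.le_sup' (val τ) hq
  obtain ⟨σ', hσ'⟩ := hstep σ (A σ) (hle σ)
  have h1 : A σ' ≤ (1 / 2) * A σ + c := Finset.sup'_le _ _ hσ'
  have h2 := hσ σ'
  refine ⟨σ, fun q hq => (hle σ q hq).trans ?_⟩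
  linarith

/-- test functional -/
noncomputable def tφ (l : α → J → ℝ) (c : J → ℝ) (a : α) : ℝ := ∑ x, c x * l a x

lemma noise_eq {N : ℕ} (σ : α ≃ Fin N) (l : α → J → ℝ) (s : ℕ → ℝ) (c : J → ℝ) {j : ℕ}
    (hj : 2 * j ≤ N) :
    sgs (fun a => (σ a : ℕ)) s (tφ l c) j = ∑ i ∈ range j, s i *
      ∑ x, c x * ((itemV σ l (2 * i) x - itemV σ l (2 * i + 1) x) / 2) := by
  rw [sgs_eq σ s (tφ l c) hj]
  apply Finset.sum_congr rfl
  intro i _
  congr 1
  have e : ∑ x, c x * ((itemV σ l (2 * i) x - itemV σ l (2 * i + 1) x) / 2)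
      = (∑ x, c x * itemV σ l (2 * i) x - ∑ x, c x * itemV σ l (2 * i + 1) x) / 2 := by
    rw [← Finset.sum_sub_distrib, Finset.sum_div]
    apply Finset.sum_congr rfl
    intro x _
    ring
  rw [e, inner_itemV, inner_itemV]
  rfl

/-- one folding step against the tests -/
theorem grid_step (l : α → J → ℝ) (hl : ∀ a, ∑ x, l a x ^ 2 ≤ 1)
    (n w P : ℕ) (hn : 0 < n) (hP : n * w = 2 * P)
    (T : Finset ((J → ℝ) × ℝ)) (hT : ∀ t ∈ T, ∑ x, t.1 x ^ 2 ≤ 1 ∧ 0 ≤ t.2)
    (hb : ((n:ℝ) + 1) * ∑ t ∈ T, 2 * exp (-(t.2 ^ 2 / 2)) ≤ 1 / 8)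
    (σ : α ≃ Fin (n * w)) (D : ℝ)
    (hD : ∀ k, k ≤ n → ∀ t ∈ T, |dev (fun a => (σ a : ℕ)) (n * w) (tφ l t.1) (k * w)| ≤ D * t.2) :
    ∃ σ' : α ≃ Fin (n * w), ∀ k, k ≤ n → ∀ t ∈ T,
      |dev (fun a => (σ' a : ℕ)) (n * w) (tφ l t.1) (k * w)| ≤ (1 / 2) * (D * t.2) + t.2 / r0 := by
  classical
  have hsum0 : 0 ≤ ∑ t ∈ T, 2 * exp (-(t.2 ^ 2 / 2)) :=
    Finset.sum_nonneg fun t _ => by positivity
  let v : ℕ → J → ℝ := fun t x => (itemV σ l (2 * t) x - itemV σ l (2 * t + 1) x) / 2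
  let marks : Finset ℕ := (range (n / 2 + 1)).image fun k => k * w
  have hmarks : ((marks.card : ℝ) + 1) * ∑ t ∈ T, 2 * exp (-(t.2 ^ 2 / 2)) ≤ 1 / 4 := by
    have h1 : marks.card ≤ n / 2 + 1 := by
      have := Finset.card_image_le (s := range (n / 2 + 1)) (f := fun k => k * w)
      simpa using this
    have h2 : marks.card ≤ n := by omega
    have h3 : (marks.card : ℝ) ≤ n := by exact_mod_cast h2
    nlinarith
  obtain ⟨s, hs, hsig⟩ := signs_tests P v (fun t _ => sq_half σ l hl t) T hT marks hmarks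
  obtain ⟨σ', hσ'⟩ := fold_step hP σ hs
  have hZ : ∀ t ∈ T, ∀ k, 2 * k ≤ n →
      |sgs (fun a => (σ a : ℕ)) s (tφ l t.1) (k * w)| ≤ t.2 / r0 := by
    intro t ht k hk
    have hj : 2 * (k * w) ≤ n * w := by
      have h1 : (2 * k) * w ≤ n * w := Nat.mul_le_mul_right w hk
      have h2 : (2 * k) * w = 2 * (k * w) := by ring
      omega
    have hkm : k * w ∈ marks :=
      Finset.mem_image.2 ⟨k, Finset.mem_range.2 (by omega), rfl⟩
    have h1 := hsig (k * w) hkm (by omega) t ht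
    rw [noise_eq σ l s t.1 hj]
    exact h1
  refine ⟨σ', fun k hk t ht => ?_⟩
  exact step_bound (N := n * w) (P := P) (n := n) (w := w) hP rfl
      (pos := fun a => (σ a : ℕ)) (pos' := fun a => (σ' a : ℕ)) hs (fun a => (σ a).2)
      hσ' (tφ l t.1) (D := D * t.2) (Z := t.2 / r0) (fun k hk => hD k hk t ht)
      (fun k hk => hZ t ht k hk) k hk

/-- **grid reordering** (Banaszczyk plus pairing transform). `α` contains the items (and padding with
zero lift); `pos` is a bijection onto `range (n*w)`; deviations of the tests at all multiples of `w`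
are bounded by `2 R / r0`. -/
theorem grid_tests (l : α → J → ℝ) (hl : ∀ a, ∑ x, l a x ^ 2 ≤ 1)
    (n w : ℕ) (hn : 0 < n) (hw : 0 < w) (hN : Fintype.card α = n * w) (hev : Even (n * w))
    (T : Finset ((J → ℝ) × ℝ)) (hT : ∀ t ∈ T, ∑ x, t.1 x ^ 2 ≤ 1 ∧ 0 ≤ t.2)
    (hb : ((n:ℝ) + 1) * ∑ t ∈ T, 2 * exp (-(t.2 ^ 2 / 2)) ≤ 1 / 8) :
    ∃ pos : α → ℕ, Function.Injective pos ∧ (∀ a, pos a < n * w) ∧
      ∀ k, k ≤ n → ∀ t ∈ T,
        |∑ a, ((if pos a < k * w then (1:ℝ) else 0) - (k:ℝ) / n) * ∑ x, t.1 x * l a x|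
          ≤ 2 * t.2 / r0 := by
  classical
  have hr := r0_pos
  obtain ⟨P, hP⟩ : ∃ P, n * w = 2 * P := by
    obtain ⟨r, hr⟩ := hev
    exact ⟨r, by omega⟩
  have hne : Nonempty (α ≃ Fin (n * w)) := ⟨Fintype.equivFinOfCardEq hN⟩
  have hgoal : ∀ (pos : α → ℕ) (k : ℕ) (t : (J → ℝ) × ℝ),
      ∑ a, ((if pos a < k * w then (1:ℝ) else 0) - (k:ℝ) / n) * ∑ x, t.1 x * l a x
        = dev pos (n * w) (tφ l t.1) (k * w) := by
    intro pos k t
    unfold dev
    apply Finset.sum_congr rfl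
    intro a _
    have hw' : (w:ℝ) ≠ 0 := by positivity
    have hn' : (n:ℝ) ≠ 0 := by positivity
    have e : ((k * w : ℕ) : ℝ) / ((n * w : ℕ) : ℝ) = (k:ℝ) / n := by
      push_cast
      field_simp
    rw [e]
    rfl
  have hposinj : ∀ σ : α ≃ Fin (n * w), Function.Injective fun a => (σ a : ℕ) := by
    intro σ a b hab
    exact σ.injective (Fin.ext hab)
  by_cases hTe : T = ∅
  · subst hTe
    obtain ⟨σ⟩ := hne
    exact ⟨fun a => σ a, hposinj σ, fun a => (σ a).2, by simp⟩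
  have hTne : T.Nonempty := Finset.nonempty_iff_ne_empty.2 hTe
  have hRpos : ∀ t ∈ T, 0 < t.2 := by
    intro t ht
    refine lt_of_le_of_ne (hT t ht).2 ?_
    intro h0
    have h1 : 2 * exp (-(t.2 ^ 2 / 2)) ≤ ∑ t ∈ T, 2 * exp (-(t.2 ^ 2 / 2)) :=
      Finset.single_le_sum (f := fun t : (J → ℝ) × ℝ => 2 * exp (-(t.2 ^ 2 / 2)))
        (fun t _ => by positivity) ht
    rw [← h0] at h1
    simp only [ne_eq, OfNat.ofNat_ne_zero, not_false_eq_true, zero_pow, zero_div, neg_zero, exp_zero,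
      mul_one] at h1
    have hn1 : (1:ℝ) ≤ n := by exact_mod_cast hn
    nlinarith
  have hQ : (range (n + 1) ×ˢ T).Nonempty := Finset.Nonempty.product ⟨0, by simp⟩ hTne
  obtain ⟨σ, hσ⟩ := min_trick (S := α ≃ Fin (n * w)) (range (n + 1) ×ˢ T) hQ
    (fun σ q => |dev (fun a => (σ a : ℕ)) (n * w) (tφ l q.2.1) (q.1 * w)| / q.2.2) (1 / r0)
    (by
      intro σ D hD
      have hD' : ∀ k, k ≤ n → ∀ t ∈ T,
          |dev (fun a => (σ a : ℕ)) (n * w) (tφ l t.1) (k * w)| ≤ D * t.2 := by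
        intro k hk t ht
        have h1 := hD (k, t) (Finset.mem_product.2 ⟨Finset.mem_range.2 (by omega), ht⟩)
        exact (div_le_iff₀ (hRpos t ht)).1 h1
      obtain ⟨σ', hσ'⟩ := grid_step l hl n w P hn hP T hT hb σ D hD'
      refine ⟨σ', ?_⟩
      rintro ⟨k, t⟩ hq
      obtain ⟨hk, ht⟩ := Finset.mem_product.1 hq
      have hk' : k ≤ n := by
        have := Finset.mem_range.1 hk
        omega
      have ht' : t ∈ T := ht
      have hRt := hRpos t ht'
      have h1 := hσ' k hk' t ht'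
      simp only
      rw [div_le_iff₀ hRt]
      have e : (1 / 2 * D + 1 / r0) * t.2 = 1 / 2 * (D * t.2) + t.2 / r0 := by
        field_simp
      rw [e]
      exact h1)
  refine ⟨fun a => σ a, hposinj σ, fun a => (σ a).2, ?_⟩
  intro k hk t ht
  rw [hgoal]
  have h1 := hσ (k, t) (Finset.mem_product.2 ⟨Finset.mem_range.2 (by omega), ht⟩)
  have hRt := hRpos t ht
  have h2 := (div_le_iff₀ hRt).1 h1
  have e : 2 * t.2 / r0 = 2 * (1 / r0) * t.2 := by ring
  rw [e]
  exact h2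

/-- one halving step: the odd numerators are moved by `±1` -/
lemma round_half (l : α → J → ℝ) (hl : ∀ a, ∑ x, l a x ^ 2 ≤ 1)
    (T : Finset ((J → ℝ) × ℝ)) (hT : ∀ t ∈ T, ∑ x, t.1 x ^ 2 ≤ 1 ∧ 0 ≤ t.2)
    (hb : ∑ t ∈ T, 2 * exp (-(t.2 ^ 2 / 2)) ≤ 1 / 8) (L : ℕ) (m : α → ℕ)
    (hm : ∀ a, m a ≤ 2 ^ (L + 1)) :
    ∃ m' : α → ℕ, (∀ a, m' a ≤ 2 ^ L) ∧ ∀ t ∈ T,
      |∑ a, ((m' a : ℝ) / 2 ^ L - (m a : ℝ) / 2 ^ (L + 1)) * tφ l t.1 a|
        ≤ (1 / 2 ^ (L + 1)) * (t.2 / r0) := by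
  classical
  let e := Fintype.equivFin α
  let l' : α → J → ℝ := fun a x => if Odd (m a) then l a x else 0
  have hl' : ∀ a, ∑ x, l' a x ^ 2 ≤ 1 := by
    intro a
    simp only [l']
    split_ifs
    · exact hl a
    · simp
  have hmarks : (((({Fintype.card α} : Finset ℕ).card : ℕ) : ℝ) + 1)
      * ∑ t ∈ T, 2 * exp (-(t.2 ^ 2 / 2)) ≤ 1 / 4 := by
    simp only [Finset.card_singleton, Nat.cast_one]
    linarith
  obtain ⟨s, hs, hsig⟩ := signs_tests (Fintype.card α) (itemV e l') (fun t _ => sq_itemV e l' hl' t)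
    T hT {Fintype.card α} hmarks
  have hone : ∀ a, m a % 2 = 1 → m a + 1 ≤ 2 ^ (L + 1) := by
    intro a ha
    have h1 := hm a
    have h2 : 2 ^ (L + 1) % 2 = 0 := by
      rw [pow_succ]
      omega
    omega
  let m' : α → ℕ := fun a => if m a % 2 = 1 then (if s (e a) = 1 then (m a + 1) / 2 else (m a - 1) / 2)
    else m a / 2
  have hm'le : ∀ a, m' a ≤ 2 ^ L := by
    intro a
    have h1 := hm a
    have h2 : 2 ^ (L + 1) = 2 * 2 ^ L := by rw [pow_succ]; ring
    simp only [m']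
    split_ifs with h3 h4
    · have := hone a h3
      omega
    · omega
    · omega
  have hval : ∀ a, (m' a : ℝ) / 2 ^ L - (m a : ℝ) / 2 ^ (L + 1)
      = (1 / 2 ^ (L + 1)) * (s (e a) * (if m a % 2 = 1 then 1 else 0)) := by
    intro a
    have hp : (0:ℝ) < 2 ^ L := by positivity
    have hp2 : (2:ℝ) ^ (L + 1) = 2 * 2 ^ L := by rw [pow_succ]; ring
    have key : 2 * (m' a : ℝ) = (m a : ℝ) + s (e a) * (if m a % 2 = 1 then 1 else 0) := by
      simp only [m']
      by_cases h3 : m a % 2 = 1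
      · rw [if_pos h3, if_pos h3]
        rcases hs (e a) with h4 | h4
        · rw [if_pos h4, h4]
          have : 2 * ((m a + 1) / 2) = m a + 1 := by omega
          have h5 : (2:ℝ) * (((m a + 1) / 2 : ℕ) : ℝ) = ((m a + 1 : ℕ) : ℝ) := by exact_mod_cast this
          rw [h5]
          push_cast
          ring
        · have h6 : ¬ s (e a) = 1 := by rw [h4]; norm_num
          rw [if_neg h6, h4]
          have : 2 * ((m a - 1) / 2) + 1 = m a := by omega
          have h5 : (2:ℝ) * (((m a - 1) / 2 : ℕ) : ℝ) + 1 = (m a : ℝ) := by exact_mod_cast this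
          linarith
      · rw [if_neg h3, if_neg h3]
        have : 2 * (m a / 2) = m a := by omega
        have h5 : (2:ℝ) * ((m a / 2 : ℕ) : ℝ) = (m a : ℝ) := by exact_mod_cast this
        rw [h5]
        ring
    rw [hp2]
    field_simp
    linarith
  refine ⟨m', hm'le, ?_⟩
  intro t ht
  have h1 := hsig (Fintype.card α) (Finset.mem_singleton_self _) le_rfl t ht
  -- rewrite the sum
  have h2 : ∑ a, ((m' a : ℝ) / 2 ^ L - (m a : ℝ) / 2 ^ (L + 1)) * tφ l t.1 a
      = (1 / 2 ^ (L + 1)) * ∑ i ∈ range (Fintype.card α), s i * ∑ x, t.1 x * itemV e l' i x := by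
    have h3 := sum_transfer e s (tφ l' t.1)
    have h4 : ∀ i ∈ range (Fintype.card α), s i * ∑ x, t.1 x * itemV e l' i x
        = s i * (if h : i < Fintype.card α then tφ l' t.1 (e.symm ⟨i, h⟩) else 0) := by
      intro i _
      rw [inner_itemV]
      rfl
    rw [Finset.sum_congr rfl h4, ← h3, Finset.mul_sum]
    apply Finset.sum_congr rfl
    intro a _
    rw [hval]
    have h5 : tφ l' t.1 a = (if m a % 2 = 1 then 1 else 0) * tφ l t.1 a := by
      unfold tφ
      by_cases h6 : m a % 2 = 1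
      · have h7 : Odd (m a) := Nat.odd_iff.2 h6
        simp [l', h6, h7]
      · have h7 : ¬ Odd (m a) := fun h => h6 (Nat.odd_iff.1 h)
        simp [l', h6, h7]
    rw [h5]
    ring
  rw [h2, abs_mul, abs_of_pos (by positivity : (0:ℝ) < 1 / 2 ^ (L + 1))]
  exact mul_le_mul_of_nonneg_left h1 (by positivity)

/-- dyadic rounding -/
lemma round_dyadic (l : α → J → ℝ) (hl : ∀ a, ∑ x, l a x ^ 2 ≤ 1)
    (T : Finset ((J → ℝ) × ℝ)) (hT : ∀ t ∈ T, ∑ x, t.1 x ^ 2 ≤ 1 ∧ 0 ≤ t.2)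
    (hb : ∑ t ∈ T, 2 * exp (-(t.2 ^ 2 / 2)) ≤ 1 / 8) (L : ℕ) :
    ∀ m : α → ℕ, (∀ a, m a ≤ 2 ^ L) →
      ∃ χ : α → ℝ, (∀ a, χ a = 0 ∨ χ a = 1) ∧ ∀ t ∈ T,
        |∑ a, (χ a - (m a : ℝ) / 2 ^ L) * tφ l t.1 a| ≤ (1 - 1 / 2 ^ L) * (t.2 / r0) := by
  have hr := r0_pos
  induction L with
  | zero =>
    intro m hm
    refine ⟨fun a => (m a : ℝ), ?_, ?_⟩
    · intro a
      have := hm a
      have h1 : m a = 0 ∨ m a = 1 := by
        simp only [pow_zero] at this
        omega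
      rcases h1 with h | h
      · left; simp [h]
      · right; simp [h]
    · intro t _
      simp
  | succ L ih =>
    intro m hm
    obtain ⟨m', hm', hclose⟩ := round_half l hl T hT hb L m hm
    obtain ⟨χ, hχ1, hχ2⟩ := ih m' hm'
    refine ⟨χ, hχ1, ?_⟩
    intro t ht
    have h0 : 0 ≤ t.2 / r0 := div_nonneg (hT t ht).2 hr.le
    have e : ∑ a, (χ a - (m a : ℝ) / 2 ^ (L + 1)) * tφ l t.1 a
        = ∑ a, (χ a - (m' a : ℝ) / 2 ^ L) * tφ l t.1 a
          + ∑ a, ((m' a : ℝ) / 2 ^ L - (m a : ℝ) / 2 ^ (L + 1)) * tφ l t.1 a := by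
      rw [← Finset.sum_add_distrib]
      apply Finset.sum_congr rfl
      intro a _
      ring
    rw [e]
    refine (abs_add_le _ _).trans ?_
    have h1 := hχ2 t ht
    have h2 := hclose t ht
    have e2 : (1 - 1 / (2:ℝ) ^ (L + 1)) * (t.2 / r0)
        = (1 - 1 / 2 ^ L) * (t.2 / r0) + (1 / 2 ^ (L + 1)) * (t.2 / r0) := by
      have hp : (2:ℝ) ^ (L + 1) = 2 * 2 ^ L := by rw [pow_succ]; ring
      rw [hp]
      field_simp
      ring
    rw [e2]
    exact add_le_add h1 h2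

lemma abs_tφ_le (l : α → J → ℝ) (hl : ∀ a, ∑ x, l a x ^ 2 ≤ 1) (c : J → ℝ)
    (hc : ∑ x, c x ^ 2 ≤ 1) (a : α) : |tφ l c a| ≤ 1 := by
  have h := Finset.sum_mul_sq_le_sq_mul_sq (Finset.univ : Finset J) c (l a)
  have h1 : (tφ l c a) ^ 2 ≤ 1 := by
    unfold tφ
    refine h.trans ?_
    have h2 := hl a
    have h3 : 0 ≤ ∑ x, l a x ^ 2 := Finset.sum_nonneg fun x _ => sq_nonneg _
    have h4 : 0 ≤ ∑ x, c x ^ 2 := Finset.sum_nonneg fun x _ => sq_nonneg _
    nlinarith
  exact (sq_le_one_iff_abs_le_one _).1 h1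

/-- **rounding** a fractional point with Banaszczyk noise -/
theorem round_tests (l : α → J → ℝ) (hl : ∀ a, ∑ x, l a x ^ 2 ≤ 1)
    (T : Finset ((J → ℝ) × ℝ)) (hT : ∀ t ∈ T, ∑ x, t.1 x ^ 2 ≤ 1 ∧ 0 ≤ t.2)
    (hb : ∑ t ∈ T, 2 * exp (-(t.2 ^ 2 / 2)) ≤ 1 / 8)
    (x : α → ℝ) (hx : ∀ a, 0 ≤ x a ∧ x a ≤ 1) :
    ∃ χ : α → ℝ, (∀ a, χ a = 0 ∨ χ a = 1) ∧ ∀ t ∈ T,
      |∑ a, (χ a - x a) * ∑ y, t.1 y * l a y| ≤ 2 * (t.2 + 1) / r0 := by
  have hr := r0_pos
  have hr1 := r0_le_one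
  set L := Fintype.card α with hL
  have hp : (0:ℝ) < 2 ^ L := by positivity
  have hcard : (Fintype.card α : ℝ) ≤ 2 ^ L := by
    have := (Nat.lt_two_pow_self (n := L)).le
    exact_mod_cast this
  let m : α → ℕ := fun a => ⌊x a * 2 ^ L⌋₊
  have hm : ∀ a, m a ≤ 2 ^ L := by
    intro a
    have h1 : x a * 2 ^ L ≤ 2 ^ L := by nlinarith [(hx a).2]
    have h2 : (m a : ℝ) ≤ x a * 2 ^ L := Nat.floor_le (by have := (hx a).1; positivity)
    have h3 : (m a : ℝ) ≤ ((2 ^ L : ℕ) : ℝ) := by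
      push_cast
      linarith
    exact_mod_cast h3
  obtain ⟨χ, hχ1, hχ2⟩ := round_dyadic l hl T hT hb L m hm
  refine ⟨χ, hχ1, ?_⟩
  intro t ht
  have hR := (hT t ht).2
  have e : ∑ a, (χ a - x a) * ∑ y, t.1 y * l a y
      = ∑ a, (χ a - (m a : ℝ) / 2 ^ L) * tφ l t.1 a
        + ∑ a, ((m a : ℝ) / 2 ^ L - x a) * tφ l t.1 a := by
    rw [← Finset.sum_add_distrib]
    apply Finset.sum_congr rfl
    intro a _
    unfold tφ
    ring
  rw [e]
  have h1 := hχ2 t ht
  have h2 : |∑ a, ((m a : ℝ) / 2 ^ L - x a) * tφ l t.1 a| ≤ 1 := by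
    refine (Finset.abs_sum_le_sum_abs _ _).trans ?_
    have h3 : ∀ a ∈ (Finset.univ : Finset α), |((m a : ℝ) / 2 ^ L - x a) * tφ l t.1 a| ≤ 1 / 2 ^ L := by
      intro a _
      rw [abs_mul]
      have h4 := abs_tφ_le l hl t.1 (hT t ht).1 a
      have h5 : |(m a : ℝ) / 2 ^ L - x a| ≤ 1 / 2 ^ L := by
        have h6 : (m a : ℝ) ≤ x a * 2 ^ L := Nat.floor_le (by have := (hx a).1; positivity)
        have h7 : x a * 2 ^ L < (m a : ℝ) + 1 := Nat.lt_floor_add_one _
        rw [abs_le]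
        constructor
        · rw [neg_le_iff_add_nonneg]
          have : (m a : ℝ) / 2 ^ L - x a + 1 / 2 ^ L = ((m a : ℝ) + 1 - x a * 2 ^ L) / 2 ^ L := by
            field_simp
            ring
          rw [this]
          apply div_nonneg _ hp.le
          linarith
        · rw [sub_le_iff_le_add, div_le_iff₀ hp]
          have : (1 / 2 ^ L + x a) * 2 ^ L = 1 + x a * 2 ^ L := by
            field_simp
          rw [this]
          linarith
      calc |(m a : ℝ) / 2 ^ L - x a| * |tφ l t.1 a| ≤ (1 / 2 ^ L) * 1 :=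
            mul_le_mul h5 h4 (abs_nonneg _) (by positivity)
        _ = 1 / 2 ^ L := by ring
    refine (Finset.sum_le_sum h3).trans ?_
    rw [Finset.sum_const, Finset.card_univ, nsmul_eq_mul, mul_one_div, div_le_one hp]
    exact hcard
  refine (abs_add_le _ _).trans ?_
  have h3 : (1 - 1 / (2:ℝ) ^ L) * (t.2 / r0) ≤ t.2 / r0 := by
    have h4 : 0 ≤ t.2 / r0 := div_nonneg hR hr.le
    have h5 : 0 ≤ 1 / (2:ℝ) ^ L := by positivity
    nlinarith
  have h4 : t.2 / r0 + 1 ≤ 2 * (t.2 + 1) / r0 := by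
    rw [le_div_iff₀ hr]
    have : (t.2 / r0 + 1) * r0 = t.2 + r0 := by field_simp
    rw [this]
    linarith
  linarith

end Grid

end Vale.Agent.Lib.P262S
end
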