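import Mathlib

/-! Nets of the unit sphere on a coordinate set by the volumetric packing argument. -/

open Finset Real MeasureTheory

namespace Vale.Agent.Lib.P262S

section pack

variable {κ : Type} [Fintype κ]

/-- A `1/2`-separated family of unit vectors has at most `5 ^ m` points. -/
lemma sep_card_le (P : Finset (EuclideanSpace ℝ κ)) (hP1 : ∀ p ∈ P, ‖p‖ = 1)
    (hP2 : ∀ p ∈ P, ∀ q ∈ P, p ≠ q → (1 / 2 : ℝ) ≤ ‖p - q‖) :
    P.card ≤ 5 ^ Fintype.card κ := by
  classical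
  set μ : Measure (EuclideanSpace ℝ κ) := volume
  have hfin : Module.finrank ℝ (EuclideanSpace ℝ κ) = Fintype.card κ := finrank_euclideanSpace
  set m := Fintype.card κ with hm
  set c : ENNReal := μ (Metric.ball (0 : EuclideanSpace ℝ κ) 1) with hc
  have hc0 : c ≠ 0 := (Metric.measure_ball_pos μ _ one_pos).ne'
  have hct : c ≠ ⊤ := measure_ball_lt_top.ne
  have hb : ∀ (x : EuclideanSpace ℝ κ) (r : ℝ), 0 < r → μ (Metric.ball x r) = ENNReal.ofReal (r ^ m) * c := by
    intro x r hr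
    have := Measure.addHaar_ball_of_pos μ x hr
    rwa [hfin] at this
  have hdisj : (P : Set (EuclideanSpace ℝ κ)).PairwiseDisjoint (fun p => Metric.ball p (1 / 4 : ℝ)) := by
    intro p hp q hq hpq
    refine Set.disjoint_left.mpr (fun x hx1 hx2 => ?_)
    have h1 := hP2 p hp q hq hpq
    rw [Metric.mem_ball, dist_eq_norm] at hx1 hx2
    have h2 : ‖p - q‖ ≤ ‖x - q‖ + ‖x - p‖ := by
      have : p - q = (x - q) - (x - p) := by abel
      rw [this]
      exact norm_sub_le _ _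
    linarith
  have hsub : (⋃ p ∈ P, Metric.ball p (1 / 4 : ℝ)) ⊆ Metric.ball (0 : EuclideanSpace ℝ κ) (5 / 4 : ℝ) := by
    intro x hx
    simp only [Set.mem_iUnion] at hx
    obtain ⟨p, hp, hx⟩ := hx
    rw [Metric.mem_ball, dist_eq_norm] at hx
    rw [Metric.mem_ball, dist_zero_right]
    have h1 := hP1 p hp
    have h2 : ‖x‖ ≤ ‖x - p‖ + ‖p‖ := by
      have : x = (x - p) + p := by abel
      nth_rewrite 1 [this]
      exact norm_add_le _ _
    linarith
  have hsum : μ (⋃ p ∈ P, Metric.ball p (1 / 4 : ℝ))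
      = ∑ p ∈ P, μ (Metric.ball p (1 / 4 : ℝ)) :=
    measure_biUnion_finset hdisj (fun p _ => Metric.isOpen_ball.measurableSet)
  have h1 : ∑ p ∈ P, μ (Metric.ball p (1 / 4 : ℝ)) ≤ μ (Metric.ball (0 : EuclideanSpace ℝ κ) (5 / 4 : ℝ)) := by
    rw [← hsum]
    exact measure_mono hsub
  rw [hb 0 (5 / 4) (by norm_num)] at h1
  have h2 : ∑ p ∈ P, μ (Metric.ball p (1 / 4 : ℝ)) = P.card * (ENNReal.ofReal ((1 / 4 : ℝ) ^ m) * c) := by
    rw [Finset.sum_congr rfl (fun p _ => hb p (1 / 4) (by norm_num))]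
    simp
  rw [h2, ← mul_assoc] at h1
  have h3 : (P.card : ENNReal) * ENNReal.ofReal ((1 / 4 : ℝ) ^ m) ≤ ENNReal.ofReal ((5 / 4 : ℝ) ^ m) :=
    (ENNReal.mul_le_mul_iff_left hc0 hct).mp h1
  have h4 : (P.card : ENNReal) * ENNReal.ofReal ((1 / 4 : ℝ) ^ m)
      = ENNReal.ofReal ((P.card : ℝ) * (1 / 4 : ℝ) ^ m) := by
    rw [ENNReal.ofReal_mul (by positivity), ENNReal.ofReal_natCast]
  rw [h4] at h3
  have h5 := (ENNReal.ofReal_le_ofReal_iff (by positivity)).mp h3
  have h6 : (P.card : ℝ) ≤ (5 : ℝ) ^ m := by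
    have h7 : (0 : ℝ) < (1 / 4 : ℝ) ^ m := by positivity
    have h8 : (5 / 4 : ℝ) ^ m = (5 : ℝ) ^ m * (1 / 4 : ℝ) ^ m := by
      rw [← mul_pow]
      norm_num
    rw [h8] at h5
    exact le_of_mul_le_mul_right h5 h7
  exact_mod_cast h6

/-- There is a `1/2`-net of the unit sphere with at most `5 ^ m` points. -/
lemma exists_sphere_net :
    ∃ P : Finset (EuclideanSpace ℝ κ), P.card ≤ 5 ^ Fintype.card κ ∧ (∀ p ∈ P, ‖p‖ = 1) ∧
      ∀ y : EuclideanSpace ℝ κ, ‖y‖ = 1 → ∃ w ∈ P, ‖y - w‖ < 1 / 2 := by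
  classical
  by_contra hcon
  push Not at hcon
  have key : ∀ k : ℕ, ∃ P : Finset (EuclideanSpace ℝ κ), P.card = k ∧ (∀ p ∈ P, ‖p‖ = 1) ∧
      ∀ p ∈ P, ∀ q ∈ P, p ≠ q → (1 / 2 : ℝ) ≤ ‖p - q‖ := by
    intro k
    induction k with
    | zero => exact ⟨∅, by simp, by simp, by simp⟩
    | succ k ih =>
      obtain ⟨P, hc, h1, h2⟩ := ih
      obtain ⟨y, hy, hfar⟩ := hcon P (sep_card_le P h1 h2) h1
      have hyP : y ∉ P := by
        intro hyP
        have := hfar y hyP
        simp at this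
        linarith
      refine ⟨insert y P, by rw [Finset.card_insert_of_notMem hyP, hc], ?_, ?_⟩
      · intro p hp
        rcases Finset.mem_insert.mp hp with rfl | hp
        · exact hy
        · exact h1 p hp
      · intro p hp q hq hpq
        rcases Finset.mem_insert.mp hp with hpy | hp'
        · rcases Finset.mem_insert.mp hq with hqy | hq'
          · exact absurd (hpy.trans hqy.symm) hpq
          · rw [hpy]
            exact hfar q hq'
        · rcases Finset.mem_insert.mp hq with hqy | hq'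
          · rw [hqy, norm_sub_rev]
            exact hfar p hp'
          · exact h2 p hp' q hq' hpq
  obtain ⟨P, hc, h1, h2⟩ := key (5 ^ Fintype.card κ + 1)
  have := sep_card_le P h1 h2
  omega

end pack

/-- `1/2`-nets of the unit sphere on the coordinate set `G`. -/
theorem net_exists {I : Type} [Fintype I] (G : Finset I) :
    ∃ N : Finset (I → ℝ), (N.card : ℝ) ≤ 5 ^ G.card ∧ N.Nonempty ∧
      (∀ w ∈ N, (∀ i, i ∉ G → w i = 0) ∧ ∑ i, w i ^ 2 ≤ 1) ∧
      ∀ y : I → ℝ, ∃ w ∈ N, √(∑ i ∈ G, y i ^ 2) ≤ 2 * ∑ i, w i * y i := by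
  classical
  rcases G.eq_empty_or_nonempty with hG | hG
  · subst hG
    refine ⟨{fun _ => 0}, by simp, by simp, by simp, fun y => ⟨fun _ => 0, by simp, by simp⟩⟩
  -- the net on the subtype
  obtain ⟨P, hPc, hP1, hPn⟩ := exists_sphere_net (κ := {i // i ∈ G})
  have hcard : Fintype.card {i // i ∈ G} = G.card := by simp
  rw [hcard] at hPc
  let ext : EuclideanSpace ℝ {i // i ∈ G} → (I → ℝ) :=
    fun w i => if h : i ∈ G then w ⟨i, h⟩ else 0
  have hext0 : ∀ w i, i ∉ G → ext w i = 0 := fun w i hi => by simp [ext, hi]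
  have hextG : ∀ w (i : {i // i ∈ G}), ext w i = w i := fun w i => by simp [ext, i.2]
  -- sums over all indices reduce to the subtype
  have hsum : ∀ F : I → ℝ, (∀ i, i ∉ G → F i = 0) → ∑ i, F i = ∑ i : {i // i ∈ G}, F i := by
    intro F hF
    rw [← Finset.sum_subset (Finset.subset_univ G) (fun i _ hi => hF i hi)]
    exact (Finset.sum_coe_sort G F).symm
  have hnorm : ∀ w : EuclideanSpace ℝ {i // i ∈ G}, ‖w‖ ^ 2 = ∑ i, w i ^ 2 := by
    intro w
    rw [EuclideanSpace.norm_eq, Real.sq_sqrt (Finset.sum_nonneg (fun _ _ => by positivity))]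
    simp
  have hinner : ∀ a b : EuclideanSpace ℝ {i // i ∈ G},
      ‖a - b‖ ^ 2 = ‖a‖ ^ 2 + ‖b‖ ^ 2 - 2 * ∑ i, a i * b i := by
    intro a b
    rw [hnorm, hnorm, hnorm, Finset.mul_sum, ← Finset.sum_add_distrib, ← Finset.sum_sub_distrib]
    refine Finset.sum_congr rfl (fun i _ => ?_)
    simp only [PiLp.sub_apply]
    ring
  have hnonemp : P.Nonempty := by
    obtain ⟨i0, hi0⟩ := hG
    let e : EuclideanSpace ℝ {i // i ∈ G} := EuclideanSpace.single ⟨i0, hi0⟩ (1 : ℝ)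
    have he : ‖e‖ = 1 := by simp [e]
    obtain ⟨w, hw, _⟩ := hPn e he
    exact ⟨w, hw⟩
  refine ⟨P.image ext, ?_, hnonemp.image _, ?_, ?_⟩
  · have h1 : ((P.image ext).card : ℝ) ≤ P.card := by exact_mod_cast Finset.card_image_le
    have h2 : (P.card : ℝ) ≤ 5 ^ G.card := by exact_mod_cast hPc
    exact h1.trans h2
  · intro w hw
    obtain ⟨w', hw', rfl⟩ := Finset.mem_image.mp hw
    refine ⟨hext0 w', ?_⟩
    rw [hsum _ (fun i hi => by rw [hext0 w' i hi]; simp)]
    simp only [hextG]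
    rw [← hnorm, hP1 w' hw']
    norm_num
  · intro y
    let ŷ : EuclideanSpace ℝ {i // i ∈ G} := WithLp.toLp 2 (fun i => y i)
    have hŷ : ∀ i, ŷ i = y i := fun i => rfl
    have hρ : √(∑ i ∈ G, y i ^ 2) = ‖ŷ‖ := by
      rw [EuclideanSpace.norm_eq]
      congr 1
      rw [← Finset.sum_coe_sort G (fun i => y i ^ 2)]
      refine Finset.sum_congr rfl (fun i _ => ?_)
      simp [hŷ]
    have hpair : ∀ w : EuclideanSpace ℝ {i // i ∈ G}, ∑ i, ext w i * y i = ∑ i, w i * ŷ i := by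
      intro w
      rw [hsum _ (fun i hi => by rw [hext0 w i hi]; simp)]
      refine Finset.sum_congr rfl (fun i _ => ?_)
      rw [hextG, hŷ]
    rw [hρ]
    rcases eq_or_ne ‖ŷ‖ 0 with h0 | h0
    · obtain ⟨w, hw⟩ := hnonemp
      refine ⟨ext w, Finset.mem_image_of_mem _ hw, ?_⟩
      rw [hpair, h0]
      have : ŷ = 0 := norm_eq_zero.mp h0
      rw [this]
      simp
    · set ρ := ‖ŷ‖ with hρdef
      have hρ0 : 0 < ρ := lt_of_le_of_ne (norm_nonneg _) (Ne.symm h0)
      let u : EuclideanSpace ℝ {i // i ∈ G} := ρ⁻¹ • ŷ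
      have hu : ‖u‖ = 1 := by
        simp only [u]
        rw [norm_smul, norm_inv, Real.norm_eq_abs, abs_of_pos hρ0, ← hρdef]
        exact inv_mul_cancel₀ h0
      obtain ⟨w, hw, hclose⟩ := hPn u hu
      refine ⟨ext w, Finset.mem_image_of_mem _ hw, ?_⟩
      rw [hpair]
      have h1 := hinner u w
      rw [hu, hP1 w hw] at h1
      have h2 : ‖u - w‖ ^ 2 ≤ (1 / 2 : ℝ) ^ 2 :=
        pow_le_pow_left₀ (norm_nonneg _) hclose.le 2
      have h3 : (1 / 2 : ℝ) ≤ ∑ i, u i * w i := by nlinarith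
      have h4 : ∑ i, w i * ŷ i = ρ * ∑ i, u i * w i := by
        rw [Finset.mul_sum]
        refine Finset.sum_congr rfl (fun i _ => ?_)
        simp only [u, PiLp.smul_apply, smul_eq_mul]
        field_simp
      rw [h4]
      nlinarith

end Vale.Agent.Lib.P262S
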