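import Vale.Agent.Lib.P262S.Defs
import Vale.Agent.Lib.P262S.CoreAll
import Vale.Agent.Lib.P262S.Net

set_option linter.unusedSectionVars false

open Finset Real

namespace Vale.Agent.Lib.P262S

open Vale.Agent.Lib.P262B

/-! ### numerics -/

lemma half_sum (j : ℕ) : ∑ a ∈ range (j + 1), (1 / 2 : ℝ) ^ (j - a) ≤ 2 := by
  have h := Finset.sum_range_reflect (fun m => (1 / 2 : ℝ) ^ m) (j + 1)
  have e : ∀ a ∈ range (j + 1), (1 / 2 : ℝ) ^ (j + 1 - 1 - a) = (1 / 2 : ℝ) ^ (j - a) := by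
    intro a _
    simp
  rw [Finset.sum_congr rfl e] at h
  rw [h]
  exact sum_geometric_two_le _

lemma half_sum_aux (n : ℕ) :
    ∑ k ∈ range n, (k : ℝ) * (1 / 2 : ℝ) ^ k + ((n : ℝ) + 1) * 2 * (1 / 2 : ℝ) ^ n ≤ 2 := by
  induction n with
  | zero => simp
  | succ n ih =>
    rw [Finset.sum_range_succ]
    have e : (((n + 1 : ℕ) : ℝ) + 1) * 2 * (1 / 2 : ℝ) ^ (n + 1)
        = ((n : ℝ) + 2) * (1 / 2 : ℝ) ^ n := by
      push_cast
      rw [pow_succ]
      ring
    rw [e]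
    have e2 : (n : ℝ) * (1 / 2 : ℝ) ^ n + ((n : ℝ) + 2) * (1 / 2 : ℝ) ^ n
        = ((n : ℝ) + 1) * 2 * (1 / 2 : ℝ) ^ n := by ring
    linarith

lemma half_sum' (j : ℕ) : ∑ a ∈ range (j + 1), ((j - a : ℕ) : ℝ) * (1 / 2 : ℝ) ^ (j - a) ≤ 2 := by
  have h := Finset.sum_range_reflect (fun m => (m : ℝ) * (1 / 2 : ℝ) ^ m) (j + 1)
  have e : ∀ a ∈ range (j + 1), ((j + 1 - 1 - a : ℕ) : ℝ) * (1 / 2 : ℝ) ^ (j + 1 - 1 - a)
      = ((j - a : ℕ) : ℝ) * (1 / 2 : ℝ) ^ (j - a) := by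
    intro a _
    simp
  rw [Finset.sum_congr rfl e] at h
  rw [h]
  have := half_sum_aux (j + 1)
  have h2 : 0 ≤ (((j + 1 : ℕ) : ℝ) + 1) * 2 * (1 / 2 : ℝ) ^ (j + 1) := by positivity
  linarith

lemma exp_neg_one_le : exp (-1) ≤ 1 / 2 := by
  have h := Real.exp_one_gt_d9
  rw [Real.exp_neg, one_div]
  apply inv_anti₀ (by norm_num)
  linarith

lemma exp_neg_nat_le (m : ℕ) : exp (-(m : ℝ)) ≤ (1 / 2 : ℝ) ^ m := by
  have e : exp (-(m : ℝ)) = exp (-1) ^ m := by
    rw [← Real.exp_nat_mul]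
    congr 1
    ring
  rw [e]
  exact pow_le_pow_left₀ (exp_pos _).le exp_neg_one_le m

lemma five_pow_le (k : ℕ) : (5 : ℝ) ^ k * exp (-(2 * (k : ℝ))) ≤ 1 := by
  have h5 : (5 : ℝ) * exp (-2) ≤ 1 := by
    have h := Real.exp_one_gt_d9
    have h2 : exp 2 = exp 1 * exp 1 := by rw [← Real.exp_add]; norm_num
    have h3 : (5 : ℝ) ≤ exp 2 := by rw [h2]; nlinarith
    rw [Real.exp_neg]
    rw [← div_eq_mul_inv, div_le_one (exp_pos _)]
    exact h3
  have e : exp (-(2 * (k : ℝ))) = exp (-2) ^ k := by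
    rw [← Real.exp_nat_mul]
    congr 1
    ring
  rw [e, ← mul_pow]
  exact pow_le_one₀ (by positivity) h5

lemma sum_abs_half (A : Finset ℕ) (j : ℕ) :
    ∑ a ∈ A, (1 / 2 : ℝ) ^ ((j - a) + (a - j)) ≤ 3 := by
  set K := A.sup id + 1 with hK
  have hsub : A ⊆ range (j + 1 + K) := by
    intro a ha
    rw [mem_range]
    have : a ≤ A.sup id := Finset.le_sup (f := id) ha
    omega
  have h1 : ∑ a ∈ A, (1 / 2 : ℝ) ^ ((j - a) + (a - j))
      ≤ ∑ a ∈ range (j + 1 + K), (1 / 2 : ℝ) ^ ((j - a) + (a - j)) :=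
    Finset.sum_le_sum_of_subset_of_nonneg hsub (fun _ _ _ => by positivity)
  refine h1.trans ?_
  rw [Finset.sum_range_add]
  have h2 : ∑ a ∈ range (j + 1), (1 / 2 : ℝ) ^ ((j - a) + (a - j)) ≤ 2 := by
    refine le_trans (le_of_eq ?_) (half_sum j)
    apply Finset.sum_congr rfl
    intro a ha
    have : a - j = 0 := by
      have := mem_range.1 ha
      omega
    rw [this, add_zero]
  have h3 : ∑ m ∈ range K, (1 / 2 : ℝ) ^ ((j - (j + 1 + m)) + ((j + 1 + m) - j)) ≤ 1 := by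
    have e : ∀ m ∈ range K, (1 / 2 : ℝ) ^ ((j - (j + 1 + m)) + ((j + 1 + m) - j))
        = (1 / 2 : ℝ) * (1 / 2 : ℝ) ^ m := by
      intro m _
      have h1 : j - (j + 1 + m) = 0 := by omega
      have h2 : j + 1 + m - j = m + 1 := by omega
      rw [h1, h2, zero_add, pow_succ]
      ring
    rw [Finset.sum_congr rfl e, ← Finset.mul_sum]
    have := sum_geometric_two_le K
    linarith
  linarith

/-- union bound for nonnegative summands -/
lemma sum_biUnion_le' {α β : Type*} [DecidableEq α] [DecidableEq β] (s : Finset β)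
    (t : β → Finset α) (g : α → ℝ) (hg : ∀ x, 0 ≤ g x) :
    ∑ x ∈ s.biUnion t, g x ≤ ∑ b ∈ s, ∑ x ∈ t b, g x := by
  induction s using Finset.induction_on with
  | empty => simp
  | insert b s hb ih =>
    rw [Finset.biUnion_insert, Finset.sum_insert hb]
    have h := Finset.sum_union_inter (s₁ := t b) (s₂ := s.biUnion t) (f := g)
    have h2 : 0 ≤ ∑ x ∈ t b ∩ s.biUnion t, g x := Finset.sum_nonneg fun _ _ => hg _
    linarith

lemma sum_union_le' {α : Type*} [DecidableEq α] (s t : Finset α) (g : α → ℝ) (hg : ∀ x, 0 ≤ g x) :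
    ∑ x ∈ s ∪ t, g x ≤ ∑ x ∈ s, g x + ∑ x ∈ t, g x := by
  have h := Finset.sum_union_inter (s₁ := s) (s₂ := t) (f := g)
  have h2 : 0 ≤ ∑ x ∈ s ∩ t, g x := Finset.sum_nonneg fun _ _ => hg _
  linarith

/-! ### nets -/

/-- chosen net -/
noncomputable def net {I : Type} [Fintype I] (G : Finset I) : Finset (I → ℝ) :=
  (net_exists G).choose

section
variable {I : Type} [Fintype I] (G : Finset I)

lemma net_card : ((net G).card : ℝ) ≤ 5 ^ G.card := (net_exists G).choose_spec.1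

lemma net_supp {w : I → ℝ} (hw : w ∈ net G) : (∀ i, i ∉ G → w i = 0) ∧ ∑ i, w i ^ 2 ≤ 1 :=
  (net_exists G).choose_spec.2.2.1 w hw

lemma net_cov (y : I → ℝ) : ∃ w ∈ net G, √(∑ i ∈ G, y i ^ 2) ≤ 2 * ∑ i, w i * y i :=
  (net_exists G).choose_spec.2.2.2 y
end

namespace Data

variable {ι I : Type} [Fintype ι] [Fintype I] [DecidableEq ι] [DecidableEq I] (D : Data ι I)

/-- coordinates of a lift -/
abbrev LiftI (I : Type) (j : ℕ) := I ⊕ (I × I) ⊕ Fin (j + 1)

/-- scale of a coordinate of group `a` -/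
noncomputable def scale (j a : ℕ) : ℝ := if a ≤ j then 1 else 2 ^ (a - j)

/-- the lift of an item at stage `j` -/
noncomputable def lift (j : ℕ) (u : ι) : LiftI I j → ℝ
  | Sum.inl i => (1 / 4) * (scale j (D.gp i) * D.v u i)
  | Sum.inr (Sum.inl p) =>
      if D.gp p.1 ≤ j ∧ D.gp p.2 ≤ j then (1 / 4) * (D.v u p.1 * D.v u p.2) else 0
  | Sum.inr (Sum.inr k) => (1 / 4) * ((√((2:ℝ) ^ (j - (k : ℕ))))⁻¹ * D.chi k u)

lemma Qf_nonneg (j : ℕ) (u : ι) : 0 ≤ D.Qf j u := by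
  unfold Qf
  apply Finset.sum_nonneg
  intro i _
  split_ifs <;> positivity

lemma chi_nonnegCE (j : ℕ) (u : ι) : 0 ≤ D.chi j u := le_min zero_le_one (D.Qf_nonneg j u)

lemma chi_le_oneCE (j : ℕ) (u : ι) : D.chi j u ≤ 1 := min_le_left _ _

lemma lift_norm (j : ℕ) (u : ι) (hQ : D.Qf j u ≤ 1) : ∑ x, D.lift j u x ^ 2 ≤ 1 := by
  rw [Fintype.sum_sum_type, Fintype.sum_sum_type]
  have hv := D.hv u
  have h1 : ∑ i, D.lift j u (Sum.inl i) ^ 2 ≤ 2 / 16 := by
    have e : ∀ i, D.lift j u (Sum.inl i) ^ 2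
        = (1 / 16) * ((if D.gp i ≤ j then D.v u i ^ 2 else 0)
            + (if j < D.gp i then (4:ℝ) ^ (D.gp i - j) * D.v u i ^ 2 else 0)) := by
      intro i
      simp only [lift, scale]
      by_cases h : D.gp i ≤ j
      · have h' : ¬ j < D.gp i := by omega
        simp only [h, h', if_true, if_false]
        ring
      · have h' : j < D.gp i := by omega
        simp only [h, h', if_true, if_false]
        have : ((2:ℝ) ^ (D.gp i - j)) ^ 2 = (4:ℝ) ^ (D.gp i - j) := by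
          rw [← pow_mul, mul_comm, pow_mul]
          norm_num
        rw [mul_pow, mul_pow, this]
        ring
    simp_rw [e]
    rw [← Finset.mul_sum, Finset.sum_add_distrib]
    have h2 : ∑ i, (if D.gp i ≤ j then D.v u i ^ 2 else 0) ≤ 1 := by
      refine le_trans (Finset.sum_le_sum fun i _ => ?_) hv
      split_ifs
      · exact le_rfl
      · positivity
    have h3 : ∑ i, (if j < D.gp i then (4:ℝ) ^ (D.gp i - j) * D.v u i ^ 2 else 0) ≤ 1 := hQ
    linarith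
  have h2 : ∑ p : I × I, D.lift j u (Sum.inr (Sum.inl p)) ^ 2 ≤ 1 / 16 := by
    have e : ∀ p : I × I, D.lift j u (Sum.inr (Sum.inl p)) ^ 2
        ≤ (1 / 16) * (D.v u p.1 ^ 2 * D.v u p.2 ^ 2) := by
      intro p
      simp only [lift]
      split_ifs
      · apply le_of_eq
        ring
      · have : 0 ≤ D.v u p.1 ^ 2 * D.v u p.2 ^ 2 := by positivity
        rw [zero_pow (by norm_num)]
        linarith
    refine (Finset.sum_le_sum fun p _ => e p).trans ?_
    rw [← Finset.mul_sum, Fintype.sum_prod_type]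
    simp_rw [← Finset.mul_sum]
    rw [← Finset.sum_mul]
    have h0 : 0 ≤ ∑ i, D.v u i ^ 2 := Finset.sum_nonneg fun _ _ => by positivity
    nlinarith
  have h3 : ∑ k : Fin (j + 1), D.lift j u (Sum.inr (Sum.inr k)) ^ 2 ≤ 2 / 16 := by
    have e : ∀ k : Fin (j + 1), D.lift j u (Sum.inr (Sum.inr k)) ^ 2
        ≤ (1 / 16) * (1 / 2 : ℝ) ^ (j - (k : ℕ)) := by
      intro k
      simp only [lift]
      have h2 : (0:ℝ) < 2 ^ (j - (k : ℕ)) := by positivity
      have hc0 := D.chi_nonnegCE k u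
      have hc1 := D.chi_le_oneCE k u
      rw [mul_pow, mul_pow, inv_pow, Real.sq_sqrt h2.le]
      have hc2 : D.chi k u ^ 2 ≤ 1 := by nlinarith
      have e2 : ((2:ℝ) ^ (j - (k : ℕ)))⁻¹ = (1 / 2 : ℝ) ^ (j - (k : ℕ)) := by
        rw [one_div, inv_pow]
      rw [e2]
      have h3 : (0:ℝ) ≤ (1 / 2 : ℝ) ^ (j - (k : ℕ)) := by positivity
      nlinarith
    refine (Finset.sum_le_sum fun k _ => e k).trans ?_
    rw [← Finset.mul_sum, Fin.sum_univ_eq_sum_range (fun m => (1 / 2 : ℝ) ^ (j - m)) (j + 1)]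
    have := half_sum j
    linarith
  norm_num at h1 h2 h3 ⊢
  linarith

/-! ### the tests -/

/-- group `a` -/
def grp (a : ℕ) : Finset I := univ.filter fun i => D.gp i = a

lemma kap_eq (a : ℕ) : D.kap a = ((D.grp a).card : ℝ) := by
  unfold kap grp
  rfl

lemma kap_nonnegCE (a : ℕ) : 0 ≤ D.kap a := by
  rw [D.kap_eq]
  positivity

/-- radius of group tests -/
noncomputable def R1 (j : ℕ) (e : ℝ) (a : ℕ) : ℝ :=
  √(2 * (2 * D.kap a + e + ((j - a : ℕ) : ℝ) + ((a - j : ℕ) : ℝ) + 3))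

/-- radius of pair tests -/
noncomputable def R2 (j : ℕ) (e : ℝ) (a b : ℕ) : ℝ :=
  √(2 * (2 * D.kap a + 2 * D.kap b + e + ((j - a : ℕ) : ℝ) + ((j - b : ℕ) : ℝ) + 3))

/-- radius of unit tests -/
noncomputable def R3 (j : ℕ) (e : ℝ) (k : ℕ) : ℝ := √(2 * (e + ((j - k : ℕ) : ℝ) + 3))

/-- group test vector -/
def emb1 (j : ℕ) (w : I → ℝ) : LiftI I j → ℝ
  | Sum.inl i => w i
  | Sum.inr _ => 0

/-- pair test vector -/
def emb2 (j : ℕ) (w w' : I → ℝ) : LiftI I j → ℝ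
  | Sum.inl _ => 0
  | Sum.inr (Sum.inl p) => w p.1 * w' p.2
  | Sum.inr (Sum.inr _) => 0

/-- unit test vector -/
def emb3 (j : ℕ) (k : Fin (j + 1)) : LiftI I j → ℝ
  | Sum.inl _ => 0
  | Sum.inr (Sum.inl _) => 0
  | Sum.inr (Sum.inr k') => if k' = k then 1 else 0

open Classical in
/-- all tests -/
noncomputable def tests (j : ℕ) (e : ℝ) : Finset ((LiftI I j → ℝ) × ℝ) :=
  ((univ.image D.gp).biUnion fun a => (net (D.grp a)).biUnion fun w => {(emb1 j w, D.R1 j e a)})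
  ∪ ((range (j + 1) ×ˢ range (j + 1)).biUnion fun q => (net (D.grp q.1)).biUnion fun w =>
      (net (D.grp q.2)).biUnion fun w' => {(emb2 j w w', D.R2 j e q.1 q.2)})
  ∪ ((univ : Finset (Fin (j + 1))).biUnion fun k => {(emb3 j k, R3 j e k)})

lemma mem_tests1 {j : ℕ} {e : ℝ} {a : ℕ} (ha : a ∈ univ.image D.gp) {w : I → ℝ}
    (hw : w ∈ net (D.grp a)) : (emb1 j w, D.R1 j e a) ∈ D.tests j e := by
  classical
  unfold tests
  refine mem_union_left _ (mem_union_left _ ?_)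
  refine mem_biUnion.2 ⟨a, by convert ha, ?_⟩
  exact mem_biUnion.2 ⟨w, hw, mem_singleton_self _⟩

lemma mem_tests2 {j : ℕ} {e : ℝ} {a b : ℕ} (ha : a ≤ j) (hb : b ≤ j) {w w' : I → ℝ}
    (hw : w ∈ net (D.grp a)) (hw' : w' ∈ net (D.grp b)) :
    (emb2 j w w', D.R2 j e a b) ∈ D.tests j e := by
  classical
  unfold tests
  refine mem_union_left _ (mem_union_right _ ?_)
  refine mem_biUnion.2 ⟨(a, b), ?_, ?_⟩
  · rw [mem_product, mem_range, mem_range]
    exact ⟨by simpa using Nat.lt_succ_of_le ha, by simpa using Nat.lt_succ_of_le hb⟩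
  exact mem_biUnion.2 ⟨w, hw, mem_biUnion.2 ⟨w', hw', mem_singleton_self _⟩⟩

lemma mem_tests3 {j : ℕ} {e : ℝ} (k : Fin (j + 1)) :
    (emb3 j k, R3 j e k) ∈ D.tests j e := by
  classical
  unfold tests
  refine mem_union_right _ ?_
  exact mem_biUnion.2 ⟨k, mem_univ _, mem_singleton_self _⟩

lemma tests_hT (j : ℕ) (e : ℝ) : ∀ t ∈ D.tests j e, ∑ x, t.1 x ^ 2 ≤ 1 ∧ 0 ≤ t.2 := by
  classical
  intro t ht
  unfold tests at ht
  rcases mem_union.1 ht with ht | ht
  · rcases mem_union.1 ht with ht | ht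
    · obtain ⟨a, _, ht⟩ := mem_biUnion.1 ht
      obtain ⟨w, hw, ht⟩ := mem_biUnion.1 ht
      rw [mem_singleton] at ht
      subst ht
      refine ⟨?_, Real.sqrt_nonneg _⟩
      rw [Fintype.sum_sum_type]
      simpa [emb1] using (net_supp _ hw).2
    · obtain ⟨q, _, ht⟩ := mem_biUnion.1 ht
      obtain ⟨w, hw, ht⟩ := mem_biUnion.1 ht
      obtain ⟨w', hw', ht⟩ := mem_biUnion.1 ht
      rw [mem_singleton] at ht
      subst ht
      refine ⟨?_, Real.sqrt_nonneg _⟩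
      rw [Fintype.sum_sum_type, Fintype.sum_sum_type]
      simp only [emb2]
      have h1 := (net_supp _ hw).2
      have h2 := (net_supp _ hw').2
      have e1 : ∑ p : I × I, (w p.1 * w' p.2) ^ 2 = (∑ i, w i ^ 2) * ∑ i, w' i ^ 2 := by
        rw [Fintype.sum_prod_type, Finset.sum_mul_sum]
        simp_rw [mul_pow]
      rw [e1]
      have h3 : 0 ≤ ∑ i, w i ^ 2 := Finset.sum_nonneg fun _ _ => by positivity
      have h4 : 0 ≤ ∑ i, w' i ^ 2 := Finset.sum_nonneg fun _ _ => by positivity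
      simp only [ne_eq, OfNat.ofNat_ne_zero, not_false_eq_true, zero_pow, Finset.sum_const_zero,
        zero_add, add_zero]
      nlinarith
  · obtain ⟨k, _, ht⟩ := mem_biUnion.1 ht
    rw [mem_singleton] at ht
    subst ht
    refine ⟨?_, Real.sqrt_nonneg _⟩
    rw [Fintype.sum_sum_type, Fintype.sum_sum_type]
    simp [emb3]

lemma exp_split (s : ℝ) (m : ℕ) : exp (-(s + (m : ℝ))) ≤ exp (-s) * (1 / 2 : ℝ) ^ m := by
  rw [neg_add, Real.exp_add]
  exact mul_le_mul_of_nonneg_left (exp_neg_nat_le m) (exp_pos _).le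

lemma net_mul_exp (G : Finset I) (s : ℝ) :
    ((net G).card : ℝ) * exp (-(2 * (G.card : ℝ) + s)) ≤ exp (-s) := by
  have h := net_card G
  have h5 := five_pow_le G.card
  rw [neg_add, Real.exp_add]
  calc ((net G).card : ℝ) * (exp (-(2 * (G.card : ℝ))) * exp (-s))
      ≤ 5 ^ G.card * (exp (-(2 * (G.card : ℝ))) * exp (-s)) :=
        mul_le_mul_of_nonneg_right h (by positivity)
    _ = (5 ^ G.card * exp (-(2 * (G.card : ℝ)))) * exp (-s) := by ring
    _ ≤ 1 * exp (-s) := mul_le_mul_of_nonneg_right h5 (exp_pos _).le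
    _ = exp (-s) := one_mul _

lemma R1_sq {j : ℕ} {e : ℝ} (he : 0 ≤ e) (a : ℕ) :
    D.R1 j e a ^ 2 = 2 * (2 * D.kap a + e + ((j - a : ℕ) : ℝ) + ((a - j : ℕ) : ℝ) + 3) := by
  have := D.kap_nonnegCE a
  unfold R1
  exact Real.sq_sqrt (by positivity)

lemma R2_sq {j : ℕ} {e : ℝ} (he : 0 ≤ e) (a b : ℕ) :
    D.R2 j e a b ^ 2
      = 2 * (2 * D.kap a + 2 * D.kap b + e + ((j - a : ℕ) : ℝ) + ((j - b : ℕ) : ℝ) + 3) := by
  have := D.kap_nonnegCE a
  have := D.kap_nonnegCE b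
  unfold R2
  exact Real.sq_sqrt (by positivity)

lemma R3_sq {j : ℕ} {e : ℝ} (he : 0 ≤ e) (k : ℕ) :
    R3 j e k ^ 2 = 2 * (e + ((j - k : ℕ) : ℝ) + 3) := by
  unfold R3
  exact Real.sq_sqrt (by positivity)

/-- total failure probability -/
lemma tests_budget (j : ℕ) {e : ℝ} (he : 0 ≤ e) :
    ∑ t ∈ D.tests j e, 2 * exp (-(t.2 ^ 2 / 2)) ≤ 18 * exp (-(e + 3)) := by
  classical
  set g : (LiftI I j → ℝ) × ℝ → ℝ := fun t => 2 * exp (-(t.2 ^ 2 / 2)) with hg
  have hg0 : ∀ t, 0 ≤ g t := fun t => by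
    simp only [hg]
    positivity
  set E := exp (-(e + 3)) with hE
  have hE0 : 0 ≤ E := (exp_pos _).le
  -- first part
  have h1 : ∑ t ∈ ((univ.image D.gp).biUnion fun a => (net (D.grp a)).biUnion fun w =>
      ({(emb1 j w, D.R1 j e a)} : Finset _)), g t ≤ 6 * E := by
    refine (sum_biUnion_le' _ _ _ hg0).trans ?_
    have key : ∀ a ∈ univ.image D.gp,
        ∑ x ∈ (net (D.grp a)).biUnion fun w => ({(emb1 j w, D.R1 j e a)} : Finset _), g x
          ≤ 2 * E * (1 / 2 : ℝ) ^ ((j - a) + (a - j)) := by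
      intro a _
      refine (sum_biUnion_le' _ _ _ hg0).trans ?_
      simp only [sum_singleton, hg]
      rw [Finset.sum_const, nsmul_eq_mul]
      have e1 : D.R1 j e a ^ 2 / 2
          = 2 * ((D.grp a).card : ℝ) + ((e + 3) + (((j - a) + (a - j) : ℕ) : ℝ)) := by
        rw [D.R1_sq he, D.kap_eq]
        push_cast
        ring
      rw [e1]
      have h2 := net_mul_exp (D.grp a) ((e + 3) + (((j - a) + (a - j) : ℕ) : ℝ))
      have h3 := exp_split (e + 3) ((j - a) + (a - j))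
      calc ((net (D.grp a)).card : ℝ) * (2 * exp (-(2 * ((D.grp a).card : ℝ)
              + ((e + 3) + (((j - a) + (a - j) : ℕ) : ℝ)))))
          = 2 * (((net (D.grp a)).card : ℝ) * exp (-(2 * ((D.grp a).card : ℝ)
              + ((e + 3) + (((j - a) + (a - j) : ℕ) : ℝ))))) := by ring
        _ ≤ 2 * (E * (1 / 2 : ℝ) ^ ((j - a) + (a - j))) := by
            apply mul_le_mul_of_nonneg_left (h2.trans h3) (by norm_num)
        _ = 2 * E * (1 / 2 : ℝ) ^ ((j - a) + (a - j)) := by ring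
    refine (Finset.sum_le_sum key).trans ?_
    rw [← Finset.mul_sum]
    have := sum_abs_half (univ.image D.gp) j
    nlinarith
  -- second part
  have h2 : ∑ t ∈ ((range (j + 1) ×ˢ range (j + 1)).biUnion fun q => (net (D.grp q.1)).biUnion
      fun w => (net (D.grp q.2)).biUnion fun w' =>
        ({(emb2 j w w', D.R2 j e q.1 q.2)} : Finset _)), g t ≤ 8 * E := by
    refine (sum_biUnion_le' _ _ _ hg0).trans ?_
    have key : ∀ q ∈ range (j + 1) ×ˢ range (j + 1),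
        ∑ x ∈ (net (D.grp q.1)).biUnion fun w => (net (D.grp q.2)).biUnion fun w' =>
          ({(emb2 j w w', D.R2 j e q.1 q.2)} : Finset _), g x
          ≤ 2 * E * ((1 / 2 : ℝ) ^ (j - q.1) * (1 / 2 : ℝ) ^ (j - q.2)) := by
      intro q _
      refine (sum_biUnion_le' _ _ _ hg0).trans ?_
      have h3 : ∀ w ∈ net (D.grp q.1), ∑ x ∈ (net (D.grp q.2)).biUnion fun w' =>
          ({(emb2 j w w', D.R2 j e q.1 q.2)} : Finset _), g x
            ≤ ((net (D.grp q.2)).card : ℝ) * (2 * exp (-(D.R2 j e q.1 q.2 ^ 2 / 2))) := by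
        intro w _
        refine (sum_biUnion_le' _ _ _ hg0).trans ?_
        simp only [sum_singleton, hg]
        rw [Finset.sum_const, nsmul_eq_mul]
      refine (Finset.sum_le_sum h3).trans ?_
      rw [Finset.sum_const, nsmul_eq_mul]
      have e1 : D.R2 j e q.1 q.2 ^ 2 / 2
          = 2 * ((D.grp q.1).card : ℝ) + (2 * ((D.grp q.2).card : ℝ)
            + (((e + 3) + ((j - q.1 : ℕ) : ℝ)) + ((j - q.2 : ℕ) : ℝ))) := by
        rw [D.R2_sq he, D.kap_eq, D.kap_eq]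
        ring
      rw [e1]
      have h4 := net_mul_exp (D.grp q.1) (2 * ((D.grp q.2).card : ℝ)
            + (((e + 3) + ((j - q.1 : ℕ) : ℝ)) + ((j - q.2 : ℕ) : ℝ)))
      have h5 := net_mul_exp (D.grp q.2) (((e + 3) + ((j - q.1 : ℕ) : ℝ)) + ((j - q.2 : ℕ) : ℝ))
      have h6 := exp_split ((e + 3) + ((j - q.1 : ℕ) : ℝ)) (j - q.2)
      have h7 := exp_split (e + 3) (j - q.1)
      set A := ((net (D.grp q.1)).card : ℝ)
      set B := ((net (D.grp q.2)).card : ℝ)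
      have hA : 0 ≤ A := by positivity
      have hB : 0 ≤ B := by positivity
      set X := exp (-(2 * ((D.grp q.1).card : ℝ) + (2 * ((D.grp q.2).card : ℝ)
            + (((e + 3) + ((j - q.1 : ℕ) : ℝ)) + ((j - q.2 : ℕ) : ℝ)))))
      have hX : 0 ≤ X := (exp_pos _).le
      have h8 : (1 / 2 : ℝ) ^ (j - q.2) ≥ 0 := by positivity
      calc A * (B * (2 * X)) = 2 * (B * (A * X)) := by ring
        _ ≤ 2 * (B * exp (-(2 * ((D.grp q.2).card : ℝ)
            + (((e + 3) + ((j - q.1 : ℕ) : ℝ)) + ((j - q.2 : ℕ) : ℝ))))) := by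
            apply mul_le_mul_of_nonneg_left _ (by norm_num)
            exact mul_le_mul_of_nonneg_left h4 hB
        _ ≤ 2 * exp (-(((e + 3) + ((j - q.1 : ℕ) : ℝ)) + ((j - q.2 : ℕ) : ℝ))) := by
            apply mul_le_mul_of_nonneg_left h5 (by norm_num)
        _ ≤ 2 * (exp (-((e + 3) + ((j - q.1 : ℕ) : ℝ))) * (1 / 2 : ℝ) ^ (j - q.2)) := by
            apply mul_le_mul_of_nonneg_left h6 (by norm_num)
        _ ≤ 2 * ((E * (1 / 2 : ℝ) ^ (j - q.1)) * (1 / 2 : ℝ) ^ (j - q.2)) := by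
            apply mul_le_mul_of_nonneg_left _ (by norm_num)
            exact mul_le_mul_of_nonneg_right h7 h8
        _ = 2 * E * ((1 / 2 : ℝ) ^ (j - q.1) * (1 / 2 : ℝ) ^ (j - q.2)) := by ring
    refine (Finset.sum_le_sum key).trans ?_
    rw [← Finset.mul_sum, Finset.sum_product]
    simp_rw [← Finset.mul_sum]
    rw [← Finset.sum_mul]
    have h3 := half_sum j
    have h4 : 0 ≤ ∑ a ∈ range (j + 1), (1 / 2 : ℝ) ^ (j - a) :=
      Finset.sum_nonneg fun _ _ => by positivity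
    have h5 : (∑ a ∈ range (j + 1), (1 / 2 : ℝ) ^ (j - a))
        * (∑ a ∈ range (j + 1), (1 / 2 : ℝ) ^ (j - a)) ≤ 4 := by nlinarith
    nlinarith
  -- third part
  have h3 : ∑ t ∈ ((univ : Finset (Fin (j + 1))).biUnion fun k =>
      ({(emb3 j k, R3 j e k)} : Finset _)), g t ≤ 4 * E := by
    refine (sum_biUnion_le' _ _ _ hg0).trans ?_
    have key : ∀ k ∈ (univ : Finset (Fin (j + 1))),
        ∑ x ∈ ({(emb3 j k, R3 j e k)} : Finset _), g x
          ≤ 2 * E * (1 / 2 : ℝ) ^ (j - (k : ℕ)) := by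
      intro k _
      simp only [sum_singleton, hg]
      have e1 : R3 j e k ^ 2 / 2 = (e + 3) + ((j - (k : ℕ) : ℕ) : ℝ) := by
        rw [R3_sq he]
        ring
      rw [e1]
      have h4 := exp_split (e + 3) (j - (k : ℕ))
      calc 2 * exp (-((e + 3) + ((j - (k : ℕ) : ℕ) : ℝ)))
          ≤ 2 * (E * (1 / 2 : ℝ) ^ (j - (k : ℕ))) := by
            apply mul_le_mul_of_nonneg_left h4 (by norm_num)
        _ = 2 * E * (1 / 2 : ℝ) ^ (j - (k : ℕ)) := by ring
    refine (Finset.sum_le_sum key).trans ?_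
    rw [← Finset.mul_sum, Fin.sum_univ_eq_sum_range (fun m => (1 / 2 : ℝ) ^ (j - m)) (j + 1)]
    have := half_sum j
    nlinarith
  -- union
  have hu := sum_union_le' (((univ.image D.gp).biUnion fun a => (net (D.grp a)).biUnion fun w =>
      ({(emb1 j w, D.R1 j e a)} : Finset _)) ∪
      ((range (j + 1) ×ˢ range (j + 1)).biUnion fun q => (net (D.grp q.1)).biUnion fun w =>
      (net (D.grp q.2)).biUnion fun w' => ({(emb2 j w w', D.R2 j e q.1 q.2)} : Finset _)))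
      ((univ : Finset (Fin (j + 1))).biUnion fun k => ({(emb3 j k, R3 j e k)} : Finset _))
      g hg0
  have hu2 := sum_union_le' ((univ.image D.gp).biUnion fun a => (net (D.grp a)).biUnion fun w =>
      ({(emb1 j w, D.R1 j e a)} : Finset _))
      ((range (j + 1) ×ˢ range (j + 1)).biUnion fun q => (net (D.grp q.1)).biUnion fun w =>
      (net (D.grp q.2)).biUnion fun w' => ({(emb2 j w w', D.R2 j e q.1 q.2)} : Finset _))
      g hg0
  have : D.tests j e = ((univ.image D.gp).biUnion fun a => (net (D.grp a)).biUnion fun w =>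
      ({(emb1 j w, D.R1 j e a)} : Finset _)) ∪
      ((range (j + 1) ×ˢ range (j + 1)).biUnion fun q => (net (D.grp q.1)).biUnion fun w =>
      (net (D.grp q.2)).biUnion fun w' => ({(emb2 j w w', D.R2 j e q.1 q.2)} : Finset _))
      ∪ ((univ : Finset (Fin (j + 1))).biUnion fun k => ({(emb3 j k, R3 j e k)} : Finset _)) := by
    unfold tests
    congr!
  rw [this]
  linarith

/-! ### evaluating the tests -/

/-- hypothesis: all tests pass with constant `4/r0` -/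
def TestOK (j : ℕ) (e : ℝ) (S : Finset ι) (c : ι → ℝ) : Prop :=
  ∀ t ∈ D.tests j e, |∑ u ∈ S, c u * ∑ x, t.1 x * D.lift j u x| ≤ 4 / r0 * t.2

lemma eval1 (j : ℕ) (u : ι) {a : ℕ} {w : I → ℝ} (hw : ∀ i, i ∉ D.grp a → w i = 0) :
    ∑ x, emb1 j w x * D.lift j u x = (1 / 4) * scale j a * ∑ i, w i * D.v u i := by
  rw [Fintype.sum_sum_type]
  simp only [emb1, zero_mul, Finset.sum_const_zero, add_zero, lift]
  rw [Finset.mul_sum]
  apply Finset.sum_congr rfl
  intro i _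
  by_cases hi : i ∈ D.grp a
  · have : D.gp i = a := by simpa [grp] using hi
    rw [this]
    ring
  · rw [hw i hi]
    ring

lemma eval2 (j : ℕ) (u : ι) {a b : ℕ} (ha : a ≤ j) (hb : b ≤ j) {w w' : I → ℝ}
    (hw : ∀ i, i ∉ D.grp a → w i = 0) (hw' : ∀ i, i ∉ D.grp b → w' i = 0) :
    ∑ x, emb2 j w w' x * D.lift j u x
      = (1 / 4) * ((∑ i, w i * D.v u i) * ∑ i, w' i * D.v u i) := by
  rw [Fintype.sum_sum_type, Fintype.sum_sum_type]
  simp only [emb2, zero_mul, Finset.sum_const_zero, add_zero, zero_add, lift]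
  rw [Finset.sum_mul_sum, Fintype.sum_prod_type, Finset.mul_sum]
  apply Finset.sum_congr rfl
  intro i _
  rw [Finset.mul_sum]
  apply Finset.sum_congr rfl
  intro i' _
  by_cases hi : i ∈ D.grp a
  · by_cases hi' : i' ∈ D.grp b
    · have h1 : D.gp i = a := by simpa [grp] using hi
      have h2 : D.gp i' = b := by simpa [grp] using hi'
      have h3 : D.gp i ≤ j ∧ D.gp i' ≤ j := by omega
      simp only [h3, and_self, if_true]
      ring
    · rw [hw' i' hi']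
      ring
  · rw [hw i hi]
    ring

lemma eval3 (j : ℕ) (u : ι) (k : Fin (j + 1)) :
    ∑ x, emb3 j k x * D.lift j u x
      = (1 / 4) * ((√((2:ℝ) ^ (j - (k : ℕ))))⁻¹ * D.chi k u) := by
  rw [Fintype.sum_sum_type, Fintype.sum_sum_type]
  simp [emb3, lift]

lemma comb_dot (S : Finset ι) (c : ι → ℝ) (w : I → ℝ) :
    ∑ i, w i * D.comb S c i = ∑ u ∈ S, c u * ∑ i, w i * D.v u i := by
  unfold comb
  simp_rw [Finset.mul_sum]
  rw [Finset.sum_comm]
  apply Finset.sum_congr rfl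
  intro u _
  apply Finset.sum_congr rfl
  intro i _
  ring

lemma gn_nonnegCE (a : ℕ) (y : I → ℝ) : 0 ≤ D.gn a y := by
  unfold gn
  apply Finset.sum_nonneg
  intro i _
  split_ifs <;> positivity

lemma gn_eq (a : ℕ) (y : I → ℝ) : ∑ i ∈ D.grp a, y i ^ 2 = D.gn a y := by
  unfold grp gn
  rw [Finset.sum_filter]

lemma scale_pos (j a : ℕ) : 0 < scale j a := by
  unfold scale
  split_ifs <;> positivity

lemma C1_pos : 0 < C1 := by
  have := C1_ge
  linarith

lemma gn_scale_bound {j : ℕ} {e : ℝ} (he : 3 ≤ e) {S : Finset ι} {c : ι → ℝ}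
    (h : D.TestOK j e S c) (a : ℕ) :
    D.gn a (D.comb S c) * scale j a ^ 2
      ≤ C1 * (D.kap a + e + ((j - a : ℕ) : ℝ) + ((a - j : ℕ) : ℝ)) := by
  classical
  have hk := D.kap_nonnegCE a
  have hP : 0 ≤ D.kap a + e + ((j - a : ℕ) : ℝ) + ((a - j : ℕ) : ℝ) := by positivity
  have hC := C1_pos
  by_cases ha : a ∈ univ.image D.gp
  · set y := D.comb S c with hy
    obtain ⟨w, hw, hcov⟩ := net_cov (D.grp a) y
    rw [D.gn_eq] at hcov
    have ht := h _ (D.mem_tests1 (j := j) (e := e) ha hw)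
    simp only at ht
    have hsupp := (net_supp _ hw).1
    have e1 : ∑ u ∈ S, c u * ∑ x, emb1 j w x * D.lift j u x
        = (1 / 4) * scale j a * ∑ i, w i * y i := by
      rw [hy, D.comb_dot, Finset.mul_sum]
      apply Finset.sum_congr rfl
      intro u _
      rw [D.eval1 j u hsupp]
      ring
    rw [e1, abs_mul, abs_of_pos (by have := scale_pos j a; positivity :
      (0:ℝ) < 1 / 4 * scale j a)] at ht
    have hs := scale_pos j a
    have hr := r0_pos
    have hR : 0 ≤ D.R1 j e a := Real.sqrt_nonneg _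
    have h1 : √(D.gn a y) * scale j a ≤ 32 / r0 * D.R1 j e a := by
      have h2 : √(D.gn a y) ≤ 2 * |∑ i, w i * y i| := hcov.trans
        (mul_le_mul_of_nonneg_left (le_abs_self _) (by norm_num))
      have h3 : 2 * |∑ i, w i * y i| * scale j a = 8 * (1 / 4 * scale j a * |∑ i, w i * y i|) := by
        ring
      calc √(D.gn a y) * scale j a ≤ 2 * |∑ i, w i * y i| * scale j a :=
            mul_le_mul_of_nonneg_right h2 hs.le
        _ = 8 * (1 / 4 * scale j a * |∑ i, w i * y i|) := h3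
        _ ≤ 8 * (4 / r0 * D.R1 j e a) := mul_le_mul_of_nonneg_left ht (by norm_num)
        _ = 32 / r0 * D.R1 j e a := by ring
    have h2 := pow_le_pow_left₀ (by positivity) h1 2
    rw [mul_pow, Real.sq_sqrt (D.gn_nonnegCE _ _), mul_pow, D.R1_sq (by linarith)] at h2
    refine h2.trans ?_
    have e2 : (32 / r0) ^ 2 = 1024 / r0 ^ 2 := by ring
    rw [e2]
    unfold C1
    have h3 : 2 * (2 * D.kap a + e + ((j - a : ℕ) : ℝ) + ((a - j : ℕ) : ℝ) + 3)
        ≤ 4 * (D.kap a + e + ((j - a : ℕ) : ℝ) + ((a - j : ℕ) : ℝ)) := by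
      have h4 : (0:ℝ) ≤ ((j - a : ℕ) : ℝ) := by positivity
      have h5 : (0:ℝ) ≤ ((a - j : ℕ) : ℝ) := by positivity
      linarith
    have h4 : (0:ℝ) < 1 / r0 ^ 2 := by positivity
    calc 1024 / r0 ^ 2 * (2 * (2 * D.kap a + e + ((j - a : ℕ) : ℝ) + ((a - j : ℕ) : ℝ) + 3))
        ≤ 1024 / r0 ^ 2 * (4 * (D.kap a + e + ((j - a : ℕ) : ℝ) + ((a - j : ℕ) : ℝ))) :=
          mul_le_mul_of_nonneg_left h3 (by positivity)
      _ = (4096 * (1 / r0 ^ 2)) * (D.kap a + e + ((j - a : ℕ) : ℝ) + ((a - j : ℕ) : ℝ)) := by ring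
      _ ≤ (2 ^ 20 * (1 / r0 ^ 2)) * (D.kap a + e + ((j - a : ℕ) : ℝ) + ((a - j : ℕ) : ℝ)) := by
          apply mul_le_mul_of_nonneg_right _ hP
          apply mul_le_mul_of_nonneg_right (by norm_num) h4.le
      _ = 2 ^ 20 / r0 ^ 2 * (D.kap a + e + ((j - a : ℕ) : ℝ) + ((a - j : ℕ) : ℝ)) := by ring
  · have h0 : D.gn a (D.comb S c) = 0 := by
      unfold gn
      apply Finset.sum_eq_zero
      intro i _
      rw [if_neg]
      intro hi
      exact ha (mem_image.2 ⟨i, mem_univ _, hi⟩)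
    rw [h0, zero_mul]
    positivity

lemma cert12_of_test {j : ℕ} {e : ℝ} (he : 3 ≤ e) {S : Finset ι} {c : ι → ℝ}
    (h : D.TestOK j e S c) : D.Cert12 j e S c := by
  refine ⟨?_, ?_⟩
  · intro a ha
    have h1 := D.gn_scale_bound he h a
    have h2 : scale j a = 1 := by simp [scale, ha]
    have h3 : a - j = 0 := by omega
    rw [h2, h3] at h1
    simpa using h1
  · intro b hb
    have h1 := D.gn_scale_bound he h b
    have h2 : scale j b = 2 ^ (b - j) := by
      unfold scale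
      rw [if_neg (by omega)]
    have h3 : j - b = 0 := by omega
    rw [h2, h3] at h1
    have h4 : ((2:ℝ) ^ (b - j)) ^ 2 = 4 ^ (b - j) := by
      rw [← pow_mul, mul_comm, pow_mul]
      norm_num
    rw [h4] at h1
    have h5 : (0:ℝ) < 4 ^ (b - j) := by positivity
    have e1 : C1 * ((1 / 4 : ℝ) ^ (b - j) * (D.kap b + e + ((b - j : ℕ) : ℝ)))
        = (C1 * (D.kap b + e + ((0 : ℕ) : ℝ) + ((b - j : ℕ) : ℝ))) / 4 ^ (b - j) := by
      rw [one_div, inv_pow]
      push_cast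
      field_simp
      ring
    rw [e1, le_div_iff₀ h5]
    exact h1

lemma cert4_of_test {j : ℕ} {e : ℝ} (he : 3 ≤ e) {S : Finset ι} {c : ι → ℝ}
    (h : D.TestOK j e S c) (j' : ℕ) (hj' : j' ≤ j) :
    |∑ u ∈ S, c u * D.chi j' u| ≤ C1 * √((2:ℝ) ^ (j - j')) * √(e + ((j - j' : ℕ) : ℝ)) := by
  classical
  set k : Fin (j + 1) := ⟨j', by omega⟩ with hk
  have ht := h _ (D.mem_tests3 (j := j) (e := e) k)
  simp only at ht
  set s := √((2:ℝ) ^ (j - j')) with hs
  have hs0 : 0 < s := Real.sqrt_pos.2 (by positivity)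
  have e1 : ∑ u ∈ S, c u * ∑ x, emb3 j k x * D.lift j u x
      = (1 / 4) * s⁻¹ * ∑ u ∈ S, c u * D.chi j' u := by
    rw [Finset.mul_sum]
    apply Finset.sum_congr rfl
    intro u _
    rw [D.eval3 j u k]
    simp only [hk]
    rw [← hs]
    ring
  rw [e1, abs_mul, abs_of_pos (by positivity : (0:ℝ) < 1 / 4 * s⁻¹)] at ht
  have hr := r0_pos
  have hr1 := r0_le_one
  have hR3 : R3 j e k ≤ 2 * √(e + ((j - j' : ℕ) : ℝ)) := by
    have h0 : (0:ℝ) ≤ ((j - j' : ℕ) : ℝ) := by positivity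
    apply Real.sqrt_le_iff.2
    refine ⟨by positivity, ?_⟩
    rw [mul_pow, Real.sq_sqrt (by linarith)]
    simp only [hk]
    linarith
  have h1 : |∑ u ∈ S, c u * D.chi j' u| ≤ 16 / r0 * R3 j e k * s := by
    have h2 : s⁻¹ * |∑ u ∈ S, c u * D.chi j' u| ≤ 16 / r0 * R3 j e k := by
      have := mul_le_mul_of_nonneg_left ht (by norm_num : (0:ℝ) ≤ 4)
      calc s⁻¹ * |∑ u ∈ S, c u * D.chi j' u|
          = 4 * (1 / 4 * s⁻¹ * |∑ u ∈ S, c u * D.chi j' u|) := by ring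
        _ ≤ 4 * (4 / r0 * R3 j e k) := this
        _ = 16 / r0 * R3 j e k := by ring
    rw [inv_mul_le_iff₀ hs0] at h2
    linarith
  refine h1.trans ?_
  have h3 : 32 / r0 ≤ C1 := by
    unfold C1
    rw [div_le_div_iff₀ hr (by positivity)]
    nlinarith [sq_nonneg r0, hr, hr1]
  have hsq : 0 ≤ √(e + ((j - j' : ℕ) : ℝ)) := Real.sqrt_nonneg _
  calc 16 / r0 * R3 j e k * s ≤ 16 / r0 * (2 * √(e + ((j - j' : ℕ) : ℝ))) * s := by
        apply mul_le_mul_of_nonneg_right _ hs0.le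
        apply mul_le_mul_of_nonneg_left hR3 (by positivity)
    _ = 32 / r0 * s * √(e + ((j - j' : ℕ) : ℝ)) := by ring
    _ ≤ C1 * s * √(e + ((j - j' : ℕ) : ℝ)) := by
        apply mul_le_mul_of_nonneg_right _ hsq
        apply mul_le_mul_of_nonneg_right h3 hs0.le

/-! ### the quadratic certificate -/

/-- dot product -/
def dot (y z : I → ℝ) : ℝ := ∑ i, y i * z i

/-- the bilinear form -/
noncomputable def Bf (S : Finset ι) (c : ι → ℝ) (y z : I → ℝ) : ℝ :=
  ∑ u ∈ S, c u * (dot y (D.v u) * dot z (D.v u))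

lemma Bf_comm (S : Finset ι) (c : ι → ℝ) (y z : I → ℝ) : D.Bf S c y z = D.Bf S c z y := by
  unfold Bf
  apply Finset.sum_congr rfl
  intro u _
  ring

/-- the linear form obtained by fixing one argument -/
noncomputable def Yf (S : Finset ι) (c : ι → ℝ) (z : I → ℝ) : I → ℝ :=
  fun i => ∑ u ∈ S, c u * dot z (D.v u) * D.v u i

lemma Bf_eq_dot (S : Finset ι) (c : ι → ℝ) (y z : I → ℝ) :
    D.Bf S c y z = dot y (D.Yf S c z) := by
  have h1 : dot y (D.Yf S c z) = ∑ i, ∑ u ∈ S, y i * (c u * dot z (D.v u) * D.v u i) := by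
    show ∑ i, y i * (∑ u ∈ S, c u * dot z (D.v u) * D.v u i) = _
    apply Finset.sum_congr rfl
    intro i _
    rw [Finset.mul_sum]
  rw [h1, Finset.sum_comm]
  unfold Bf
  apply Finset.sum_congr rfl
  intro u _
  have h2 : dot y (D.v u) = ∑ i, y i * D.v u i := rfl
  rw [h2, mul_comm (∑ i, y i * D.v u i), ← mul_assoc, Finset.mul_sum]
  apply Finset.sum_congr rfl
  intro i _
  ring

lemma dot_abs_le (G : Finset I) (y z : I → ℝ) (hy : ∀ i, i ∉ G → y i = 0) :
    |dot y z| ≤ √(∑ i ∈ G, y i ^ 2) * √(∑ i ∈ G, z i ^ 2) := by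
  have e : dot y z = ∑ i ∈ G, y i * z i := by
    unfold dot
    symm
    apply Finset.sum_subset (subset_univ G)
    intro i _ hi
    rw [hy i hi, zero_mul]
  rw [e, abs_le]
  constructor
  · have h := Real.sum_mul_le_sqrt_mul_sqrt G (fun i => - y i) z
    simp only [neg_mul, Finset.sum_neg_distrib, neg_sq] at h
    linarith
  · exact Real.sum_mul_le_sqrt_mul_sqrt G y z

lemma Bf_net {S : Finset ι} {c : ι → ℝ} {G G' : Finset I} {τ : ℝ}
    (hτ : ∀ w ∈ net G, ∀ w' ∈ net G', |D.Bf S c w w'| ≤ τ)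
    (y z : I → ℝ) (hy : ∀ i, i ∉ G → y i = 0) (hz : ∀ i, i ∉ G' → z i = 0) :
    |D.Bf S c y z| ≤ 4 * τ * √(∑ i ∈ G, y i ^ 2) * √(∑ i ∈ G', z i ^ 2) := by
  have hzs : 0 ≤ √(∑ i ∈ G', z i ^ 2) := Real.sqrt_nonneg _
  have hys : 0 ≤ √(∑ i ∈ G, y i ^ 2) := Real.sqrt_nonneg _
  -- step 1
  have step1 : ∀ w ∈ net G, |D.Bf S c w z| ≤ 2 * τ * √(∑ i ∈ G', z i ^ 2) := by
    intro w hw
    obtain ⟨w', hw', hc⟩ := net_cov G' (D.Yf S c w)
    have h1 : |D.Bf S c w z| ≤ √(∑ i ∈ G', z i ^ 2) * √(∑ i ∈ G', D.Yf S c w i ^ 2) := by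
      rw [D.Bf_comm, D.Bf_eq_dot]
      exact dot_abs_le G' z _ hz
    have h2 : √(∑ i ∈ G', D.Yf S c w i ^ 2) ≤ 2 * τ := by
      refine hc.trans ?_
      have e : ∑ i, w' i * D.Yf S c w i = D.Bf S c w' w := by
        rw [D.Bf_eq_dot]
        rfl
      rw [e, D.Bf_comm]
      have := hτ w hw w' hw'
      have h3 := le_abs_self (D.Bf S c w w')
      linarith
    calc |D.Bf S c w z| ≤ √(∑ i ∈ G', z i ^ 2) * √(∑ i ∈ G', D.Yf S c w i ^ 2) := h1
      _ ≤ √(∑ i ∈ G', z i ^ 2) * (2 * τ) := mul_le_mul_of_nonneg_left h2 hzs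
      _ = 2 * τ * √(∑ i ∈ G', z i ^ 2) := by ring
  -- step 2
  obtain ⟨w, hw, hc⟩ := net_cov G (D.Yf S c z)
  have h1 : |D.Bf S c y z| ≤ √(∑ i ∈ G, y i ^ 2) * √(∑ i ∈ G, D.Yf S c z i ^ 2) := by
    rw [D.Bf_eq_dot]
    exact dot_abs_le G y _ hy
  have h2 : √(∑ i ∈ G, D.Yf S c z i ^ 2) ≤ 4 * τ * √(∑ i ∈ G', z i ^ 2) := by
    refine hc.trans ?_
    have e : ∑ i, w i * D.Yf S c z i = D.Bf S c w z := by
      rw [D.Bf_eq_dot]
      rfl
    rw [e]
    have h3 := step1 w hw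
    have h4 := le_abs_self (D.Bf S c w z)
    linarith
  calc |D.Bf S c y z| ≤ √(∑ i ∈ G, y i ^ 2) * √(∑ i ∈ G, D.Yf S c z i ^ 2) := h1
    _ ≤ √(∑ i ∈ G, y i ^ 2) * (4 * τ * √(∑ i ∈ G', z i ^ 2)) := mul_le_mul_of_nonneg_left h2 hys
    _ = 4 * τ * √(∑ i ∈ G, y i ^ 2) * √(∑ i ∈ G', z i ^ 2) := by ring

/-- restriction of `x` to group `a` -/
def xa (x : I → ℝ) (a : ℕ) : I → ℝ := fun i => if D.gp i = a then x i else 0

lemma xa_supp (x : I → ℝ) (a : ℕ) : ∀ i, i ∉ D.grp a → D.xa x a i = 0 := by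
  intro i hi
  have : D.gp i ≠ a := by
    intro h
    exact hi (by simp [grp, h])
  simp [xa, this]

lemma xa_sq (x : I → ℝ) (a : ℕ) : ∑ i ∈ D.grp a, D.xa x a i ^ 2 = D.gn a x := by
  rw [← D.gn_eq]
  apply Finset.sum_congr rfl
  intro i hi
  have : D.gp i = a := by simpa [grp] using hi
  simp [xa, this]

lemma sum_fiber (j : ℕ) (F : I → ℝ) :
    ∑ a ∈ range (j + 1), ∑ i, (if D.gp i = a then F i else 0)
      = ∑ i, if D.gp i ≤ j then F i else 0 := by
  rw [Finset.sum_comm]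
  apply Finset.sum_congr rfl
  intro i _
  rw [Finset.sum_ite_eq]
  simp only [mem_range, Nat.lt_succ_iff]

lemma ip_eq (j : ℕ) (u : ι) (x : I → ℝ) :
    D.ip j u x = ∑ a ∈ range (j + 1), dot (D.xa x a) (D.v u) := by
  unfold ip dot xa
  simp only [ite_mul, zero_mul]
  rw [D.sum_fiber j (fun i => x i * D.v u i)]
  apply Finset.sum_congr rfl
  intro i _
  simp only [mul_comm]

lemma quad_eq (j : ℕ) (S : Finset ι) (c : ι → ℝ) (x : I → ℝ) :
    ∑ u ∈ S, c u * D.ip j u x ^ 2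
      = ∑ a ∈ range (j + 1), ∑ b ∈ range (j + 1), D.Bf S c (D.xa x a) (D.xa x b) := by
  unfold Bf
  have h1 : ∀ u ∈ S, c u * D.ip j u x ^ 2
      = ∑ a ∈ range (j + 1), ∑ b ∈ range (j + 1),
          c u * (dot (D.xa x a) (D.v u) * dot (D.xa x b) (D.v u)) := by
    intro u _
    rw [D.ip_eq, pow_two, Finset.sum_mul_sum, Finset.mul_sum]
    apply Finset.sum_congr rfl
    intro a _
    rw [Finset.mul_sum]
  rw [Finset.sum_congr rfl h1, Finset.sum_comm]
  apply Finset.sum_congr rfl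
  intro a _
  rw [Finset.sum_comm]

lemma Bf_test_bound {j : ℕ} {e : ℝ} {S : Finset ι} {c : ι → ℝ}
    (h : D.TestOK j e S c) {a b : ℕ} (ha : a ≤ j) (hb : b ≤ j) :
    ∀ w ∈ net (D.grp a), ∀ w' ∈ net (D.grp b), |D.Bf S c w w'| ≤ 16 / r0 * D.R2 j e a b := by
  intro w hw w' hw'
  have ht := h _ (D.mem_tests2 (j := j) (e := e) ha hb hw hw')
  simp only at ht
  have e1 : ∑ u ∈ S, c u * ∑ x, emb2 j w w' x * D.lift j u x = (1 / 4) * D.Bf S c w w' := by
    unfold Bf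
    rw [Finset.mul_sum]
    apply Finset.sum_congr rfl
    intro u _
    rw [D.eval2 j u ha hb (net_supp _ hw).1 (net_supp _ hw').1]
    unfold dot
    ring
  rw [e1, abs_mul, abs_of_pos (by norm_num : (0:ℝ) < 1 / 4)] at ht
  have := mul_le_mul_of_nonneg_left ht (by norm_num : (0:ℝ) ≤ 4)
  calc |D.Bf S c w w'| = 4 * (1 / 4 * |D.Bf S c w w'|) := by ring
    _ ≤ 4 * (4 / r0 * D.R2 j e a b) := this
    _ = 16 / r0 * D.R2 j e a b := by ring

end Data

/-- weights lemma -/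
lemma weights_bound (j : ℕ) (φ : ℕ → ℝ) (hφ : ∀ a, 0 < φ a) (hφ2 : ∀ a, φ (a + 1) ≤ φ a / 2)
    (κ : ℕ → ℝ) (hκ : ∀ a, 0 ≤ κ a) (G : ℕ → ℝ) (hG : ∀ a, 0 ≤ G a) {e : ℝ} (he : 1 ≤ e) :
    (∑ a ∈ range (j + 1), √(κ a + e + ((j - a : ℕ) : ℝ)) * G a) * (∑ a ∈ range (j + 1), G a)
      ≤ 3 * √((∑ a ∈ range (j + 1), κ a * (φ j / φ a)) + e)
          * √(∑ a ∈ range (j + 1), G a ^ 2)
          * √(∑ a ∈ range (j + 1), φ a ^ 2 * G a ^ 2) / φ j := by
  set R := range (j + 1) with hR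
  set ω : ℕ → ℝ := fun a => φ j / φ a with hω
  have hω0 : ∀ a, 0 < ω a := fun a => div_pos (hφ j) (hφ a)
  have hφm : ∀ a m, φ (a + m) ≤ φ a * (1 / 2 : ℝ) ^ m := by
    intro a m
    induction m with
    | zero => simp
    | succ m ih =>
      have h1 := hφ2 (a + m)
      rw [← add_assoc, pow_succ]
      nlinarith
  have hωle : ∀ a ∈ R, ω a ≤ (1 / 2 : ℝ) ^ (j - a) := by
    intro a ha
    have ha' : a ≤ j := by
      have := mem_range.1 ha
      omega
    have h1 := hφm a (j - a)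
    have h2 : a + (j - a) = j := by omega
    rw [h2] at h1
    simp only [hω]
    rw [div_le_iff₀ (hφ a)]
    linarith
  set khat := ∑ a ∈ R, κ a * (φ j / φ a) with hkhat
  have hkhat0 : 0 ≤ khat := Finset.sum_nonneg fun a _ =>
    mul_nonneg (hκ a) (div_pos (hφ j) (hφ a)).le
  set ρ : ℕ → ℝ := fun a => √(κ a + e + ((j - a : ℕ) : ℝ)) with hρ
  have hρ2 : ∀ a, ρ a ^ 2 = κ a + e + ((j - a : ℕ) : ℝ) := by
    intro a
    have := hκ a
    simp only [hρ]
    exact Real.sq_sqrt (by positivity)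
  set S1 := ∑ a ∈ R, ρ a ^ 2 * ω a with hS1
  set S2 := ∑ a ∈ R, ω a with hS2
  set S3 := ∑ a ∈ R, G a ^ 2 / ω a with hS3
  set S4 := ∑ a ∈ R, G a ^ 2 with hS4
  set S5 := ∑ a ∈ R, G a ^ 2 / ω a ^ 2 with hS5
  set P := ∑ a ∈ R, ρ a * G a with hP
  set Q := ∑ a ∈ R, G a with hQ
  have hS1nn : 0 ≤ S1 := Finset.sum_nonneg fun a _ => mul_nonneg (sq_nonneg _) (hω0 a).le
  have hS2nn : 0 ≤ S2 := Finset.sum_nonneg fun a _ => (hω0 a).le
  have hS3nn : 0 ≤ S3 := Finset.sum_nonneg fun a _ => div_nonneg (sq_nonneg _) (hω0 a).le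
  have hS4nn : 0 ≤ S4 := Finset.sum_nonneg fun a _ => sq_nonneg _
  have hS5nn : 0 ≤ S5 := Finset.sum_nonneg fun a _ => div_nonneg (sq_nonneg _) (sq_nonneg _)
  have hPnn : 0 ≤ P := Finset.sum_nonneg fun a _ => mul_nonneg (Real.sqrt_nonneg _) (hG a)
  have hQnn : 0 ≤ Q := Finset.sum_nonneg fun a _ => hG a
  -- Cauchy Schwarz
  have hCS1 : P ^ 2 ≤ S1 * S3 := by
    apply Finset.sum_sq_le_sum_mul_sum_of_sq_le_mul
    · intro a _
      exact mul_nonneg (sq_nonneg _) (hω0 a).le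
    · intro a _
      exact div_nonneg (sq_nonneg _) (hω0 a).le
    · intro a _
      have := (hω0 a).ne'
      apply le_of_eq
      field_simp
  have hCS2 : Q ^ 2 ≤ S2 * S3 := by
    apply Finset.sum_sq_le_sum_mul_sum_of_sq_le_mul
    · intro a _
      exact (hω0 a).le
    · intro a _
      exact div_nonneg (sq_nonneg _) (hω0 a).le
    · intro a _
      have := (hω0 a).ne'
      apply le_of_eq
      field_simp
  have hCS3 : S3 ^ 2 ≤ S4 * S5 := by
    apply Finset.sum_sq_le_sum_mul_sum_of_sq_le_mul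
    · intro a _
      exact sq_nonneg _
    · intro a _
      exact div_nonneg (sq_nonneg _) (sq_nonneg _)
    · intro a _
      have := (hω0 a).ne'
      apply le_of_eq
      field_simp
  have hS2le : S2 ≤ 2 := (Finset.sum_le_sum hωle).trans (half_sum j)
  have hS1le : S1 ≤ 4 * (khat + e) := by
    have e1 : S1 = khat + ∑ a ∈ R, (e + ((j - a : ℕ) : ℝ)) * ω a := by
      rw [hS1, hkhat, ← Finset.sum_add_distrib]
      apply Finset.sum_congr rfl
      intro a _
      rw [hρ2]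
      simp only [hω]
      ring
    have h2 : ∑ a ∈ R, (e + ((j - a : ℕ) : ℝ)) * ω a
        ≤ ∑ a ∈ R, (e * (1 / 2 : ℝ) ^ (j - a) + ((j - a : ℕ) : ℝ) * (1 / 2 : ℝ) ^ (j - a)) := by
      apply Finset.sum_le_sum
      intro a ha
      have h3 := hωle a ha
      have h4 : (0:ℝ) ≤ ((j - a : ℕ) : ℝ) := by positivity
      have h5 : 0 ≤ e + ((j - a : ℕ) : ℝ) := by linarith
      calc (e + ((j - a : ℕ) : ℝ)) * ω a ≤ (e + ((j - a : ℕ) : ℝ)) * (1 / 2 : ℝ) ^ (j - a) :=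
            mul_le_mul_of_nonneg_left h3 h5
        _ = _ := by ring
    rw [Finset.sum_add_distrib, ← Finset.mul_sum] at h2
    have h6 := half_sum j
    have h7 := half_sum' j
    have h8 : e * ∑ a ∈ R, (1 / 2 : ℝ) ^ (j - a) ≤ e * 2 :=
      mul_le_mul_of_nonneg_left h6 (by linarith)
    rw [e1]
    linarith
  have hφj := hφ j
  have hS5eq : S5 = (∑ a ∈ R, φ a ^ 2 * G a ^ 2) / φ j ^ 2 := by
    rw [hS5, Finset.sum_div]
    apply Finset.sum_congr rfl
    intro a _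
    have := hφ a
    simp only [hω]
    field_simp
  set S6 := ∑ a ∈ R, φ a ^ 2 * G a ^ 2 with hS6
  have hS6nn : 0 ≤ S6 := Finset.sum_nonneg fun a _ => by positivity
  have hke : 0 ≤ khat + e := by linarith
  have key : (P * Q) ^ 2 ≤ 8 * (khat + e) * S4 * (S6 / φ j ^ 2) := by
    calc (P * Q) ^ 2 = P ^ 2 * Q ^ 2 := by ring
      _ ≤ (S1 * S3) * (S2 * S3) := mul_le_mul hCS1 hCS2 (sq_nonneg _) (by positivity)
      _ = S1 * S2 * S3 ^ 2 := by ring
      _ ≤ S1 * S2 * (S4 * S5) := mul_le_mul_of_nonneg_left hCS3 (by positivity)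
      _ ≤ (4 * (khat + e) * 2) * (S4 * S5) := by
          apply mul_le_mul_of_nonneg_right _ (by positivity)
          exact mul_le_mul hS1le hS2le hS2nn (by positivity)
      _ = 8 * (khat + e) * S4 * (S6 / φ j ^ 2) := by
          rw [hS5eq]
          ring
  have hRHS : (3 * √(khat + e) * √S4 * √S6 / φ j) ^ 2
      = 9 * (khat + e) * S4 * (S6 / φ j ^ 2) := by
    rw [div_pow, mul_pow, mul_pow, mul_pow, Real.sq_sqrt hke, Real.sq_sqrt hS4nn,
      Real.sq_sqrt hS6nn]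
    ring
  have h9 : 0 ≤ (khat + e) * S4 * (S6 / φ j ^ 2) := by positivity
  apply (pow_le_pow_iff_left₀ (by positivity) (by positivity) (by norm_num : 2 ≠ 0)).1
  rw [hRHS]
  nlinarith

namespace Data

variable {ι I : Type} [Fintype ι] [Fintype I] [DecidableEq ι] [DecidableEq I] (D : Data ι I)

lemma cert3_of_test {j : ℕ} (hj : j ≤ D.top) {e : ℝ} (he : 3 ≤ e) {S : Finset ι} {c : ι → ℝ}
    (h : D.TestOK j e S c) (x : I → ℝ) :
    |∑ u ∈ S, c u * D.ip j u x ^ 2|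
      ≤ C1 * √(D.khat j + e) * √(D.sq j x) * √(D.sqD j x) / D.φ j := by
  have hr := r0_pos
  have hr1 := r0_le_one
  set R := range (j + 1) with hR
  set g : ℕ → ℝ := fun a => √(D.gn a x) with hg
  have hg0 : ∀ a, 0 ≤ g a := fun a => Real.sqrt_nonneg _
  have hg2 : ∀ a, g a ^ 2 = D.gn a x := fun a => Real.sq_sqrt (D.gn_nonnegCE _ _)
  set ρ : ℕ → ℝ := fun a => √(D.kap a + e + ((j - a : ℕ) : ℝ)) with hρ
  have hρ0 : ∀ a, 0 ≤ ρ a := fun a => Real.sqrt_nonneg _
  have hρ2 : ∀ a, ρ a ^ 2 = D.kap a + e + ((j - a : ℕ) : ℝ) := by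
    intro a
    have := D.kap_nonnegCE a
    exact Real.sq_sqrt (by positivity)
  have hR2 : ∀ a b, D.R2 j e a b ≤ 2 * (ρ a + ρ b) := by
    intro a b
    apply Real.sqrt_le_iff.2
    refine ⟨by have := hρ0 a; have := hρ0 b; positivity, ?_⟩
    have h1 := hρ2 a
    have h2 := hρ2 b
    have h3 := hρ0 a
    have h4 := hρ0 b
    have h5 : (0:ℝ) ≤ ((j - a : ℕ) : ℝ) := by positivity
    have h6 : (0:ℝ) ≤ ((j - b : ℕ) : ℝ) := by positivity
    nlinarith [mul_nonneg h3 h4]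
  have key : ∀ a ∈ R, ∀ b ∈ R, |D.Bf S c (D.xa x a) (D.xa x b)|
      ≤ 128 / r0 * ((ρ a + ρ b) * (g a * g b)) := by
    intro a ha b hb
    have ha' : a ≤ j := by
      have := mem_range.1 ha
      omega
    have hb' : b ≤ j := by
      have := mem_range.1 hb
      omega
    have h1 := D.Bf_net (D.Bf_test_bound h ha' hb') (D.xa x a) (D.xa x b)
      (D.xa_supp x a) (D.xa_supp x b)
    rw [D.xa_sq, D.xa_sq] at h1
    refine h1.trans ?_
    have h2 := hR2 a b
    have h3 : 0 ≤ g a * g b := mul_nonneg (hg0 a) (hg0 b)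
    calc 4 * (16 / r0 * D.R2 j e a b) * √(D.gn a x) * √(D.gn b x)
        = 64 / r0 * D.R2 j e a b * (g a * g b) := by
          simp only [hg]
          ring
      _ ≤ 64 / r0 * (2 * (ρ a + ρ b)) * (g a * g b) := by
          apply mul_le_mul_of_nonneg_right _ h3
          exact mul_le_mul_of_nonneg_left h2 (by positivity)
      _ = 128 / r0 * ((ρ a + ρ b) * (g a * g b)) := by ring
  rw [D.quad_eq]
  set P := ∑ a ∈ R, ρ a * g a with hP
  set Q := ∑ a ∈ R, g a with hQ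
  have hsum : |∑ a ∈ R, ∑ b ∈ R, D.Bf S c (D.xa x a) (D.xa x b)| ≤ 256 / r0 * (P * Q) := by
    calc |∑ a ∈ R, ∑ b ∈ R, D.Bf S c (D.xa x a) (D.xa x b)|
        ≤ ∑ a ∈ R, |∑ b ∈ R, D.Bf S c (D.xa x a) (D.xa x b)| := Finset.abs_sum_le_sum_abs _ _
      _ ≤ ∑ a ∈ R, ∑ b ∈ R, |D.Bf S c (D.xa x a) (D.xa x b)| :=
          Finset.sum_le_sum fun a _ => Finset.abs_sum_le_sum_abs _ _
      _ ≤ ∑ a ∈ R, ∑ b ∈ R, 128 / r0 * ((ρ a + ρ b) * (g a * g b)) :=
          Finset.sum_le_sum fun a ha => Finset.sum_le_sum fun b hb => key a ha b hb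
      _ = 256 / r0 * (P * Q) := by
          have e1 : ∑ a ∈ R, ∑ b ∈ R, ((ρ a + ρ b) * (g a * g b)) = 2 * (P * Q) := by
            have e2 : ∀ a ∈ R, ∑ b ∈ R, ((ρ a + ρ b) * (g a * g b))
                = ρ a * g a * Q + g a * P := by
              intro a _
              rw [hP, hQ, Finset.mul_sum, Finset.mul_sum, ← Finset.sum_add_distrib]
              apply Finset.sum_congr rfl
              intro b _
              ring
            rw [Finset.sum_congr rfl e2, Finset.sum_add_distrib, ← Finset.sum_mul, ← Finset.sum_mul]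
            rw [← hP, ← hQ]
            ring
          simp_rw [← Finset.mul_sum]
          rw [e1]
          ring
  refine hsum.trans ?_
  -- the weights
  have hw := weights_bound j D.φ D.hφ D.hφ2 D.kap D.kap_nonnegCE g hg0 (e := e) (by linarith)
  have hkh : (∑ a ∈ range (j + 1), D.kap a * (D.φ j / D.φ a)) = D.khat j := rfl
  rw [hkh] at hw
  have hS4 : ∑ a ∈ range (j + 1), g a ^ 2 = D.sq j x := by
    simp_rw [hg2]
    unfold gn sq
    exact D.sum_fiber j (fun i => x i ^ 2)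
  rw [hS4] at hw
  have hS6 : ∑ a ∈ range (j + 1), D.φ a ^ 2 * g a ^ 2 ≤ D.sqD j x := by
    have e1 : ∑ a ∈ range (j + 1), D.φ a ^ 2 * g a ^ 2
        = ∑ i, if D.gp i ≤ j then D.φ (D.gp i) ^ 2 * x i ^ 2 else 0 := by
      rw [← D.sum_fiber j (fun i => D.φ (D.gp i) ^ 2 * x i ^ 2)]
      apply Finset.sum_congr rfl
      intro a _
      rw [hg2]
      unfold gn
      rw [Finset.mul_sum]
      apply Finset.sum_congr rfl
      intro i _
      split_ifs with hi
      · rw [hi]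
      · rw [mul_zero]
    rw [e1]
    unfold sqD
    apply Finset.sum_le_sum
    intro i _
    split_ifs with hi
    · have h1 := D.hf i (hi.trans hj)
      have h2 := D.hφ (D.gp i)
      have h3 : D.φ (D.gp i) ^ 2 ≤ D.f i ^ 2 := pow_le_pow_left₀ h2.le h1 2
      rw [mul_pow]
      exact mul_le_mul_of_nonneg_right h3 (sq_nonneg _)
    · exact le_rfl
  have hsq6 := Real.sqrt_le_sqrt hS6
  have hφj := D.hφ j
  have hC : 256 / r0 * 3 ≤ C1 := by
    unfold C1
    rw [div_mul_eq_mul_div, div_le_div_iff₀ hr (by positivity)]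
    nlinarith [sq_nonneg r0, hr, hr1]
  have hA0 : 0 ≤ √(D.khat j + e) * √(D.sq j x) := by positivity
  calc 256 / r0 * (P * Q)
      ≤ 256 / r0 * (3 * √(D.khat j + e) * √(D.sq j x)
          * √(∑ a ∈ range (j + 1), D.φ a ^ 2 * g a ^ 2) / D.φ j) :=
        mul_le_mul_of_nonneg_left hw (by positivity)
    _ ≤ 256 / r0 * (3 * √(D.khat j + e) * √(D.sq j x) * √(D.sqD j x) / D.φ j) := by
        apply mul_le_mul_of_nonneg_left _ (by positivity)
        apply div_le_div_of_nonneg_right _ hφj.le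
        apply mul_le_mul_of_nonneg_left hsq6 (by positivity)
    _ = (256 / r0 * 3) * (√(D.khat j + e) * √(D.sq j x) * √(D.sqD j x) / D.φ j) := by ring
    _ ≤ C1 * (√(D.khat j + e) * √(D.sq j x) * √(D.sqD j x) / D.φ j) :=
        mul_le_mul_of_nonneg_right hC (by positivity)
    _ = C1 * √(D.khat j + e) * √(D.sq j x) * √(D.sqD j x) / D.φ j := by ring

lemma cert_of_test {j : ℕ} (hj : j ≤ D.top) {e : ℝ} (he : 3 ≤ e) {S : Finset ι} {c : ι → ℝ}
    (h : D.TestOK j e S c) : D.Cert j e S c :=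
  { toCert12 := D.cert12_of_test he h
    c3 := D.cert3_of_test hj he h
    c4 := D.cert4_of_test he h }

lemma tests_ge_one (j : ℕ) {e : ℝ} (he : 0 ≤ e) : ∀ t ∈ D.tests j e, 1 ≤ t.2 := by
  classical
  intro t ht
  unfold tests at ht
  rcases mem_union.1 ht with ht | ht
  · rcases mem_union.1 ht with ht | ht
    · obtain ⟨a, _, ht⟩ := mem_biUnion.1 ht
      obtain ⟨w, hw, ht⟩ := mem_biUnion.1 ht
      rw [mem_singleton] at ht
      subst ht
      refine (Real.le_sqrt' (by norm_num)).2 ?_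
      have := D.kap_nonnegCE a
      have h1 : (0:ℝ) ≤ ((j - a : ℕ) : ℝ) := by positivity
      have h2 : (0:ℝ) ≤ ((a - j : ℕ) : ℝ) := by positivity
      linarith
    · obtain ⟨q, _, ht⟩ := mem_biUnion.1 ht
      obtain ⟨w, hw, ht⟩ := mem_biUnion.1 ht
      obtain ⟨w', hw', ht⟩ := mem_biUnion.1 ht
      rw [mem_singleton] at ht
      subst ht
      refine (Real.le_sqrt' (by norm_num)).2 ?_
      have := D.kap_nonnegCE q.1
      have := D.kap_nonnegCE q.2
      have h1 : (0:ℝ) ≤ ((j - q.1 : ℕ) : ℝ) := by positivity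
      have h2 : (0:ℝ) ≤ ((j - q.2 : ℕ) : ℝ) := by positivity
      linarith
  · obtain ⟨k, _, ht⟩ := mem_biUnion.1 ht
    rw [mem_singleton] at ht
    subst ht
    refine (Real.le_sqrt' (by norm_num)).2 ?_
    have h1 : (0:ℝ) ≤ ((j - (k : ℕ) : ℕ) : ℝ) := by positivity
    linarith

lemma exp_neg_seven : 18 * exp (-7) ≤ 1 / 8 := by
  have h := Real.exp_one_gt_d9
  have e1 : exp 7 = exp 1 ^ 7 := by
    rw [← Real.exp_nat_mul]
    norm_num
  have h2 : (2.7 : ℝ) ^ 7 ≤ exp 1 ^ 7 := pow_le_pow_left₀ (by norm_num) (by linarith) 7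
  have h3 : (144 : ℝ) ≤ exp 7 := by
    rw [e1]
    refine le_trans ?_ h2
    norm_num
  rw [Real.exp_neg]
  have h4 : (exp 7)⁻¹ ≤ (144 : ℝ)⁻¹ := inv_anti₀ (by norm_num) h3
  linarith [show (18:ℝ) * (144:ℝ)⁻¹ = 1 / 8 by norm_num]

lemma eP_geCE (n : ℕ) : 3 ≤ eP n := by
  unfold eP
  have : 0 ≤ log ((n:ℝ) + 1) := Real.log_nonneg (by have : (0:ℝ) ≤ n := by positivity
                                                    linarith)
  linarith

lemma budget_eP (j n : ℕ) :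
    ((n:ℝ) + 1) * ∑ t ∈ D.tests j (eP n), 2 * exp (-(t.2 ^ 2 / 2)) ≤ 1 / 8 := by
  have he := eP_geCE n
  have h1 := D.tests_budget j (e := eP n) (by linarith)
  have hn : (0:ℝ) < (n:ℝ) + 1 := by positivity
  have h2 : ((n:ℝ) + 1) * (18 * exp (-(eP n + 3))) = 18 * exp (-7) := by
    unfold eP
    have e1 : -(4 + log ((n:ℝ) + 1) + 3) = -7 + -log ((n:ℝ) + 1) := by ring
    rw [e1, Real.exp_add, Real.exp_neg (log _), Real.exp_log hn]
    field_simp
  calc ((n:ℝ) + 1) * ∑ t ∈ D.tests j (eP n), 2 * exp (-(t.2 ^ 2 / 2))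
      ≤ ((n:ℝ) + 1) * (18 * exp (-(eP n + 3))) := mul_le_mul_of_nonneg_left h1 hn.le
    _ = 18 * exp (-7) := h2
    _ ≤ 1 / 8 := exp_neg_seven

lemma budget_eR (j : ℕ) : ∑ t ∈ D.tests j eR, 2 * exp (-(t.2 ^ 2 / 2)) ≤ 1 / 8 := by
  have h1 := D.tests_budget j (e := eR) (by unfold eR; norm_num)
  have e1 : -(eR + 3) = -7 := by
    unfold eR
    norm_num
  rw [e1] at h1
  exact h1.trans exp_neg_seven

/-- lifts padded with zero vectors -/
noncomputable def padL (j : ℕ) (S : Finset ι) (m : ℕ) : (↥S ⊕ Fin m) → LiftI I j → ℝ :=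
  Sum.elim (fun u => D.lift j u) (fun _ _ => 0)

lemma padL_norm {j : ℕ} {S : Finset ι} (hS : ∀ u ∈ S, D.Qf j u ≤ 1) (m : ℕ) :
    ∀ a, ∑ x, D.padL j S m a x ^ 2 ≤ 1 := by
  rintro (u | i)
  · exact D.lift_norm j u (hS u u.2)
  · simp [padL]

lemma padL_sum (j : ℕ) (S : Finset ι) (m : ℕ) (t : LiftI I j → ℝ) (b : (↥S ⊕ Fin m) → ℝ) :
    ∑ a, b a * ∑ x, t x * D.padL j S m a x
      = ∑ u : ↥S, b (Sum.inl u) * ∑ x, t x * D.lift j u x := by
  rw [Fintype.sum_sum_type]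
  simp [padL]

end Data

variable {ι I : Type} [Fintype ι] [Fintype I] [DecidableEq ι] [DecidableEq I] (D : Data ι I)

theorem exists_units {j : ℕ} (hj : j ≤ D.top) (S : Finset ι) (hS : ∀ u ∈ S, D.Qf j u ≤ 1)
    {n : ℕ} (hn : 0 < n) (hn2 : Even n) :
    ∃ unit : ι → ℕ, (∀ u, unit u < n) ∧ ∀ w, w ≤ n →
      D.Cert j (eP n) S fun u => (if unit u < w then (1:ℝ) else 0) - (w:ℝ) / n := by
  classical
  set W := S.card + 1 with hW
  have hW0 : 0 < W := by omega
  have hle : S.card ≤ n * W := by nlinarith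
  set m := n * W - S.card with hm
  have hN : Fintype.card (↥S ⊕ Fin m) = n * W := by
    rw [Fintype.card_sum, Fintype.card_coe, Fintype.card_fin]
    omega
  obtain ⟨pos, _, hpos, hgrid⟩ := grid_tests (D.padL j S m) (D.padL_norm hS m) n W hn hW0 hN
    (hn2.mul_right W) (D.tests j (eP n)) (D.tests_hT j (eP n)) (D.budget_eP j n)
  refine ⟨fun u => if h : u ∈ S then pos (Sum.inl ⟨u, h⟩) / W else 0, ?_, ?_⟩
  · intro u
    by_cases h : u ∈ S
    · simp only [h, dif_pos]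
      apply Nat.div_lt_of_lt_mul
      have := hpos (Sum.inl ⟨u, h⟩)
      rwa [mul_comm] at this
    · simp only [h, dif_neg, not_false_eq_true]
      exact hn
  · intro w hw
    apply D.cert_of_test hj (Data.eP_geCE n)
    intro t ht
    have hg := hgrid w hw t ht
    rw [D.padL_sum j S m t.1] at hg
    have hr := r0_pos
    have ht0 := (D.tests_hT j (eP n) t ht).2
    have e1 : ∑ u ∈ S, ((if (if h : u ∈ S then pos (Sum.inl ⟨u, h⟩) / W else 0) < w
          then (1:ℝ) else 0) - (w:ℝ) / n) * ∑ x, t.1 x * D.lift j u x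
        = ∑ u : ↥S, ((if pos (Sum.inl u) < w * W then (1:ℝ) else 0) - (w:ℝ) / n)
            * ∑ x, t.1 x * D.lift j u x := by
      rw [← Finset.sum_coe_sort S]
      apply Finset.sum_congr rfl
      rintro ⟨u, hu⟩ _
      simp only [hu, dif_pos]
      congr 3
      simp only [Nat.div_lt_iff_lt_mul hW0]
    rw [e1]
    refine hg.trans ?_
    have : 2 * t.2 / r0 ≤ 4 / r0 * t.2 := by
      rw [div_mul_eq_mul_div]
      apply div_le_div_of_nonneg_right _ hr.le
      linarith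
    exact this

theorem exists_round {j : ℕ} (hj : j ≤ D.top) (S : Finset ι) (hS : ∀ u ∈ S, D.Qf j u ≤ 1)
    (x : ι → ℝ) (hx : ∀ u ∈ S, 0 ≤ x u ∧ x u ≤ 1) :
    ∃ χ : ι → ℝ, (∀ u, χ u = 0 ∨ χ u = 1) ∧ D.Cert j eR S fun u => χ u - x u := by
  classical
  obtain ⟨χ', hχ', hr'⟩ := round_tests (α := ↥S) (fun u => D.lift j u)
    (fun u => D.lift_norm j u (hS u u.2)) (D.tests j eR) (D.tests_hT j eR) (D.budget_eR j)
    (fun u => x u) (fun u => hx u u.2)
  refine ⟨fun u => if h : u ∈ S then χ' ⟨u, h⟩ else 0, ?_, ?_⟩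
  · intro u
    by_cases h : u ∈ S
    · simp only [h, dif_pos]
      exact hχ' _
    · simp [h]
  · have he : 3 ≤ eR := by
      unfold eR
      norm_num
    apply D.cert_of_test hj he
    intro t ht
    have hg := hr' t ht
    have hr := r0_pos
    have ht1 := D.tests_ge_one j (e := eR) (by linarith) t ht
    have e1 : ∑ u ∈ S, ((if h : u ∈ S then χ' ⟨u, h⟩ else 0) - x u) * ∑ y, t.1 y * D.lift j u y
        = ∑ u : ↥S, (χ' u - x u) * ∑ y, t.1 y * D.lift j u y := by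
      rw [← Finset.sum_coe_sort S]
      apply Finset.sum_congr rfl
      rintro ⟨u, hu⟩ _
      simp only [hu, dif_pos]
    rw [e1]
    refine hg.trans ?_
    rw [div_mul_eq_mul_div]
    apply div_le_div_of_nonneg_right _ hr.le
    linarith

theorem exists_order (j : ℕ) (S : Finset ι) (hS : ∀ u ∈ S, D.Qf j u ≤ 1) :
    ∃ p : ι → ℕ, (∀ u ∈ S, p u < 2 * S.card + 2) ∧ Set.InjOn p S ∧
      ∀ k, k ≤ 2 * S.card + 2 →
        D.Cert12 j (eP (2 * S.card + 2)) S
          fun u => (if p u < k then (1:ℝ) else 0) - (k:ℝ) / ((2 * S.card + 2 : ℕ) : ℝ) := by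
  classical
  set n := 2 * S.card + 2 with hn
  set m := S.card + 2 with hm
  have hN : Fintype.card (↥S ⊕ Fin m) = n * 1 := by
    rw [Fintype.card_sum, Fintype.card_coe, Fintype.card_fin]
    omega
  have hev : Even (n * 1) := by
    rw [mul_one]
    exact ⟨S.card + 1, by omega⟩
  obtain ⟨pos, hinj, hpos, hgrid⟩ := grid_tests (D.padL j S m) (D.padL_norm hS m) n 1
    (by omega) one_pos hN hev (D.tests j (eP n)) (D.tests_hT j (eP n)) (D.budget_eP j n)
  refine ⟨fun u => if h : u ∈ S then pos (Sum.inl ⟨u, h⟩) else 0, ?_, ?_, ?_⟩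
  · intro u hu
    simp only [hu, dif_pos]
    simpa using hpos (Sum.inl ⟨u, hu⟩)
  · intro u hu v hv huv
    have hu' : u ∈ S := hu
    have hv' : v ∈ S := hv
    simp only [hu', hv', dif_pos] at huv
    have := hinj huv
    simpa using this
  · intro k hk
    apply D.cert12_of_test (Data.eP_geCE n)
    intro t ht
    have hg := hgrid k hk t ht
    rw [D.padL_sum j S m t.1] at hg
    have hr := r0_pos
    have ht0 := (D.tests_hT j (eP n) t ht).2
    have e1 : ∑ u ∈ S, ((if (if h : u ∈ S then pos (Sum.inl ⟨u, h⟩) else 0) < k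
          then (1:ℝ) else 0) - (k:ℝ) / (n:ℝ)) * ∑ x, t.1 x * D.lift j u x
        = ∑ u : ↥S, ((if pos (Sum.inl u) < k * 1 then (1:ℝ) else 0) - (k:ℝ) / n)
            * ∑ x, t.1 x * D.lift j u x := by
      rw [← Finset.sum_coe_sort S]
      apply Finset.sum_congr rfl
      rintro ⟨u, hu⟩ _
      simp only [hu, dif_pos, mul_one]
    rw [e1]
    refine hg.trans ?_
    have : 2 * t.2 / r0 ≤ 4 / r0 * t.2 := by
      rw [div_mul_eq_mul_div]
      apply div_le_div_of_nonneg_right _ hr.le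
      linarith
    exact this

end Vale.Agent.Lib.P262S
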