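import Vale.Agent.Lib.P262S.Assembly

open Finset Real

namespace Vale.Agent.Lib.P262S

section Concat

variable {I : Type} [Fintype I]

private lemma nrm_add_le (x y : I → ℝ) :
    √(∑ i, (x i + y i) ^ 2) ≤ √(∑ i, x i ^ 2) + √(∑ i, y i ^ 2) := by
  have h := norm_add_le (WithLp.toLp 2 x : EuclideanSpace ℝ I) (WithLp.toLp 2 y)
  rw [← WithLp.toLp_add] at h
  rw [norm_toLp_eq, norm_toLp_eq, norm_toLp_eq] at h
  simpa using h

private lemma nrm_sub_le (x y : I → ℝ) :
    √(∑ i, (x i - y i) ^ 2) ≤ √(∑ i, x i ^ 2) + √(∑ i, y i ^ 2) := by
  have h := nrm_add_le x (fun i => - y i)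
  simpa [sub_eq_add_neg] using h

end Concat

/-- `key u < M` is the leaf of `u`; prefix sums at leaf boundaries are `≤ Z`, leaf traces `≤ τ`. -/
theorem concat_order {ι I : Type} [Fintype ι] [DecidableEq ι] [Fintype I] (v : ι → I → ℝ) (key : ι → ℕ)
    {M : ℕ} (hkey : ∀ u, key u < M) {Z τ : ℝ}
    (hZ : ∀ i, i ≤ M → √(∑ x, (∑ u ∈ Finset.univ.filter (fun u => key u < i), v u x) ^ 2) ≤ Z)
    (hτ : ∀ i, i < M → ∑ u ∈ Finset.univ.filter (fun u => key u = i), ∑ x, v u x ^ 2 ≤ τ) :
    ∃ l : List ι, l.Perm (Finset.univ.toList) ∧
      ∀ k, √(∑ x, (((l.take k).map v).sum x) ^ 2) ≤ 5 * Z + √τ := by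
  have hZ0 : 0 ≤ Z := (Real.sqrt_nonneg _).trans (hZ 0 (Nat.zero_le _))
  have hsq : 0 ≤ √τ := Real.sqrt_nonneg _
  -- sum over a list of a family of functions, evaluated at a point
  have hsumx : ∀ (X : List ι) (x : I), (X.map v).sum x = (X.map fun u => v u x).sum := by
    intro X x
    induction X with
    | nil => simp
    | cons a t ih => simp [ih]
  have hfilt : ∀ (A : Finset ι) (x : I), (A.toList.map v).sum x = ∑ u ∈ A, v u x := by
    intro A x
    rw [hsumx]
    exact Finset.sum_map_toList A (fun u => v u x)
  have main : ∀ N, N ≤ M → ∃ l : List ι,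
      l.Perm (Finset.univ.filter (fun u => key u < N)).toList ∧
      ∀ k, √(∑ x, (((l.take k).map v).sum x) ^ 2) ≤ 5 * Z + √τ := by
    intro N
    induction N with
    | zero =>
      intro _
      refine ⟨[], ?_, ?_⟩
      · simp
      · intro k
        simp only [List.take_nil, List.map_nil, List.sum_nil, Pi.zero_apply]
        simp
        positivity
    | succ N ih =>
      intro hN
      obtain ⟨l, hl, hlk⟩ := ih (by omega)
      set A := Finset.univ.filter (fun u => key u < N) with hA
      set B := Finset.univ.filter (fun u => key u = N) with hB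
      set C := Finset.univ.filter (fun u => key u < N + 1) with hC
      have hsplit : ∀ x, ∑ u ∈ C, v u x = ∑ u ∈ A, v u x + ∑ u ∈ B, v u x := by
        intro x
        have hdisj : Disjoint A B := by
          rw [Finset.disjoint_left]
          intro a ha hb
          simp only [hA, hB, Finset.mem_filter, Finset.mem_univ, true_and] at ha hb
          omega
        have hU : C = A ∪ B := by
          ext a
          simp only [hA, hB, hC, Finset.mem_union, Finset.mem_filter, Finset.mem_univ, true_and]
          omega
        rw [hU, Finset.sum_union hdisj]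
      have hBnorm : √(∑ x, ((B.toList.map v).sum x) ^ 2) ≤ 2 * Z := by
        have h1 : ∀ x, (B.toList.map v).sum x = ∑ u ∈ C, v u x - ∑ u ∈ A, v u x := by
          intro x
          rw [hfilt, hsplit]
          ring
        simp only [h1]
        have h2 := nrm_sub_le (fun x => ∑ u ∈ C, v u x) (fun x => ∑ u ∈ A, v u x)
        have h3 := hZ (N + 1) hN
        have h4 := hZ N (by omega)
        linarith
      have hBtr : (B.toList.map fun a => ∑ i, v a i ^ 2).sum ≤ τ := by
        have := Finset.sum_map_toList B (fun a => ∑ i, v a i ^ 2)
        rw [this]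
        exact hτ N (by omega)
      obtain ⟨l', hl', hl'k⟩ := leaf_order B.toList v hBtr hBnorm
      refine ⟨l ++ l', ?_, ?_⟩
      · have hp : (l ++ l').Perm (A.toList ++ B.toList) := hl.append hl'
        refine hp.trans ?_
        have hnd : (A.toList ++ B.toList).Nodup := by
          rw [List.nodup_append]
          refine ⟨A.nodup_toList, B.nodup_toList, ?_⟩
          intro a ha b hb hab
          subst hab
          simp only [Finset.mem_toList, hA, hB, Finset.mem_filter, Finset.mem_univ, true_and] at ha hb
          omega
        apply (List.perm_ext_iff_of_nodup hnd C.nodup_toList).2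
        intro a
        simp only [List.mem_append, Finset.mem_toList, hA, hB, hC, Finset.mem_filter, Finset.mem_univ,
          true_and]
        omega
      · intro k
        rw [List.take_append]
        rcases le_or_gt k l.length with hk | hk
        · have : k - l.length = 0 := by omega
          rw [this]
          simpa using hlk k
        · have h1 : l.take k = l := List.take_of_length_le hk.le
          rw [h1, List.map_append, List.sum_append]
          have h2 : ∀ x, (l.map v).sum x = ∑ u ∈ A, v u x := by
            intro x
            rw [(hl.map v).sum_eq, hfilt]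
          have h3 := nrm_add_le (fun x => (l.map v).sum x)
            (fun x => ((l'.take (k - l.length)).map v).sum x)
          simp only [Pi.add_apply]
          have h4 : √(∑ x, ((l.map v).sum x) ^ 2) ≤ Z := by
            simp only [h2]
            exact hZ N (by omega)
          have h5 := hl'k (k - l.length)
          linarith
  obtain ⟨l, hl, hk⟩ := main M le_rfl
  refine ⟨l, hl.trans ?_, hk⟩
  have : (Finset.univ.filter (fun u => key u < M)) = Finset.univ := by
    ext a
    simp [hkey a]
  rw [this]

end Vale.Agent.Lib.P262S
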