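import Mathlib
import Vale.Agent.Lib.P262B.Signs

open Finset Real

namespace Vale.Agent.Lib.P262S

open Vale.Agent.Lib.P262B

/-- the universal constant of the certificates -/
noncomputable def C1 : ℝ := 2 ^ 20 / r0 ^ 2

lemma C1_ge : (1:ℝ) ≤ C1 := by
  have hr := r0_pos
  have h1 := r0_le_one
  unfold C1
  rw [le_div_iff₀ (by positivity)]
  nlinarith [sq_nonneg r0, mul_self_nonneg (1 - r0)]

/-- union bound budget for `n` marks -/
noncomputable def eP (n : ℕ) : ℝ := 4 + log ((n:ℝ) + 1)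

/-- budget of a single rounding -/
noncomputable def eR : ℝ := 4

/-- spectral data needed for the certificates: vectors `v u`, group `gp i` of a coordinate,
eigenvalue square roots `f i`, floors `φ a`. -/
structure Data (ι I : Type) [Fintype ι] [Fintype I] where
  v : ι → I → ℝ
  gp : I → ℕ
  f : I → ℝ
  φ : ℕ → ℝ
  top : ℕ
  hv : ∀ u, ∑ i, v u i ^ 2 ≤ 1
  hφ : ∀ a, 0 < φ a
  hφ2 : ∀ a, φ (a + 1) ≤ φ a / 2
  hf : ∀ i, gp i ≤ top → φ (gp i) ≤ f i

namespace Data

variable {ι I : Type} [Fintype ι] [Fintype I] (D : Data ι I)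

/-- size of group `a` -/
noncomputable def kap (a : ℕ) : ℝ := by
  classical exact ((univ.filter fun i => D.gp i = a).card : ℝ)

/-- squared norm on group `a` -/
noncomputable def gn (a : ℕ) (y : I → ℝ) : ℝ := ∑ i, if D.gp i = a then y i ^ 2 else 0

/-- the weight `Q_j` of an item -/
noncomputable def Qf (j : ℕ) (u : ι) : ℝ :=
  ∑ i, if j < D.gp i then (4:ℝ) ^ (D.gp i - j) * D.v u i ^ 2 else 0

/-- truncated weight -/
noncomputable def chi (j : ℕ) (u : ι) : ℝ := min 1 (D.Qf j u)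

/-- effective dimension above stage `j` -/
noncomputable def khat (j : ℕ) : ℝ := ∑ a ∈ range (j + 1), D.kap a * (D.φ j / D.φ a)

/-- inner product on the coordinates of groups `≤ j` -/
noncomputable def ip (j : ℕ) (u : ι) (x : I → ℝ) : ℝ :=
  ∑ i, if D.gp i ≤ j then D.v u i * x i else 0

/-- squared norm on the coordinates of groups `≤ j` -/
noncomputable def sq (j : ℕ) (x : I → ℝ) : ℝ := ∑ i, if D.gp i ≤ j then x i ^ 2 else 0

/-- `f`-weighted squared norm on the coordinates of groups `≤ j` -/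
noncomputable def sqD (j : ℕ) (x : I → ℝ) : ℝ :=
  ∑ i, if D.gp i ≤ j then (D.f i * x i) ^ 2 else 0

/-- the combination `∑_{u ∈ S} c u • v u` -/
noncomputable def comb (S : Finset ι) (c : ι → ℝ) : I → ℝ := fun i => ∑ u ∈ S, c u * D.v u i

/-- first half of a certificate -/
structure Cert12 (j : ℕ) (e : ℝ) (S : Finset ι) (c : ι → ℝ) : Prop where
  c1 : ∀ a, a ≤ j → D.gn a (D.comb S c) ≤ C1 * (D.kap a + e + ((j - a : ℕ) : ℝ))
  c2 : ∀ h, j < h → D.gn h (D.comb S c)
    ≤ C1 * ((1 / 4 : ℝ) ^ (h - j) * (D.kap h + e + ((h - j : ℕ) : ℝ)))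

/-- full certificate -/
structure Cert (j : ℕ) (e : ℝ) (S : Finset ι) (c : ι → ℝ) : Prop extends
    D.Cert12 j e S c where
  c3 : ∀ x : I → ℝ, |∑ u ∈ S, c u * D.ip j u x ^ 2|
    ≤ C1 * √(D.khat j + e) * √(D.sq j x) * √(D.sqD j x) / D.φ j
  c4 : ∀ j', j' ≤ j → |∑ u ∈ S, c u * D.chi j' u|
    ≤ C1 * √((2:ℝ) ^ (j - j')) * √(e + ((j - j' : ℕ) : ℝ))

end Data

end Vale.Agent.Lib.P262S
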