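import Vale.Agent.Lib.P262S.Defs

open Finset Real

namespace Vale.Agent.Lib.P262S

namespace Data
variable {ι I : Type} [Fintype ι] [Fintype I] (D : Data ι I)

/-- the capacity at stage `j` for share exponents `m` -/
noncomputable def Gam (m : ℕ → ℕ) (j : ℕ) : ℝ := (1 / 2 : ℝ) ^ (m j) * D.φ j ^ 2

/-- increments of the unsteered groups -/
noncomputable def incU (m : ℕ → ℕ) (h j : ℕ) : ℝ :=
  (1 / 2 : ℝ) ^ (h - j) * (4 * √(C1 * (D.kap h + 4 + ((h - j : ℕ) : ℝ))) + 4 * D.Gam m j)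

/-- final bound of group `h` -/
noncomputable def finB (m : ℕ → ℕ) (h : ℕ) : ℝ :=
  √(C1 * (D.kap h + 4)) + (if h ≤ D.top then D.Gam m h else 0)
    + ∑ j ∈ range h, D.incU m h j

/-- hypotheses on the schedule -/
structure SchOK (m al : ℕ → ℕ) (A0 : ℝ) : Prop where
  gp1 : ∀ i, 1 ≤ D.gp i ∧ D.gp i ≤ D.top + 1
  φc : ∀ a, D.φ (a + 1) ≤ D.φ a / 2 ^ 15
  Qsum : ∀ j, j ≤ D.top → ∑ u, D.Qf j u ≤ D.φ j ^ 2 / 2 ^ 26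
  m0 : m (D.top + 1) = 0
  mono : ∀ j, j ≤ D.top → m (j + 1) ≤ m j
  cap : ∀ j, j ≤ D.top → A0 * √(D.khat j + ((m j - m (j + 1) : ℕ) : ℝ) + 1) ≤ D.Gam m j
  Gam5 : ∀ j, j < D.top → D.Gam m (j + 1) ≤ 5 * D.Gam m j
  al1 : ∀ j, j ≤ D.top → D.φ j ^ 2 / 2 ^ 23 ≤ (2:ℝ) ^ (al j)
  al2 : ∀ j, j ≤ D.top → (2:ℝ) ^ (al j) ≤ D.φ j ^ 2 / 2 ^ 22

end Data

end Vale.Agent.Lib.P262S
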