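import Vale.Agent.Lib.P262S.SchDefs

open Finset Real

namespace Vale.Agent.Lib.P262S

namespace Sch

/-- the scale ratio `2^-15` -/
noncomputable def cc : ℝ := 1 / 2 ^ 15

/-- `cc^2 = 2^-30` -/
noncomputable def kk : ℝ := 1 / 2 ^ 30

lemma cc_pos : 0 < cc := by unfold cc; norm_num
lemma cc_lt_one : cc < 1 := by unfold cc; norm_num
lemma kk_pos : 0 < kk := by unfold kk; norm_num
lemma kk_eq : kk = cc ^ 2 := by unfold kk cc; norm_num

section Energy

variable {I : Type} [Fintype I] (f : I → ℝ)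

/-- energy of the coordinates below `s` -/
noncomputable def G (s : ℝ) : ℝ := ∑ i, if f i < s then f i ^ 2 else 0

/-- number of the coordinates below `s` -/
noncomputable def Cnt (s : ℝ) : ℝ := ∑ i, if f i < s then (1:ℝ) else 0

lemma G_nonneg (s : ℝ) : 0 ≤ G f s :=
  Finset.sum_nonneg fun i _ => by split_ifs <;> positivity

lemma G_step (hf : ∀ i, 0 < f i) {s t : ℝ} (ht : 0 < t) (hts : t ≤ s) :
    G f s ≤ G f t + (Cnt f s - Cnt f t) * s ^ 2 := by
  unfold G Cnt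
  rw [← Finset.sum_sub_distrib, Finset.sum_mul, ← Finset.sum_add_distrib]
  refine Finset.sum_le_sum fun i _ => ?_
  by_cases h1 : f i < t
  · have h2 : f i < s := lt_of_lt_of_le h1 hts
    simp [h1, h2]
  · by_cases h2 : f i < s
    · simp only [h1, h2, if_true, if_false, sub_zero, one_mul, zero_add]
      have := hf i
      nlinarith
    · simp [h1, h2]

lemma Cnt_mono {s t : ℝ} (hts : t ≤ s) : Cnt f t ≤ Cnt f s := by
  unfold Cnt
  refine Finset.sum_le_sum fun i _ => ?_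
  by_cases h1 : f i < t
  · have h2 : f i < s := lt_of_lt_of_le h1 hts
    simp [h1, h2]
  · by_cases h2 : f i < s <;> simp [h1, h2]

/-- the normalised energy along a geometric sequence of scales -/
lemma T_step (hf : ∀ i, 0 < f i) {s : ℝ} (hs : 0 < s) :
    G f s / s ^ 2 ≤ kk * (G f (cc * s) / (cc * s) ^ 2) + (Cnt f s - Cnt f (cc * s)) := by
  have hc := cc_pos
  have hc1 := cc_lt_one
  have h1 : cc * s ≤ s := by nlinarith
  have h := G_step f hf (mul_pos hc hs) h1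
  have hs2 : 0 < s ^ 2 := by positivity
  have e1 : kk * (G f (cc * s) / (cc * s) ^ 2) = G f (cc * s) / s ^ 2 := by
    rw [kk_eq]; field_simp
  rw [e1, div_le_iff₀ hs2, add_mul, div_mul_cancel₀ _ hs2.ne']
  exact h

/-- **Run bound**: along a run of `k` bad scales ended by a good scale. -/
lemma run_bound (hf : ∀ i, 0 < f i) (s : ℕ → ℝ) (hs : ∀ n, 0 < s n)
    (hss : ∀ n, s (n + 1) = cc * s n) (b : ℕ) (hb : G f (s b) / s b ^ 2 ≤ kk) :
    ∀ (k a : ℕ), a + k = b → (∀ n, a ≤ n → n < b → kk < G f (s n) / s n ^ 2) →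
      (k:ℝ) * kk * (1 - kk) + kk * (G f (s a) / s a ^ 2) ≤ kk ^ 2 + (Cnt f (s a) - Cnt f (s b)) := by
  intro k
  induction k with
  | zero =>
    intro a hab _
    have : a = b := by omega
    subst this
    have := kk_pos
    simp only [Nat.cast_zero, zero_mul, zero_add, sub_self, add_zero]
    nlinarith
  | succ k ih =>
    intro a hab hbad
    have h1 := ih (a + 1) (by omega) (fun n h1 h2 => hbad n (by omega) h2)
    have h2 := T_step f hf (hs a)
    rw [← hss a] at h2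
    have h3 := hbad a le_rfl (by omega)
    have hk := kk_pos
    have hk1 : kk < 1 := by unfold kk; norm_num
    push_cast
    set Ta := G f (s a) / s a ^ 2
    set Tb := G f (s (a + 1)) / s (a + 1) ^ 2
    nlinarith [mul_pos hk (sub_pos.mpr hk1), mul_pos (sub_pos.mpr hk1) (sub_pos.mpr h3)]

end Energy


section Scales

variable {I : Type} [Fintype I] (f : I → ℝ) (Λ : ℝ)

/-- the scale number `n` -/
noncomputable def sn (n : ℕ) : ℝ := Λ * cc ^ n

/-- a good scale -/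
def good (n : ℕ) : Prop := G f (sn Λ n) ≤ kk * sn Λ n ^ 2

/-- the index of the `j`-th good scale -/
noncomputable def nn (j : ℕ) : ℕ := Nat.nth (good f Λ) j

/-- the `j`-th good scale -/
noncomputable def phi (j : ℕ) : ℝ := sn Λ (nn f Λ j)

variable {f Λ}

lemma sn_pos (hΛ : 0 < Λ) (n : ℕ) : 0 < sn Λ n := mul_pos hΛ (pow_pos cc_pos n)

lemma sn_succ (n : ℕ) : sn Λ (n + 1) = cc * sn Λ n := by
  unfold sn; ring

lemma good_iff (hΛ : 0 < Λ) (n : ℕ) : good f Λ n ↔ G f (sn Λ n) / sn Λ n ^ 2 ≤ kk := by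
  have : 0 < sn Λ n ^ 2 := by have := sn_pos hΛ n; positivity
  unfold good
  rw [div_le_iff₀ this]

lemma good_infinite (hf : ∀ i, 0 < f i) (hΛ : 0 < Λ) : (setOf (good f Λ)).Infinite := by
  refine Set.infinite_of_forall_exists_gt fun N => ?_
  have h1 : ∀ i, ∀ᶠ n in Filter.atTop, sn Λ n < f i := by
    intro i
    have h : Filter.Tendsto (fun n => Λ * cc ^ n) Filter.atTop (nhds (Λ * 0)) :=
      (tendsto_pow_atTop_nhds_zero_of_lt_one cc_pos.le cc_lt_one).const_mul Λ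
    rw [mul_zero] at h
    exact h.eventually (gt_mem_nhds (hf i))
  have h2 : ∀ᶠ n in Filter.atTop, ∀ i, sn Λ n < f i := Filter.eventually_all.mpr h1
  obtain ⟨n, hn1, hn2⟩ := (h2.and (Filter.eventually_gt_atTop N)).exists
  refine ⟨n, ?_, hn2⟩
  have : G f (sn Λ n) = 0 := by
    unfold G
    refine Finset.sum_eq_zero fun i _ => ?_
    rw [if_neg (not_lt.mpr (hn1 i).le)]
  show G f (sn Λ n) ≤ kk * sn Λ n ^ 2
  rw [this]
  have := kk_pos
  positivity

lemma nn_good (hf : ∀ i, 0 < f i) (hΛ : 0 < Λ) (j : ℕ) : good f Λ (nn f Λ j) :=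
  Nat.nth_mem_of_infinite (good_infinite hf hΛ) j

lemma nn_strictMono (hf : ∀ i, 0 < f i) (hΛ : 0 < Λ) : StrictMono (nn f Λ) :=
  Nat.nth_strictMono (good_infinite hf hΛ)

lemma nn_zero (h0 : good f Λ 0) : nn f Λ 0 = 0 := Nat.nth_zero_of_zero h0

lemma nn_bad (hf : ∀ i, 0 < f i) (hΛ : 0 < Λ) {j n : ℕ} (h1 : nn f Λ j < n)
    (h2 : n < nn f Λ (j + 1)) : ¬ good f Λ n := by
  classical
  intro hg
  have hn : nn f Λ (Nat.count (good f Λ) n) = n := Nat.nth_count hg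
  have hm := nn_strictMono hf hΛ
  rw [← hn] at h1 h2
  have a1 := hm.lt_iff_lt.mp h1
  have a2 := hm.lt_iff_lt.mp h2
  omega

lemma phi_pos (hΛ : 0 < Λ) (j : ℕ) : 0 < phi f Λ j := sn_pos hΛ _

lemma phi_zero (h0 : good f Λ 0) : phi f Λ 0 = Λ := by
  unfold phi sn; rw [nn_zero h0]; simp

lemma phi_good (hf : ∀ i, 0 < f i) (hΛ : 0 < Λ) (j : ℕ) :
    G f (phi f Λ j) ≤ kk * phi f Λ j ^ 2 := nn_good hf hΛ j

lemma phi_succ_le (hf : ∀ i, 0 < f i) (hΛ : 0 < Λ) (j : ℕ) :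
    phi f Λ (j + 1) ≤ cc * phi f Λ j := by
  have h : nn f Λ j + 1 ≤ nn f Λ (j + 1) := nn_strictMono hf hΛ (Nat.lt_succ_self j)
  unfold phi sn
  have := pow_le_pow_of_le_one cc_pos.le cc_lt_one.le h
  calc Λ * cc ^ nn f Λ (j + 1) ≤ Λ * cc ^ (nn f Λ j + 1) := by gcongr
    _ = cc * (Λ * cc ^ nn f Λ j) := by ring

lemma phi_antitone (hf : ∀ i, 0 < f i) (hΛ : 0 < Λ) : Antitone (phi f Λ) := by
  refine antitone_nat_of_succ_le fun j => ?_
  have h := phi_succ_le hf hΛ j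
  have h1 := phi_pos (f := f) hΛ j
  have h2 := cc_lt_one
  nlinarith

/-- the exact ratio of consecutive good scales -/
lemma phi_ratio (hf : ∀ i, 0 < f i) (hΛ : 0 < Λ) (j : ℕ) :
    phi f Λ j = (2 ^ 15 : ℝ) ^ (nn f Λ (j + 1) - nn f Λ j) * phi f Λ (j + 1) := by
  have h : nn f Λ j ≤ nn f Λ (j + 1) := (nn_strictMono hf hΛ (Nat.lt_succ_self j)).le
  obtain ⟨l, hl⟩ := Nat.exists_eq_add_of_le h
  have hl' : nn f Λ (j + 1) - nn f Λ j = l := by omega
  rw [hl']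
  unfold phi sn
  rw [hl, pow_add]
  have hc : (2 ^ 15 : ℝ) * cc = 1 := by unfold cc; norm_num
  have : (2 ^ 15 : ℝ) ^ l * cc ^ l = 1 := by rw [← mul_pow, hc, one_pow]
  calc Λ * cc ^ nn f Λ j = Λ * cc ^ nn f Λ j * ((2 ^ 15 : ℝ) ^ l * cc ^ l) := by rw [this, mul_one]
    _ = _ := by ring

lemma exists_phi_lt (hf : ∀ i, 0 < f i) (hΛ : 0 < Λ) {ε : ℝ} (hε : 0 < ε) :
    ∃ j, phi f Λ j < ε := by
  have h : Filter.Tendsto (fun n => Λ * cc ^ n) Filter.atTop (nhds (Λ * 0)) :=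
    (tendsto_pow_atTop_nhds_zero_of_lt_one cc_pos.le cc_lt_one).const_mul Λ
  rw [mul_zero] at h
  obtain ⟨j, hj⟩ := (h.eventually (gt_mem_nhds hε)).exists
  refine ⟨j, lt_of_le_of_lt ?_ hj⟩
  have h1 : j ≤ nn f Λ j := (nn_strictMono hf hΛ).id_le j
  unfold phi sn
  have := pow_le_pow_of_le_one cc_pos.le cc_lt_one.le h1
  gcongr

/-- the first group index -/
noncomputable def gp0 (f : I → ℝ) (Λ : ℝ) (i : I) : ℕ := sInf {h | phi f Λ h ≤ f i}

lemma gp0_le_iff (hf : ∀ i, 0 < f i) (hΛ : 0 < Λ) (i : I) (h : ℕ) :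
    gp0 f Λ i ≤ h ↔ phi f Λ h ≤ f i := by
  have hne : {h | phi f Λ h ≤ f i}.Nonempty := by
    obtain ⟨j, hj⟩ := exists_phi_lt hf hΛ (hf i)
    exact ⟨j, hj.le⟩
  constructor
  · intro hh
    have h1 : phi f Λ (gp0 f Λ i) ≤ f i := Nat.sInf_mem hne
    exact (phi_antitone hf hΛ hh).trans h1
  · intro hh
    exact Nat.sInf_le hh

lemma lt_gp0_iff (hf : ∀ i, 0 < f i) (hΛ : 0 < Λ) (i : I) (h : ℕ) :
    h < gp0 f Λ i ↔ f i < phi f Λ h := by
  rw [← not_le, gp0_le_iff hf hΛ, not_le]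

end Scales


section Weights

variable (φ : ℕ → ℝ)

/-- weight of a coordinate of group `g` in the effective dimension at stage `j` -/
noncomputable def ua (g j : ℕ) : ℝ := if g ≤ j then φ j / φ g else 0

/-- weight of a coordinate of group `g` in the tail dimension at stage `j` -/
noncomputable def ub (g j : ℕ) : ℝ := if j < g then (1 / 4 : ℝ) ^ (g - j - 1) else 0

/-- total weight -/
noncomputable def uu (g j : ℕ) : ℝ := ua φ g j + ub g j

variable {φ} (hφ : ∀ j, 0 < φ j) (hst : ∀ j, φ (j + 1) ≤ cc * φ j)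
include hφ

lemma ua_nonneg (g j : ℕ) : 0 ≤ ua φ g j := by
  unfold ua; split_ifs
  · exact (div_pos (hφ j) (hφ g)).le
  · exact le_rfl

omit hφ in
lemma ub_nonneg (g j : ℕ) : 0 ≤ ub g j := by
  unfold ub; split_ifs <;> positivity

lemma uu_nonneg (g j : ℕ) : 0 ≤ uu φ g j := add_nonneg (ua_nonneg hφ g j) (ub_nonneg g j)

include hst

lemma phi_step_le (j : ℕ) : φ (j + 1) ≤ φ j / 2 := by
  have h1 := hst j
  have h2 := hφ j
  have h3 : cc ≤ 1 / 2 := by unfold cc; norm_num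
  nlinarith

lemma uu_succ_le (g j : ℕ) : uu φ g (j + 1) ≤ 4 * uu φ g j := by
  have hp := hφ j
  have hq := phi_step_le hφ hst j
  unfold uu ua ub
  by_cases h1 : g ≤ j
  · have h2 : g ≤ j + 1 := by omega
    have h3 : ¬ j < g := by omega
    have h4 : ¬ j + 1 < g := by omega
    simp only [h1, h2, h3, h4, if_true, if_false, add_zero]
    have hg := hφ g
    have : φ (j + 1) / φ g ≤ φ j / φ g := by
      apply div_le_div_of_nonneg_right _ hg.le
      linarith [hφ (j + 1)]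
    have h5 := div_pos hp hg
    linarith
  · by_cases h2 : g = j + 1
    · subst h2
      have hne := (hφ (j + 1)).ne'
      simp [hne]
    · have h3 : j + 1 < g := by omega
      have h4 : j < g := by omega
      have h5 : ¬ g ≤ j + 1 := by omega
      simp only [h1, h5, h3, h4, if_true, if_false, zero_add]
      have e : g - j - 1 = (g - (j + 1) - 1) + 1 := by omega
      rw [e, pow_succ]
      apply le_of_eq
      ring

lemma uu_le_succ (g j : ℕ) : uu φ g j ≤ (φ j / φ (j + 1) + 1) * uu φ g (j + 1) := by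
  have hp := hφ j
  have hp1 := hφ (j + 1)
  have hx : 0 < φ j / φ (j + 1) := div_pos hp hp1
  unfold uu ua ub
  by_cases h1 : g ≤ j
  · have h2 : g ≤ j + 1 := by omega
    have h3 : ¬ j < g := by omega
    have h4 : ¬ j + 1 < g := by omega
    simp only [h1, h2, h3, h4, if_true, if_false, add_zero]
    have hg := hφ g
    have e : (φ j / φ (j + 1) + 1) * (φ (j + 1) / φ g) = φ j / φ g + φ (j + 1) / φ g := by
      field_simp
    rw [e]
    have := div_pos hp1 hg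
    linarith
  · by_cases h2 : g = j + 1
    · subst h2
      have hne := (hφ (j + 1)).ne'
      simp [hne]
      exact hx.le
    · have h3 : j + 1 < g := by omega
      have h4 : j < g := by omega
      have h5 : ¬ g ≤ j + 1 := by omega
      simp only [h1, h5, h3, h4, if_true, if_false, zero_add]
      have e : g - j - 1 = (g - (j + 1) - 1) + 1 := by omega
      rw [e, pow_succ]
      have h6 : 0 < (1 / 4 : ℝ) ^ (g - (j + 1) - 1) := by positivity
      nlinarith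

omit hφ hst in
lemma one_le_uu (j : ℕ) : (1:ℝ) ≤ uu φ (j + 1) j := by
  unfold uu ua ub
  simp

lemma ua_sum_le (g : ℕ) (M : ℕ) :
    ∑ j ∈ range M, ua φ g j + 2 * (if g ≤ M then φ M / φ g else 1) ≤ 2 := by
  induction M with
  | zero =>
    simp only [range_zero, sum_empty, zero_add]
    split_ifs with h
    · have : g = 0 := by omega
      subst this
      have := (hφ 0).ne'
      simp [this]
    · norm_num
  | succ M ih =>
    rw [Finset.sum_range_succ]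
    by_cases h : g ≤ M
    · have h2 : g ≤ M + 1 := by omega
      rw [if_pos h] at ih
      rw [if_pos h2]
      have e : ua φ g M = φ M / φ g := by unfold ua; rw [if_pos h]
      rw [e]
      have h3 : φ (M + 1) / φ g ≤ φ M / φ g / 2 := by
        rw [div_div, div_le_div_iff₀ (hφ g) (by have := hφ g; positivity)]
        have := phi_step_le hφ hst M
        have hg := hφ g
        nlinarith
      linarith
    · have e : ua φ g M = 0 := by unfold ua; rw [if_neg h]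
      rw [e, add_zero]
      rw [if_neg h] at ih
      by_cases h2 : g ≤ M + 1
      · have : g = M + 1 := by omega
        subst this
        rw [if_pos le_rfl]
        have := (hφ (M + 1)).ne'
        rw [div_self this]
        exact ih
      · rw [if_neg h2]; exact ih

omit hφ hst in
lemma ub_sum_le (g : ℕ) (M : ℕ) :
    ∑ j ∈ range M, ub g j ≤ 2 * (1 / 4 : ℝ) ^ (g - M) := by
  induction M with
  | zero => simp
  | succ M ih =>
    rw [Finset.sum_range_succ]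
    by_cases h : M < g
    · have e : ub g M = (1 / 4 : ℝ) ^ (g - M - 1) := by unfold ub; rw [if_pos h]
      rw [e]
      have e1 : g - M = (g - M - 1) + 1 := by omega
      have e2 : g - (M + 1) = g - M - 1 := by omega
      rw [e1, pow_succ] at ih
      rw [e2]
      have : 0 < (1 / 4 : ℝ) ^ (g - M - 1) := by positivity
      linarith
    · have e : ub g M = 0 := by unfold ub; rw [if_neg h]
      rw [e, add_zero]
      have e2 : g - (M + 1) = 0 := by omega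
      have e3 : g - M = 0 := by omega
      rw [e2]
      rw [e3] at ih
      exact ih

lemma uu_sum_le (g : ℕ) (M : ℕ) : ∑ j ∈ range M, uu φ g j ≤ 4 := by
  unfold uu
  rw [Finset.sum_add_distrib]
  have h1 := ua_sum_le hφ hst g M
  have h2 := ub_sum_le g M
  have h3 : 0 ≤ (if g ≤ M then φ M / φ g else 1) := by
    split_ifs
    · exact (div_pos (hφ M) (hφ g)).le
    · norm_num
  have h4 : (1 / 4 : ℝ) ^ (g - M) ≤ 1 := pow_le_one₀ (by norm_num) (by norm_num)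
  linarith

omit hφ hst in
lemma uu_zero_le {g : ℕ} (hg : 1 ≤ g) : uu φ g 0 ≤ 1 := by
  unfold uu ua ub
  have h1 : ¬ g ≤ 0 := by omega
  have h2 : 0 < g := by omega
  simp only [h1, h2, if_true, if_false, zero_add]
  exact pow_le_one₀ (by norm_num) (by norm_num)

end Weights


section Core

/-- the effective dimension of the capacity -/
noncomputable def KK (E : ℕ → ℝ) (j : ℕ) : ℝ := 2 ^ 37 * (E j + 1)

lemma one_le_KK {E : ℕ → ℝ} (hE : ∀ j, 0 ≤ E j) (j : ℕ) : 1 ≤ KK E j := by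
  unfold KK
  have := hE j
  nlinarith

lemma one_le_sqrt_KK {E : ℕ → ℝ} (hE : ∀ j, 0 ≤ E j) (j : ℕ) : 1 ≤ √(KK E j) :=
  Real.one_le_sqrt.mpr (one_le_KK hE j)

/-- the threshold -/
noncomputable def tau (A0 : ℝ) (φ E : ℕ → ℝ) (j : ℕ) : ℝ := A0 * √(KK E j) / φ j ^ 2

variable {A0 : ℝ} {φ E : ℕ → ℝ}

lemma tau_pos (hA : 0 < A0) (hφ : ∀ j, 0 < φ j) (hE : ∀ j, 0 ≤ E j) (j : ℕ) :
    0 < tau A0 φ E j := by
  have h1 := one_le_sqrt_KK hE j
  have h2 := hφ j
  unfold tau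
  positivity

lemma tau_mono (hA : 0 < A0) (hφ : ∀ j, 0 < φ j) (hE : ∀ j, 0 ≤ E j)
    (hx : ∀ j, 2 * φ (j + 1) ≤ φ j)
    (hE2 : ∀ j, E j ≤ (φ j / φ (j + 1) + 1) * E (j + 1)) (j : ℕ) :
    tau A0 φ E j ≤ tau A0 φ E (j + 1) := by
  have hp := hφ j
  have hq := hφ (j + 1)
  set x := φ j / φ (j + 1) with hxdef
  have hx2 : 2 ≤ x := by
    rw [hxdef, le_div_iff₀ hq]; exact hx j
  have hj : φ j = x * φ (j + 1) := by rw [hxdef]; field_simp
  have hK : KK E j ≤ x ^ 4 * KK E (j + 1) := by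
    unfold KK
    have h1 := hE2 j
    have h2 := hE (j + 1)
    have h3 : x + 1 ≤ x ^ 4 := by nlinarith [sq_nonneg (x ^ 2 - 1), sq_nonneg x, pow_pos (by linarith : 0 < x) 2]
    have h4 : 1 ≤ x ^ 4 := by nlinarith [pow_pos (by linarith : 0 < x) 2]
    have h5 : (x + 1) * E (j + 1) ≤ x ^ 4 * E (j + 1) := mul_le_mul_of_nonneg_right h3 h2
    nlinarith
  have hs : √(KK E j) ≤ x ^ 2 * √(KK E (j + 1)) := by
    calc √(KK E j) ≤ √(x ^ 4 * KK E (j + 1)) := Real.sqrt_le_sqrt hK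
      _ = x ^ 2 * √(KK E (j + 1)) := by
        have : x ^ 4 = (x ^ 2) ^ 2 := by ring
        rw [this, Real.sqrt_mul (by positivity), Real.sqrt_sq (by positivity)]
  unfold tau
  rw [hj, div_le_div_iff₀ (by positivity) (by positivity)]
  have h6 : A0 * √(KK E j) * φ (j + 1) ^ 2 ≤ A0 * (x ^ 2 * √(KK E (j + 1))) * φ (j + 1) ^ 2 := by
    gcongr
  calc A0 * √(KK E j) * φ (j + 1) ^ 2 ≤ A0 * (x ^ 2 * √(KK E (j + 1))) * φ (j + 1) ^ 2 := h6
    _ = A0 * √(KK E (j + 1)) * (x * φ (j + 1)) ^ 2 := by ring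

lemma tau_ratio (hA : 0 < A0) (hφ : ∀ j, 0 < φ j) (hE : ∀ j, 0 ≤ E j)
    (hE1 : ∀ j, E (j + 1) ≤ 4 * E j) (j : ℕ) :
    tau A0 φ E (j + 1) ≤ 2 * (φ j / φ (j + 1)) ^ 2 * tau A0 φ E j := by
  have hp := hφ j
  have hq := hφ (j + 1)
  have hK : KK E (j + 1) ≤ 2 ^ 2 * KK E j := by
    unfold KK
    have h1 := hE1 j
    nlinarith
  have hs : √(KK E (j + 1)) ≤ 2 * √(KK E j) := by
    calc √(KK E (j + 1)) ≤ √(2 ^ 2 * KK E j) := Real.sqrt_le_sqrt hK
      _ = 2 * √(KK E j) := by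
        rw [Real.sqrt_mul (by positivity), Real.sqrt_sq (by norm_num)]
  unfold tau
  have e : 2 * (φ j / φ (j + 1)) ^ 2 * (A0 * √(KK E j) / φ j ^ 2)
      = A0 * (2 * √(KK E j)) / φ (j + 1) ^ 2 := by
    field_simp
  rw [e]
  gcongr

/-- **the share exponents** -/
theorem core (hA0 : 2 ^ 40 ≤ A0) (hφ : ∀ j, 0 < φ j) (hE : ∀ j, 0 ≤ E j)
    (hx : ∀ j, 2 * φ (j + 1) ≤ φ j)
    (hE1 : ∀ j, E (j + 1) ≤ 4 * E j)
    (hE2 : ∀ j, E j ≤ (φ j / φ (j + 1) + 1) * E (j + 1))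
    (hsmall : ∃ j, φ j < 1) (h0 : tau A0 φ E 0 ≤ 1 / 4)
    (l : ℕ → ℕ) (hl : ∀ j, φ j = (2 ^ 15 : ℝ) ^ l j * φ (j + 1))
    (hlE : ∀ j, (l j : ℝ) ≤ 2 + 2 ^ 31 * E j) :
    ∃ (J : ℕ) (m al : ℕ → ℕ), m (J + 1) = 0 ∧ (∀ j, j ≤ J → m (j + 1) ≤ m j) ∧
      (∀ j, j ≤ J → A0 * √(KK E j) ≤ (1 / 2 : ℝ) ^ m j * φ j ^ 2) ∧
      (∀ j, j ≤ J → (1 / 2 : ℝ) ^ m j * φ j ^ 2 ≤ 2 * (A0 * √(KK E j))) ∧
      (∀ j, j ≤ J → ((m j - m (j + 1) : ℕ) : ℝ) ≤ 2 ^ 36 * (E j + 1)) ∧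
      (∀ j, j ≤ J → φ j ^ 2 / 2 ^ 23 ≤ (2:ℝ) ^ al j ∧ (2:ℝ) ^ al j ≤ φ j ^ 2 / 2 ^ 22) := by
  have hA : 0 < A0 := by linarith [show (0:ℝ) < 2 ^ 40 by norm_num]
  have hτ := tau_pos (A0 := A0) (φ := φ) (E := E) hA hφ hE
  have hmono := tau_mono (A0 := A0) hA hφ hE hx hE2
  have hratio := tau_ratio (A0 := A0) hA hφ hE hE1
  -- the top
  have hex : ∃ j, 1 / 2 < tau A0 φ E (j + 1) := by
    obtain ⟨j, hj⟩ := hsmall
    have hj1 : 1 / 2 < tau A0 φ E j := by
      have h1 := one_le_sqrt_KK hE j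
      have h2 := hφ j
      have h3 : φ j ^ 2 < 1 := by nlinarith
      unfold tau
      rw [lt_div_iff₀ (by positivity)]
      have h4 : A0 ≤ A0 * √(KK E j) := by nlinarith
      nlinarith
    rcases j with _ | j
    · linarith
    · exact ⟨j, hj1⟩
  classical
  set J := Nat.find hex with hJ
  have hJ1 : 1 / 2 < tau A0 φ E (J + 1) := Nat.find_spec hex
  have hJ2 : ∀ j, j ≤ J → tau A0 φ E j ≤ 1 / 2 := by
    intro j hj
    rcases j with _ | j
    · linarith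
    · have := Nat.find_min hex (m := j) (by omega)
      linarith
  -- the exponents
  have hmm : ∀ j, ∃ k : ℕ, j ≤ J → (2:ℝ) ^ k ≤ 1 / tau A0 φ E j ∧ 1 / tau A0 φ E j < (2:ℝ) ^ (k + 1) := by
    intro j
    by_cases hj : j ≤ J
    · have h1 : 1 ≤ 1 / tau A0 φ E j := by
        rw [le_div_iff₀ (hτ j)]
        linarith [hJ2 j hj]
      obtain ⟨k, hk1, hk2⟩ := exists_nat_pow_near h1 (by norm_num : (1:ℝ) < 2)
      exact ⟨k, fun _ => ⟨hk1, hk2⟩⟩
    · exact ⟨0, fun h => absurd h hj⟩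
  choose mm hmm using hmm
  set m : ℕ → ℕ := fun j => if j ≤ J then mm j else 0 with hm
  have hmJ : ∀ j, j ≤ J → m j = mm j := fun j hj => by simp only [hm, if_pos hj]
  have hmJ1 : m (J + 1) = 0 := by simp [hm]
  -- lower and upper bound of the share
  have hs1 : ∀ j, j ≤ J → tau A0 φ E j ≤ (1 / 2 : ℝ) ^ m j := by
    intro j hj
    have h1 := (hmm j hj).1
    rw [hmJ j hj]
    rw [le_div_iff₀ (hτ j)] at h1
    have h2 : (1 / 2 : ℝ) ^ mm j * 2 ^ mm j = 1 := by rw [← mul_pow]; norm_num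
    have h3 : 0 < (1 / 2 : ℝ) ^ mm j := by positivity
    nlinarith
  have hs2 : ∀ j, j ≤ J → (1 / 2 : ℝ) ^ m j ≤ 2 * tau A0 φ E j := by
    intro j hj
    have h1 := (hmm j hj).2
    rw [hmJ j hj]
    rw [div_lt_iff₀ (hτ j), pow_succ] at h1
    have h2 : (1 / 2 : ℝ) ^ mm j * 2 ^ mm j = 1 := by rw [← mul_pow]; norm_num
    have h3 : 0 < (1 / 2 : ℝ) ^ mm j := by positivity
    have h4 : 1 * (1 / 2 : ℝ) ^ mm j < 2 ^ mm j * 2 * tau A0 φ E j * (1 / 2 : ℝ) ^ mm j :=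
      mul_lt_mul_of_pos_right h1 h3
    have h5 : 2 ^ mm j * 2 * tau A0 φ E j * (1 / 2 : ℝ) ^ mm j
        = ((1 / 2 : ℝ) ^ mm j * 2 ^ mm j) * (2 * tau A0 φ E j) := by ring
    rw [h5, h2] at h4
    linarith
  have hG1 : ∀ j, j ≤ J → A0 * √(KK E j) ≤ (1 / 2 : ℝ) ^ m j * φ j ^ 2 := by
    intro j hj
    have h := hs1 j hj
    have hp : 0 < φ j ^ 2 := by have := hφ j; positivity
    have e : A0 * √(KK E j) = tau A0 φ E j * φ j ^ 2 := by
      unfold tau; rw [div_mul_cancel₀ _ hp.ne']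
    rw [e]
    exact mul_le_mul_of_nonneg_right h hp.le
  have hG2 : ∀ j, j ≤ J → (1 / 2 : ℝ) ^ m j * φ j ^ 2 ≤ 2 * (A0 * √(KK E j)) := by
    intro j hj
    have h := hs2 j hj
    have hp : 0 < φ j ^ 2 := by have := hφ j; positivity
    have e : A0 * √(KK E j) = tau A0 φ E j * φ j ^ 2 := by
      unfold tau; rw [div_mul_cancel₀ _ hp.ne']
    rw [e, ← mul_assoc]
    exact mul_le_mul_of_nonneg_right h hp.le
  -- the upper control of the next exponent
  have hnext : ∀ j, j ≤ J → 1 / tau A0 φ E (j + 1) < (2:ℝ) ^ (m (j + 1) + 1) := by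
    intro j hj
    by_cases h : j + 1 ≤ J
    · rw [hmJ _ h]; exact (hmm _ h).2
    · have : j = J := by omega
      subst this
      rw [hmJ1]
      rw [div_lt_iff₀ (hτ _)]
      norm_num
      linarith
  have hmmono : ∀ j, j ≤ J → m (j + 1) ≤ m j := by
    intro j hj
    by_cases h : j + 1 ≤ J
    · have h1 := (hmm _ h).1
      have h2 := (hmm j hj).2
      have h3 : 1 / tau A0 φ E (j + 1) ≤ 1 / tau A0 φ E j :=
        one_div_le_one_div_of_le (hτ j) (hmono j)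
      have h4 : (2:ℝ) ^ mm (j + 1) < (2:ℝ) ^ (mm j + 1) := by linarith
      have h5 := (pow_lt_pow_iff_right₀ (by norm_num : (1:ℝ) < 2)).mp h4
      rw [hmJ _ h, hmJ j hj]
      omega
    · have : j = J := by omega
      subst this
      rw [hmJ1]
      exact Nat.zero_le _
  have hebound : ∀ j, j ≤ J → ((m j - m (j + 1) : ℕ) : ℝ) ≤ 2 ^ 36 * (E j + 1) := by
    intro j hj
    set e := m j - m (j + 1) with he
    have hle := hmmono j hj
    have hme : m j = e + m (j + 1) := by omega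
    have h1 : (2:ℝ) ^ m j ≤ 1 / tau A0 φ E j := by rw [hmJ j hj]; exact (hmm j hj).1
    have h2 := hnext j hj
    have h3 := hratio j
    have hp := hφ j
    have hq := hφ (j + 1)
    have hx2 : φ j / φ (j + 1) = (2:ℝ) ^ (15 * l j) := by
      rw [pow_mul]
      have := hl j
      rw [div_eq_iff hq.ne']
      exact this
    -- `2^e < 2 τ_{j+1} / τ_j`
    have h4 : (2:ℝ) ^ e < (2:ℝ) ^ (2 + 30 * l j) := by
      have ht1 := hτ j
      have ht2 := hτ (j + 1)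
      rw [hme, pow_add] at h1
      rw [pow_succ, div_lt_iff₀ ht2] at h2
      have hM : 0 < (2:ℝ) ^ m (j + 1) := by positivity
      rw [le_div_iff₀ ht1] at h1
      -- `2^e * 2^M * τ_j ≤ 1 < 2^M * 2 * τ_{j+1}`
      have h5 : (2:ℝ) ^ e * tau A0 φ E j < 2 * tau A0 φ E (j + 1) := by
        have h6 : (2:ℝ) ^ m (j + 1) * ((2:ℝ) ^ e * tau A0 φ E j)
            < (2:ℝ) ^ m (j + 1) * (2 * tau A0 φ E (j + 1)) := by nlinarith
        exact lt_of_mul_lt_mul_left h6 hM.le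
      have h7 : (2:ℝ) ^ e * tau A0 φ E j < (2:ℝ) ^ (2 + 30 * l j) * tau A0 φ E j := by
        have e1 : (2:ℝ) ^ (2 + 30 * l j) = 4 * ((2:ℝ) ^ (15 * l j)) ^ 2 := by
          rw [pow_add, ← pow_mul]
          norm_num
          ring_nf
        rw [e1, ← hx2]
        rw [hx2] at h3 ⊢
        nlinarith
      exact lt_of_mul_lt_mul_right h7 ht1.le
    have h5 := (pow_lt_pow_iff_right₀ (by norm_num : (1:ℝ) < 2)).mp h4
    have h6 : (e:ℝ) ≤ 1 + 30 * l j := by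
      have : e ≤ 1 + 30 * l j := by omega
      exact_mod_cast this
    have h7 := hlE j
    have h8 := hE j
    nlinarith
  -- the `al`
  have hal : ∀ j, ∃ k : ℕ, j ≤ J → φ j ^ 2 / 2 ^ 23 ≤ (2:ℝ) ^ k ∧ (2:ℝ) ^ k ≤ φ j ^ 2 / 2 ^ 22 := by
    intro j
    by_cases hj : j ≤ J
    · have h1 : (2:ℝ) ^ 40 ≤ φ j ^ 2 := by
        have h2 := hG1 j hj
        have h3 := one_le_sqrt_KK hE j
        have h4 : (1 / 2 : ℝ) ^ m j ≤ 1 := pow_le_one₀ (by norm_num) (by norm_num)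
        have h5 : 0 < φ j ^ 2 := by have := hφ j; positivity
        nlinarith
      have h2 : 1 ≤ φ j ^ 2 / 2 ^ 22 := by
        rw [le_div_iff₀ (by norm_num)]
        have h3 : (1:ℝ) * 2 ^ 22 ≤ 2 ^ 40 := by norm_num
        linarith
      obtain ⟨k, hk1, hk2⟩ := exists_nat_pow_near h2 (by norm_num : (1:ℝ) < 2)
      refine ⟨k, fun _ => ⟨?_, hk1⟩⟩
      have hk3 : (2:ℝ) ^ (k + 1) = 2 ^ k * 2 := pow_succ _ _
      rw [hk3] at hk2
      have e : φ j ^ 2 / 2 ^ 23 = φ j ^ 2 / 2 ^ 22 / 2 := by ring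
      rw [e]
      linarith
    · exact ⟨0, fun h => absurd h hj⟩
  choose al hal using hal
  exact ⟨J, m, al, hmJ1, hmmono, hG1, hG2, hebound, hal⟩

end Core


section Conv

/-- the geometric convolution -/
noncomputable def conv (x : ℕ → ℝ) (h : ℕ) : ℝ := ∑ j ∈ range h, (1 / 2 : ℝ) ^ (h - j) * x j

lemma conv_succ (x : ℕ → ℝ) (h : ℕ) : conv x (h + 1) = (conv x h + x h) / 2 := by
  unfold conv
  rw [Finset.sum_range_succ, add_div, Finset.sum_div]
  congr 1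
  · refine Finset.sum_congr rfl fun j hj => ?_
    have hj' : j < h := Finset.mem_range.mp hj
    have e : h + 1 - j = (h - j) + 1 := by omega
    rw [e, pow_succ]; ring
  · have e : h + 1 - h = 1 := by omega
    rw [e]; ring

lemma conv_nonneg {x : ℕ → ℝ} (hx : ∀ j, 0 ≤ x j) (h : ℕ) : 0 ≤ conv x h :=
  Finset.sum_nonneg fun j _ => mul_nonneg (by positivity) (hx j)

lemma conv_sum (x : ℕ → ℝ) (N : ℕ) :
    ∑ h ∈ range N, conv x h + 2 * conv x N = ∑ j ∈ range N, x j := by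
  induction N with
  | zero => simp [conv]
  | succ N ih =>
    rw [Finset.sum_range_succ, Finset.sum_range_succ, conv_succ, ← ih]; ring

lemma conv_one_le (h : ℕ) : conv (fun _ => 1) h ≤ 1 := by
  induction h with
  | zero => simp [conv]
  | succ h ih => rw [conv_succ]; linarith

lemma S_le (h : ℕ) : ∑ j ∈ range h, (1 / 2 : ℝ) ^ (h - j) ≤ 1 := by
  have := conv_one_le h
  simpa [conv] using this

/-- the first moment of the geometric weights -/
lemma T_le (h : ℕ) : ∑ j ∈ range h, (1 / 2 : ℝ) ^ (h - j) * ((h - j : ℕ) : ℝ) ≤ 2 := by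
  induction h with
  | zero => simp
  | succ h ih =>
    have e : ∑ j ∈ range (h + 1), (1 / 2 : ℝ) ^ (h + 1 - j) * ((h + 1 - j : ℕ) : ℝ)
        = (∑ j ∈ range h, (1 / 2 : ℝ) ^ (h - j) * ((h - j : ℕ) : ℝ)
          + ∑ j ∈ range h, (1 / 2 : ℝ) ^ (h - j) + 1) / 2 := by
      have e1 : ∑ j ∈ range h, (1 / 2 : ℝ) ^ (h + 1 - j) * ((h + 1 - j : ℕ) : ℝ)
          = ∑ j ∈ range h, ((1 / 2 : ℝ) ^ (h - j) * ((h - j : ℕ) : ℝ) / 2
            + (1 / 2 : ℝ) ^ (h - j) / 2) := by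
        refine Finset.sum_congr rfl fun j hj => ?_
        have hj' : j < h := Finset.mem_range.mp hj
        have e2 : h + 1 - j = (h - j) + 1 := by omega
        rw [e2, pow_succ]
        push_cast
        ring
      have e3 : h + 1 - h = 1 := by omega
      rw [Finset.sum_range_succ, e1, Finset.sum_add_distrib, ← Finset.sum_div, ← Finset.sum_div,
        e3]
      norm_num
      ring
    have := S_le h
    rw [e]; linarith

lemma weighted_sq {s : Finset ℕ} {w x : ℕ → ℝ} (hw : ∀ j ∈ s, 0 ≤ w j)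
    (hs : ∑ j ∈ s, w j ≤ 1) :
    (∑ j ∈ s, w j * x j) ^ 2 ≤ ∑ j ∈ s, w j * x j ^ 2 := by
  set t := ∑ j ∈ s, w j * x j with ht
  have h1 : ∑ j ∈ s, w j * (2 * t * x j - t ^ 2) ≤ ∑ j ∈ s, w j * x j ^ 2 :=
    Finset.sum_le_sum fun j hj =>
      mul_le_mul_of_nonneg_left (by nlinarith [sq_nonneg (x j - t)]) (hw j hj)
  have h2 : ∑ j ∈ s, w j * (2 * t * x j - t ^ 2) = 2 * t * t - t ^ 2 * ∑ j ∈ s, w j := by
    have e : ∀ j, w j * (2 * t * x j - t ^ 2) = 2 * t * (w j * x j) - t ^ 2 * w j := by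
      intro j; ring
    simp_rw [e]
    rw [Finset.sum_sub_distrib, ← Finset.mul_sum, ← Finset.mul_sum, ← ht]
  have h3 : t ^ 2 * ∑ j ∈ s, w j ≤ t ^ 2 * 1 := mul_le_mul_of_nonneg_left hs (sq_nonneg t)
  rw [h2] at h1
  nlinarith

lemma finB_core {C kap b : ℝ} {Gam : ℕ → ℝ} (hC : 0 ≤ C) (hk : 0 ≤ kap) (h : ℕ) :
    (√(C * (kap + 4)) + b + ∑ j ∈ range h, (1 / 2 : ℝ) ^ (h - j) *
        (4 * √(C * (kap + 4 + ((h - j : ℕ) : ℝ))) + 4 * Gam j)) ^ 2
      ≤ 3 * (C * (kap + 4)) + 3 * b ^ 2 + 96 * (C * (kap + 6)) +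
        96 * ∑ j ∈ range h, (1 / 2 : ℝ) ^ (h - j) * Gam j ^ 2 := by
  set z : ℕ → ℝ := fun j => 4 * √(C * (kap + 4 + ((h - j : ℕ) : ℝ))) + 4 * Gam j with hz
  set w : ℕ → ℝ := fun j => (1 / 2 : ℝ) ^ (h - j) with hw
  set Z := ∑ j ∈ range h, w j * z j with hZ
  have hw0 : ∀ j, 0 ≤ w j := fun j => by simp only [hw]; positivity
  have h1 : Z ^ 2 ≤ ∑ j ∈ range h, w j * z j ^ 2 :=
    weighted_sq (fun j _ => hw0 j) (S_le h)
  have h2 : ∀ j, z j ^ 2 ≤ 32 * (C * (kap + 4)) + 32 * C * ((h - j : ℕ) : ℝ) + 32 * Gam j ^ 2 := by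
    intro j
    have hn : (0:ℝ) ≤ ((h - j : ℕ) : ℝ) := Nat.cast_nonneg _
    have hp : 0 ≤ C * (kap + 4 + ((h - j : ℕ) : ℝ)) := by positivity
    have hs := Real.sq_sqrt hp
    simp only [hz]
    nlinarith [sq_nonneg (√(C * (kap + 4 + ((h - j : ℕ) : ℝ))) - Gam j)]
  have h3 : ∑ j ∈ range h, w j * z j ^ 2 ≤ ∑ j ∈ range h,
      (32 * (C * (kap + 4)) * w j + 32 * C * (w j * ((h - j : ℕ) : ℝ)) + 32 * (w j * Gam j ^ 2)) :=
    Finset.sum_le_sum fun j _ => by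
      have := mul_le_mul_of_nonneg_left (h2 j) (hw0 j)
      nlinarith
  rw [Finset.sum_add_distrib, Finset.sum_add_distrib, ← Finset.mul_sum, ← Finset.mul_sum,
    ← Finset.mul_sum] at h3
  have hS : ∑ j ∈ range h, w j ≤ 1 := S_le h
  have hT : ∑ j ∈ range h, w j * ((h - j : ℕ) : ℝ) ≤ 2 := T_le h
  have hA : 0 ≤ C * (kap + 4) := by positivity
  have hs := Real.sq_sqrt hA
  have h4 : 32 * (C * (kap + 4)) * ∑ j ∈ range h, w j ≤ 32 * (C * (kap + 4)) * 1 :=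
    mul_le_mul_of_nonneg_left hS (by positivity)
  have h5 : 32 * C * ∑ j ∈ range h, w j * ((h - j : ℕ) : ℝ) ≤ 32 * C * 2 :=
    mul_le_mul_of_nonneg_left hT (by positivity)
  set A := √(C * (kap + 4)) with hAdef
  have h6 : (A + b + Z) ^ 2 ≤ 3 * (A ^ 2 + b ^ 2 + Z ^ 2) := by
    nlinarith [sq_nonneg (A - b), sq_nonneg (A - Z), sq_nonneg (b - Z)]
  have h7 : 3 * (C * (kap + 4)) + 3 * b ^ 2 + 96 * (C * (kap + 6)) +
        96 * ∑ j ∈ range h, w j * Gam j ^ 2 = 3 * (C * (kap + 4) + b ^ 2 +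
        (32 * (C * (kap + 4)) * 1 + 32 * C * 2 + 32 * ∑ j ∈ range h, w j * Gam j ^ 2)) := by ring
  rw [h7]
  refine h6.trans ?_
  rw [hs]
  linarith

end Conv

section Energies

variable {I : Type} [Fintype I]

/-- the effective dimension of the scale -/
noncomputable def EE (f : I → ℝ) (Λ : ℝ) (j : ℕ) : ℝ := ∑ i, uu (phi f Λ) (gp0 f Λ i) j

variable {f : I → ℝ} {Λ : ℝ}

lemma EE_nonneg (hΛ : 0 < Λ) (j : ℕ) : 0 ≤ EE f Λ j :=
  Finset.sum_nonneg fun i _ => uu_nonneg (phi_pos hΛ) _ _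

lemma EE_succ_le (hf : ∀ i, 0 < f i) (hΛ : 0 < Λ) (j : ℕ) :
    EE f Λ (j + 1) ≤ 4 * EE f Λ j := by
  unfold EE
  rw [Finset.mul_sum]
  exact Finset.sum_le_sum fun i _ => uu_succ_le (phi_pos hΛ) (phi_succ_le hf hΛ) _ _

lemma EE_le_succ (hf : ∀ i, 0 < f i) (hΛ : 0 < Λ) (j : ℕ) :
    EE f Λ j ≤ (phi f Λ j / phi f Λ (j + 1) + 1) * EE f Λ (j + 1) := by
  unfold EE
  rw [Finset.mul_sum]
  exact Finset.sum_le_sum fun i _ => uu_le_succ (phi_pos hΛ) (phi_succ_le hf hΛ) _ _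

lemma EE_sum_le (hf : ∀ i, 0 < f i) (hΛ : 0 < Λ) (M : ℕ) :
    ∑ j ∈ range M, EE f Λ j ≤ 4 * (Fintype.card I : ℝ) := by
  unfold EE
  rw [Finset.sum_comm]
  calc _ ≤ ∑ _i : I, (4:ℝ) :=
        Finset.sum_le_sum fun i _ => uu_sum_le (phi_pos hΛ) (phi_succ_le hf hΛ) _ _
    _ = _ := by simp [mul_comm]

lemma EE_zero_le (hf : ∀ i, 0 < f i) (hΛ : 0 < Λ) (hg : ∀ i, 1 ≤ gp0 f Λ i) :
    EE f Λ 0 ≤ (Fintype.card I : ℝ) := by
  unfold EE
  calc _ ≤ ∑ _i : I, (1:ℝ) :=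
        Finset.sum_le_sum fun i _ => uu_zero_le (hg i)
    _ = _ := by simp

lemma Cnt_diff_le (hf : ∀ i, 0 < f i) (hΛ : 0 < Λ) (j : ℕ) :
    Cnt f (phi f Λ j) - Cnt f (phi f Λ (j + 1)) ≤ EE f Λ j := by
  unfold Cnt EE
  rw [← Finset.sum_sub_distrib]
  refine Finset.sum_le_sum fun i _ => ?_
  have hu := uu_nonneg (phi_pos (f := f) hΛ) (gp0 f Λ i) j
  by_cases h1 : f i < phi f Λ j
  · by_cases h2 : f i < phi f Λ (j + 1)
    · simp only [h1, h2, if_true]; linarith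
    · have h3 : j < gp0 f Λ i := (lt_gp0_iff hf hΛ i j).2 h1
      have h4 : ¬ (j + 1 < gp0 f Λ i) := fun h => h2 ((lt_gp0_iff hf hΛ i _).1 h)
      have h5 : gp0 f Λ i = j + 1 := by omega
      simp only [h1, h2, if_true, if_false, sub_zero]
      rw [h5]
      exact one_le_uu j
  · have h2 : ¬ f i < phi f Λ (j + 1) := fun h =>
      h1 (lt_of_lt_of_le h (phi_antitone hf hΛ (Nat.le_succ j)))
    simp only [h1, h2, if_false, sub_zero]
    exact hu

lemma run_len (hf : ∀ i, 0 < f i) (hΛ : 0 < Λ) (j : ℕ) :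
    ((nn f Λ (j + 1) - nn f Λ j : ℕ) : ℝ) ≤ 2 + 2 ^ 31 * EE f Λ j := by
  have hlt : nn f Λ j < nn f Λ (j + 1) := nn_strictMono hf hΛ (Nat.lt_succ_self j)
  have hd := Cnt_diff_le hf hΛ j
  have hE := EE_nonneg (f := f) hΛ j
  unfold phi at hd
  set a := nn f Λ j with ha
  set b := nn f Λ (j + 1) with hb
  obtain ⟨k, hk⟩ : ∃ k, a + 1 + k = b := ⟨b - (a + 1), by omega⟩
  have hg : G f (sn Λ b) / sn Λ b ^ 2 ≤ kk := (good_iff hΛ b).1 (nn_good hf hΛ (j + 1))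
  have hr := run_bound f hf (sn Λ) (sn_pos hΛ) sn_succ b hg k (a + 1) hk (by
    intro n hn1 hn2
    have h : ¬ good f Λ n := nn_bad hf hΛ (by omega) hn2
    rw [good_iff hΛ] at h
    exact not_le.1 h)
  have hs : 0 < sn Λ a := sn_pos hΛ a
  have hcnt : Cnt f (sn Λ (a + 1)) ≤ Cnt f (sn Λ a) := by
    apply Cnt_mono
    rw [sn_succ]
    have := cc_lt_one
    nlinarith
  have hGn : 0 ≤ G f (sn Λ (a + 1)) / sn Λ (a + 1) ^ 2 := by
    have h1 := G_nonneg f (sn Λ (a + 1))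
    positivity
  have hba : b - a = k + 1 := by omega
  rw [hba]
  push_cast
  have hk0 : (0:ℝ) ≤ k := Nat.cast_nonneg k
  have hkk : kk = 1 / 2 ^ 30 := rfl
  have h1 : (k:ℝ) * kk * (1 - kk) ≤ kk ^ 2 + EE f Λ j := by
    have h2 : 0 ≤ kk * (G f (sn Λ (a + 1)) / sn Λ (a + 1) ^ 2) := mul_nonneg kk_pos.le hGn
    linarith
  rw [hkk] at h1
  norm_num at h1 ⊢
  nlinarith

end Energies

section Generic

variable {ι I : Type} [Fintype ι] [Fintype I] (D : Data ι I)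

lemma kap_eq (a : ℕ) : D.kap a = ∑ i, if D.gp i = a then (1:ℝ) else 0 := by
  classical
  unfold Data.kap
  rw [Finset.sum_boole]

lemma kap_nonneg (a : ℕ) : 0 ≤ D.kap a := by
  rw [kap_eq]
  exact Finset.sum_nonneg fun i _ => by split_ifs <;> norm_num

lemma kap_ge_one {a : ℕ} (h : D.kap a ≠ 0) : 1 ≤ D.kap a := by
  classical
  have e : D.kap a = ((univ.filter fun i => D.gp i = a).card : ℝ) := by
    rw [kap_eq, Finset.sum_boole]
  rw [e] at h ⊢
  have h1 : ((univ.filter fun i => D.gp i = a).card) ≠ 0 := fun h2 => h (by rw [h2]; simp)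
  exact_mod_cast Nat.one_le_iff_ne_zero.mpr h1

lemma kap_sum_le (N : ℕ) : ∑ h ∈ range N, D.kap h ≤ (Fintype.card I : ℝ) := by
  simp_rw [kap_eq]
  rw [Finset.sum_comm]
  calc _ ≤ ∑ _i : I, (1:ℝ) := Finset.sum_le_sum fun i _ => by
        rw [Finset.sum_ite_eq]
        split_ifs <;> norm_num
    _ = _ := by simp

lemma khat_eq (j : ℕ) :
    D.khat j = ∑ i, if D.gp i ≤ j then D.φ j / D.φ (D.gp i) else 0 := by
  unfold Data.khat
  simp_rw [kap_eq, Finset.sum_mul]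
  rw [Finset.sum_comm]
  refine Finset.sum_congr rfl fun i _ => ?_
  have e : ∀ a ∈ range (j + 1), (if D.gp i = a then (1:ℝ) else 0) * (D.φ j / D.φ a)
      = if D.gp i = a then D.φ j / D.φ a else 0 := by
    intro a _; split_ifs <;> simp
  rw [Finset.sum_congr rfl e, Finset.sum_ite_eq]
  by_cases h : D.gp i ≤ j
  · rw [if_pos (Finset.mem_range.mpr (by omega)), if_pos h]
  · rw [if_neg (fun h2 => h (by have := Finset.mem_range.mp h2; omega)), if_neg h]

/-- the total weight above stage `j` -/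
noncomputable def WW (j : ℕ) : ℝ := ∑ i, if j < D.gp i then (4:ℝ) ^ (D.gp i - j) * D.f i ^ 2 else 0

lemma Qsum_eq (hs : ∀ i, ∑ u, D.v u i ^ 2 = D.f i ^ 2) (j : ℕ) :
    ∑ u, D.Qf j u = WW D j := by
  unfold Data.Qf WW
  rw [Finset.sum_comm]
  refine Finset.sum_congr rfl fun i _ => ?_
  by_cases h : j < D.gp i
  · simp only [h, if_true]
    rw [← Finset.mul_sum, hs]
  · simp [h]

lemma WW_step (j : ℕ) : WW D j = 4 * (∑ i, if D.gp i = j + 1 then D.f i ^ 2 else 0)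
    + 4 * WW D (j + 1) := by
  unfold WW
  rw [Finset.mul_sum, Finset.mul_sum, ← Finset.sum_add_distrib]
  refine Finset.sum_congr rfl fun i _ => ?_
  by_cases h1 : j + 1 < D.gp i
  · have h2 : j < D.gp i := by omega
    have h3 : D.gp i ≠ j + 1 := by omega
    have e : D.gp i - j = (D.gp i - (j + 1)) + 1 := by omega
    simp only [h1, h2, h3, if_true, if_false, mul_zero, zero_add]
    rw [e, pow_succ]
    have e2 : D.gp i - (j + 1) + 1 - (j + 1) = D.gp i - (j + 1) + 1 - (j + 1) := rfl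
    ring
  · by_cases h2 : D.gp i = j + 1
    · have h3 : j < D.gp i := by omega
      have e : D.gp i - j = 1 := by omega
      rw [if_pos h3, if_pos h2, if_neg h1, e]
      ring
    · have h3 : ¬ j < D.gp i := by omega
      simp [h1, h2, h3]

lemma WW_bound (J : ℕ) (hgp : ∀ i, D.gp i ≤ J + 1)
    (hF : ∀ j, j ≤ J → (∑ i, if D.gp i = j + 1 then D.f i ^ 2 else 0) ≤ kk * D.φ j ^ 2)
    (hst : ∀ j, D.φ (j + 1) ≤ cc * D.φ j) :
    ∀ k j, j + k = J + 1 → WW D j ≤ D.φ j ^ 2 / 2 ^ 26 := by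
  intro k
  induction k with
  | zero =>
    intro j hj
    have e : WW D j = 0 := by
      unfold WW
      refine Finset.sum_eq_zero fun i _ => ?_
      have := hgp i
      rw [if_neg (by omega)]
    rw [e]
    positivity
  | succ k ih =>
    intro j hj
    have h1 := ih (j + 1) (by omega)
    have h2 := hF j (by omega)
    have hp := D.hφ j
    have hq := D.hφ (j + 1)
    have h3 := hst j
    have h4 : D.φ (j + 1) ^ 2 ≤ kk * D.φ j ^ 2 := by
      rw [kk_eq, ← mul_pow]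
      exact pow_le_pow_left₀ hq.le h3 2
    rw [WW_step]
    have h5 : 0 < D.φ j ^ 2 := by positivity
    have hk : kk = 1 / 2 ^ 30 := rfl
    rw [hk] at h2 h4
    norm_num at h1 h2 h4 ⊢
    nlinarith

end Generic

section Final

variable {ι I : Type} [Fintype ι] [Fintype I] (D : Data ι I)

lemma finB_sq_bound (m : ℕ → ℕ) {E : ℕ → ℝ} {L : ℝ} (hE : ∀ j, 0 ≤ E j) (hL : 0 ≤ L)
    (hGam : ∀ j, j ≤ D.top → D.Gam m j ^ 2 ≤ L * (E j + 1)) {h : ℕ} (hh : h ≤ D.top + 1)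
    (hk : D.kap h ≠ 0) :
    D.finB m h ^ 2 ≤ (687 * C1 + 99 * L) * D.kap h + 3 * L * E h + 96 * L * conv E h := by
  have hC : (0:ℝ) ≤ C1 := by linarith [C1_ge]
  have hk1 := kap_ge_one D hk
  have h1 : D.finB m h ^ 2 ≤ 3 * (C1 * (D.kap h + 4))
      + 3 * (if h ≤ D.top then D.Gam m h else 0) ^ 2 + 96 * (C1 * (D.kap h + 6))
      + 96 * ∑ j ∈ range h, (1 / 2 : ℝ) ^ (h - j) * D.Gam m j ^ 2 :=
    finB_core hC (kap_nonneg D h) h
  have h2 : (if h ≤ D.top then D.Gam m h else 0) ^ 2 ≤ L * (E h + 1) := by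
    split_ifs with hc
    · exact hGam h hc
    · have := hE h
      simp only [ne_eq, OfNat.ofNat_ne_zero, not_false_eq_true, zero_pow]
      positivity
  have h3 : ∑ j ∈ range h, (1 / 2 : ℝ) ^ (h - j) * D.Gam m j ^ 2 ≤ L * (conv E h + 1) := by
    have e1 : L * (conv E h + conv (fun _ => 1) h)
        = ∑ j ∈ range h, (1 / 2 : ℝ) ^ (h - j) * (L * (E j + 1)) := by
      unfold conv
      rw [← Finset.sum_add_distrib, Finset.mul_sum]
      refine Finset.sum_congr rfl fun j _ => ?_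
      ring
    have e2 : ∑ j ∈ range h, (1 / 2 : ℝ) ^ (h - j) * D.Gam m j ^ 2
        ≤ L * (conv E h + conv (fun _ => 1) h) := by
      rw [e1]
      refine Finset.sum_le_sum fun j hj => ?_
      have hj' : j < h := Finset.mem_range.mp hj
      exact mul_le_mul_of_nonneg_left (hGam j (by omega)) (by positivity)
    have e3 : L * conv (fun _ => 1) h ≤ L * 1 := mul_le_mul_of_nonneg_left (conv_one_le h) hL
    nlinarith
  have h4 : C1 * (D.kap h + 4) ≤ C1 * (5 * D.kap h) :=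
    mul_le_mul_of_nonneg_left (by linarith) hC
  have h5 : C1 * (D.kap h + 6) ≤ C1 * (7 * D.kap h) :=
    mul_le_mul_of_nonneg_left (by linarith) hC
  have h6 : L * 1 ≤ L * D.kap h := mul_le_mul_of_nonneg_left hk1 hL
  nlinarith

lemma final_sum (m : ℕ → ℕ) {E : ℕ → ℝ} {L : ℝ} (hE : ∀ j, 0 ≤ E j) (hL : 0 ≤ L)
    (hGam : ∀ j, j ≤ D.top → D.Gam m j ^ 2 ≤ L * (E j + 1))
    (hEs : ∀ M, ∑ j ∈ range M, E j ≤ 4 * (Fintype.card I : ℝ)) :
    (∑ h ∈ range (D.top + 2), if D.kap h = 0 then 0 else D.finB m h ^ 2)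
      ≤ (687 * C1 + 495 * L) * (Fintype.card I : ℝ) := by
  have hC : (0:ℝ) ≤ C1 := by linarith [C1_ge]
  have hcoef : 0 ≤ 687 * C1 + 99 * L := by positivity
  have h1 : (∑ h ∈ range (D.top + 2), if D.kap h = 0 then 0 else D.finB m h ^ 2)
      ≤ ∑ h ∈ range (D.top + 2),
        ((687 * C1 + 99 * L) * D.kap h + 3 * L * E h + 96 * L * conv E h) := by
    refine Finset.sum_le_sum fun h hh => ?_
    have hh' : h < D.top + 2 := Finset.mem_range.mp hh
    split_ifs with hk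
    · have h2 := kap_nonneg D h
      have h3 := hE h
      have h4 := conv_nonneg hE h
      positivity
    · exact finB_sq_bound D m hE hL hGam (by omega) hk
  refine h1.trans ?_
  rw [Finset.sum_add_distrib, Finset.sum_add_distrib, ← Finset.mul_sum, ← Finset.mul_sum,
    ← Finset.mul_sum]
  have h2 := kap_sum_le D (D.top + 2)
  have h3 := hEs (D.top + 2)
  have h4 := conv_sum E (D.top + 2)
  have h5 := conv_nonneg hE (D.top + 2)
  have h6 : ∑ h ∈ range (D.top + 2), conv E h ≤ 4 * (Fintype.card I : ℝ) := by linarith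
  have h7 := mul_le_mul_of_nonneg_left h2 hcoef
  have h8 := mul_le_mul_of_nonneg_left h3 (by positivity : 0 ≤ 3 * L)
  have h9 := mul_le_mul_of_nonneg_left h6 (by positivity : 0 ≤ 96 * L)
  nlinarith

end Final

section Construct

variable {ι : Type} [Fintype ι] {I : Type} [Fintype I]

/-- the data of a scale choice -/
noncomputable def mkD (v : ι → I → ℝ) (f : I → ℝ) (Λ : ℝ) (J : ℕ)
    (hv : ∀ u, ∑ i, v u i ^ 2 ≤ 1) (hf : ∀ i, 0 < f i) (hΛ : 0 < Λ) : Data ι I where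
  v := v
  gp := fun i => min (gp0 f Λ i) (J + 1)
  f := f
  φ := phi f Λ
  top := J
  hv := hv
  hφ := phi_pos hΛ
  hφ2 := phi_step_le (phi_pos hΛ) (phi_succ_le hf hΛ)
  hf := fun i hi => by
    have h : min (gp0 f Λ i) (J + 1) ≤ J := hi
    have h2 : gp0 f Λ i ≤ J := by omega
    have e : min (gp0 f Λ i) (J + 1) = gp0 f Λ i := by omega
    show phi f Λ (min (gp0 f Λ i) (J + 1)) ≤ f i
    rw [e]
    exact (gp0_le_iff hf hΛ i _).1 le_rfl

variable {v : ι → I → ℝ} {f : I → ℝ} {Λ : ℝ} {J : ℕ}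
    {hv : ∀ u, ∑ i, v u i ^ 2 ≤ 1} {hf : ∀ i, 0 < f i} {hΛ : 0 < Λ}

lemma mk_khat_le (j : ℕ) (hj : j ≤ J) : (mkD v f Λ J hv hf hΛ).khat j ≤ EE f Λ j := by
  rw [khat_eq]
  unfold EE
  refine Finset.sum_le_sum fun i _ => ?_
  have hu := uu_nonneg (phi_pos (f := f) hΛ) (gp0 f Λ i) j
  show (if min (gp0 f Λ i) (J + 1) ≤ j then phi f Λ j / phi f Λ (min (gp0 f Λ i) (J + 1)) else 0)
    ≤ uu (phi f Λ) (gp0 f Λ i) j
  split_ifs with h
  · have h2 : gp0 f Λ i ≤ j := by omega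
    have e : min (gp0 f Λ i) (J + 1) = gp0 f Λ i := by omega
    rw [e]
    have hb := ub_nonneg (gp0 f Λ i) j
    unfold uu ua
    rw [if_pos h2]
    linarith
  · exact hu

lemma mk_F (j : ℕ) :
    (∑ i, if (mkD v f Λ J hv hf hΛ).gp i = j + 1 then (mkD v f Λ J hv hf hΛ).f i ^ 2 else 0)
      ≤ kk * (mkD v f Λ J hv hf hΛ).φ j ^ 2 := by
  refine le_trans ?_ (phi_good hf hΛ j)
  unfold G
  refine Finset.sum_le_sum fun i _ => ?_
  show (if min (gp0 f Λ i) (J + 1) = j + 1 then f i ^ 2 else 0)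
    ≤ if f i < phi f Λ j then f i ^ 2 else 0
  by_cases h : min (gp0 f Λ i) (J + 1) = j + 1
  · have h2 : j < gp0 f Λ i := by omega
    rw [if_pos h, if_pos ((lt_gp0_iff hf hΛ i j).1 h2)]
  · rw [if_neg h]
    split_ifs <;> positivity

end Construct

end Sch

open Sch in
/-- **the schedule** -/
theorem schedule_exists (A0 : ℝ) (hA0 : 2 ^ 40 ≤ A0) : ∃ Cf : ℝ, 0 < Cf ∧
    ∀ {ι : Type} [Fintype ι] {d : ℕ} (_ : 1 ≤ d) (v : ι → Fin d → ℝ) (f : Fin d → ℝ)
      (_ : ∀ i, 0 < f i) (_ : ∀ u, ∑ i, v u i ^ 2 ≤ 1)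
      (_ : ∀ i, ∑ u, v u i ^ 2 = f i ^ 2),
      ∃ (D : Data ι (Fin d)) (m al : ℕ → ℕ), D.v = v ∧ D.f = f ∧ D.SchOK m al A0 ∧
        (∑ h ∈ range (D.top + 2), if D.kap h = 0 then 0 else D.finB m h ^ 2) ≤ Cf * d ∧
        D.Gam m 0 ≤ Cf * d := by
  have hA : 0 < A0 := by linarith [show (0:ℝ) < 2 ^ 40 by norm_num]
  have hC : (1:ℝ) ≤ C1 := C1_ge
  set L : ℝ := 4 * A0 ^ 2 * 2 ^ 37 with hLdef
  have hL : 0 ≤ L := by positivity
  refine ⟨687 * C1 + 495 * L + 2 ^ 20 * A0, by positivity, ?_⟩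
  intro ι _ d hd v f hf hv hsum
  have hd1 : (1:ℝ) ≤ d := by exact_mod_cast hd
  have hcard : (Fintype.card (Fin d) : ℝ) = d := by simp
  -- the top scale
  set X : ℝ := ∑ i, f i ^ 2 + 4 * A0 * √(2 ^ 37 * ((d:ℝ) + 1)) with hX
  have hS0 : 0 ≤ ∑ i, f i ^ 2 := Finset.sum_nonneg fun i _ => sq_nonneg _
  have hK0 : 0 < √(2 ^ 37 * ((d:ℝ) + 1)) := Real.sqrt_pos.mpr (by positivity)
  have hX0 : 0 < X := by positivity
  set Λ : ℝ := 2 ^ 15 * √X with hΛdef
  have hsX : 0 < √X := Real.sqrt_pos.mpr hX0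
  have hΛ : 0 < Λ := by positivity
  have hΛ2 : Λ ^ 2 = 2 ^ 30 * X := by
    rw [hΛdef, mul_pow, Real.sq_sqrt hX0.le]; norm_num
  -- the first scale is good
  have hgood0 : good f Λ 0 := by
    unfold good
    have e0 : sn Λ 0 = Λ := by simp [sn]
    rw [e0, hΛ2]
    have h1 : G f Λ ≤ ∑ i, f i ^ 2 := Finset.sum_le_sum fun i _ => by
      split_ifs
      · exact le_rfl
      · exact sq_nonneg _
    have h2 : kk * (2 ^ 30 * X) = X := by unfold kk; ring
    rw [h2]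
    have := mul_nonneg (mul_nonneg (by norm_num : (0:ℝ) ≤ 4) hA.le) hK0.le
    linarith
  have hφ0 : phi f Λ 0 = Λ := phi_zero hgood0
  have hg : ∀ i, 1 ≤ gp0 f Λ i := by
    intro i
    have h1 : 0 < gp0 f Λ i := by
      rw [lt_gp0_iff hf hΛ, hφ0]
      have h2 : f i ^ 2 ≤ X := by
        have h3 : f i ^ 2 ≤ ∑ i, f i ^ 2 :=
          Finset.single_le_sum (f := fun i => f i ^ 2) (fun i _ => sq_nonneg _) (Finset.mem_univ i)
        have := mul_nonneg (mul_nonneg (by norm_num : (0:ℝ) ≤ 4) hA.le) hK0.le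
        linarith
      have h3 : f i ≤ √X := Real.le_sqrt_of_sq_le h2
      rw [hΛdef]
      nlinarith
    omega
  set E : ℕ → ℝ := EE f Λ with hEdef
  have hE : ∀ j, 0 ≤ E j := EE_nonneg hΛ
  have hE0 : E 0 ≤ d := by
    have := EE_zero_le hf hΛ hg
    rwa [hcard] at this
  have hEs : ∀ M, ∑ j ∈ range M, E j ≤ 4 * (Fintype.card (Fin d) : ℝ) := EE_sum_le hf hΛ
  have hKK0 : KK E 0 ≤ 2 ^ 37 * ((d:ℝ) + 1) := by
    unfold KK
    linarith
  have hsq0 : √(KK E 0) ≤ √(2 ^ 37 * ((d:ℝ) + 1)) := Real.sqrt_le_sqrt hKK0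
  have htau0 : tau A0 (phi f Λ) E 0 ≤ 1 / 4 := by
    unfold tau
    rw [hφ0, hΛ2, div_le_iff₀ (by positivity)]
    have h1 : A0 * √(KK E 0) ≤ A0 * √(2 ^ 37 * ((d:ℝ) + 1)) :=
      mul_le_mul_of_nonneg_left hsq0 hA.le
    have h2 : 4 * A0 * √(2 ^ 37 * ((d:ℝ) + 1)) ≤ X := by linarith
    nlinarith
  obtain ⟨J, m, al, hm0, hmono, hG1, hG2, he, hal⟩ :=
    core (A0 := A0) (φ := phi f Λ) (E := E) hA0 (phi_pos hΛ) hE
      (fun j => by
        have := phi_step_le (phi_pos (f := f) hΛ) (phi_succ_le hf hΛ) j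
        linarith)
      (EE_succ_le hf hΛ) (EE_le_succ hf hΛ) (exists_phi_lt hf hΛ one_pos) htau0
      (fun j => nn f Λ (j + 1) - nn f Λ j) (phi_ratio hf hΛ) (run_len hf hΛ)
  set D := mkD v f Λ J hv hf hΛ with hD
  have hGam : ∀ j, j ≤ J → D.Gam m j = (1 / 2 : ℝ) ^ m j * phi f Λ j ^ 2 := fun j _ => rfl
  have hGnn : ∀ j, 0 ≤ D.Gam m j := fun j => by
    have := D.hφ j
    unfold Data.Gam
    positivity
  have hGamsq : ∀ j, j ≤ D.top → D.Gam m j ^ 2 ≤ L * (E j + 1) := by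
    intro j hj
    have h1 := hG2 j hj
    have h2 := hGnn j
    have h3 : D.Gam m j ≤ 2 * (A0 * √(KK E j)) := h1
    have h4 := Real.sq_sqrt (by linarith [one_le_KK hE j] : 0 ≤ KK E j)
    have h5 : D.Gam m j ^ 2 ≤ (2 * (A0 * √(KK E j))) ^ 2 := pow_le_pow_left₀ h2 h3 2
    have h6 : (2 * (A0 * √(KK E j))) ^ 2 = L * (E j + 1) := by
      rw [mul_pow, mul_pow, h4, hLdef]
      unfold KK
      ring
    rwa [h6] at h5
  refine ⟨D, m, al, rfl, rfl, ?_, ?_, ?_⟩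
  · have hgp1 : ∀ i, 1 ≤ D.gp i ∧ D.gp i ≤ D.top + 1 := by
      intro i
      have h1 := hg i
      show 1 ≤ min (gp0 f Λ i) (J + 1) ∧ min (gp0 f Λ i) (J + 1) ≤ J + 1
      omega
    have hst : ∀ j, D.φ (j + 1) ≤ cc * D.φ j := phi_succ_le hf hΛ
    have hDs : ∀ i, ∑ u, D.v u i ^ 2 = D.f i ^ 2 := hsum
    refine
      { gp1 := hgp1
        φc := fun a => ?_
        Qsum := fun j hj => ?_
        m0 := hm0
        mono := hmono
        cap := fun j hj => ?_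
        Gam5 := fun j hj => ?_
        al1 := fun j hj => (hal j hj).1
        al2 := fun j hj => (hal j hj).2 }
    · have := hst a
      have e : cc * D.φ a = D.φ a / 2 ^ 15 := by unfold cc; ring
      linarith
    · rw [Qsum_eq D hDs j]
      exact WW_bound D J (fun i => (hgp1 i).2) (fun j _ => mk_F j) hst (J + 1 - j) j (by
        have : j ≤ J := hj
        omega)
    · have h1 := hG1 j hj
      have h2 : D.khat j ≤ E j := mk_khat_le j hj
      have h3 := he j hj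
      have h4 := hE j
      have h5 : D.khat j + ((m j - m (j + 1) : ℕ) : ℝ) + 1 ≤ KK E j := by
        unfold KK
        linarith
      have h6 := mul_le_mul_of_nonneg_left (Real.sqrt_le_sqrt h5) hA.le
      exact h6.trans h1
    · have hj1 : j + 1 ≤ J := hj
      have h1 : D.Gam m (j + 1) ≤ 2 * (A0 * √(KK E (j + 1))) := hG2 (j + 1) hj1
      have h2 : A0 * √(KK E j) ≤ D.Gam m j := hG1 j (by omega)
      have h3 := hGnn j
      have h4 : √(KK E (j + 1)) ≤ 2 * √(KK E j) := by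
        have h5 : 0 ≤ KK E j := by linarith [one_le_KK hE j]
        rw [Real.sqrt_le_iff]
        refine ⟨by positivity, ?_⟩
        rw [mul_pow, Real.sq_sqrt h5]
        have h6 : E (j + 1) ≤ 4 * E j := EE_succ_le hf hΛ j
        unfold KK
        nlinarith
      have h5 := mul_le_mul_of_nonneg_left h4 hA.le
      nlinarith
  · have h1 := final_sum D m hE hL hGamsq hEs
    rw [hcard] at h1
    have h2 : 0 ≤ 2 ^ 20 * A0 * (d:ℝ) := by positivity
    nlinarith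
  · have h1 : D.Gam m 0 ≤ 2 * (A0 * √(KK E 0)) := hG2 0 (Nat.zero_le _)
    have h2 : √(2 ^ 37 * ((d:ℝ) + 1)) ≤ 2 ^ 19 * d := by
      rw [Real.sqrt_le_iff]
      refine ⟨by positivity, ?_⟩
      nlinarith
    have h3 : A0 * √(KK E 0) ≤ A0 * (2 ^ 19 * d) :=
      mul_le_mul_of_nonneg_left (hsq0.trans h2) hA.le
    have h4 : 0 ≤ (687 * C1 + 495 * L) * (d:ℝ) := by positivity
    nlinarith

end Vale.Agent.Lib.P262S
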