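import Vale.Agent.Lib.P262S.Refine1

open Finset Real

namespace Vale.Agent.Lib.P262S

/-! ### Arithmetic of the slots -/

/-- the slot of position `P` -/
def slot (W n P : ℕ) : ℕ := P * W / n

lemma slot_lt {W n P : ℕ} (hW : 0 < W) (hP : P < n) : slot W n P < W := by
  unfold slot
  rw [Nat.div_lt_iff_lt_mul (by omega)]
  calc P * W < n * W := Nat.mul_lt_mul_of_pos_right hP hW
    _ = W * n := Nat.mul_comm _ _

lemma slot_strict {W n P P' : ℕ} (hn : 0 < n) (hnW : n ≤ W) (h : P < P') :
    slot W n P < slot W n P' := by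
  unfold slot
  have h1 : (P + 1) * W ≤ P' * W := Nat.mul_le_mul_right W h
  have h2 : P * W + n ≤ P' * W := by
    have : (P + 1) * W = P * W + W := by ring
    omega
  have h3 : (P * W + n) / n ≤ P' * W / n := Nat.div_le_div_right h2
  rw [Nat.add_div_right _ hn] at h3
  omega

lemma slot_mul_le (W n P : ℕ) : slot W n P * n ≤ P * W := Nat.div_mul_le_self _ _

lemma lt_slot_mul {W n P : ℕ} (hn : 0 < n) : P * W < (slot W n P + 1) * n := by
  unfold slot
  have := Nat.lt_mul_div_succ (P * W) hn
  calc P * W < n * (P * W / n + 1) := this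
    _ = (P * W / n + 1) * n := Nat.mul_comm _ _

/-- an antitone predicate on an initial segment is an initial segment -/
lemma exists_initial (q : ℕ → Prop) (hq : ∀ P P', P < P' → q P' → q P) (n : ℕ) :
    ∃ k, k ≤ n ∧ ∀ P, P < n → (q P ↔ P < k) := by
  induction n with
  | zero => exact ⟨0, le_rfl, fun P hP => absurd hP (by omega)⟩
  | succ n ih =>
    obtain ⟨k, hk, h⟩ := ih
    by_cases hn : q n
    · refine ⟨n + 1, le_rfl, fun P hP => ?_⟩
      constructor
      · intro _
        exact hP
      · intro _
        rcases Nat.lt_or_ge P n with h1 | h1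
        · exact hq P n h1 hn
        · have : P = n := by omega
          rw [this]
          exact hn
    · refine ⟨k, by omega, fun P hP => ?_⟩
      rcases Nat.lt_or_ge P n with h1 | h1
      · exact h P h1
      · have e : P = n := by omega
        rw [e]
        constructor
        · intro h2
          exact absurd h2 hn
        · intro h2
          omega

/-- the count of slots before a time `r` follows the uniform rate -/
lemma count_bound {W n sp r k : ℕ} (hn : 0 < n) (hnW : n ≤ W) (hsp : 0 < sp)
    (hr : r < W * (2 * sp)) (hk : k ≤ n)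
    (h1 : ∀ P, P < k → (2 * slot W n P + 1) * sp < r)
    (h2 : ∀ P, k ≤ P → P < n → r ≤ (2 * slot W n P + 1) * sp) :
    |(k:ℝ) / n - (r:ℝ) / ((W * (2 * sp) : ℕ) : ℝ)| * n ≤ 3 / 2 := by
  have hn' : (0:ℝ) < n := by exact_mod_cast hn
  have hW' : (0:ℝ) < W := by
    have : 0 < W := by omega
    exact_mod_cast this
  have hsp' : (0:ℝ) < sp := by exact_mod_cast hsp
  have hnW' : (n:ℝ) ≤ W := by exact_mod_cast hnW
  have hw : (0:ℝ) < ((W * (2 * sp) : ℕ) : ℝ) := by
    push_cast
    positivity
  have e1 : |(k:ℝ) / n - (r:ℝ) / ((W * (2 * sp) : ℕ) : ℝ)| * n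
      = |(k:ℝ) - n * ((r:ℝ) / ((W * (2 * sp) : ℕ) : ℝ))| := by
    rw [← abs_of_pos hn', ← abs_mul, abs_of_pos hn']
    congr 1
    field_simp
  rw [e1, abs_le]
  have ewr : ∀ A : ℝ, n * (A / ((W * (2 * sp) : ℕ) : ℝ)) = n * A / (2 * W * sp) := by
    intro A
    push_cast
    field_simp
  have hden : (0:ℝ) < 2 * W * sp := by positivity
  rw [ewr]
  constructor
  · -- lower bound
    rcases Nat.lt_or_ge k n with hkn | hkn
    · have h3 := h2 k le_rfl hkn
      have h3' : (r:ℝ) ≤ (2 * (slot W n k : ℝ) + 1) * sp := by exact_mod_cast h3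
      have h4 : ((slot W n k : ℝ)) * n ≤ k * W := by exact_mod_cast slot_mul_le W n k
      have h5 : (n:ℝ) * r / (2 * W * sp) ≤ k + 1 / 2 := by
        rw [div_le_iff₀ hden]
        have h6 : (n:ℝ) * r ≤ n * ((2 * (slot W n k : ℝ) + 1) * sp) :=
          mul_le_mul_of_nonneg_left h3' hn'.le
        have h7 : (n:ℝ) * ((2 * (slot W n k : ℝ) + 1) * sp)
            = 2 * sp * ((slot W n k : ℝ) * n) + n * sp := by ring
        have h8 : 2 * (sp:ℝ) * ((slot W n k : ℝ) * n) ≤ 2 * sp * (k * W) :=
          mul_le_mul_of_nonneg_left h4 (by positivity)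
        have h9 : (n:ℝ) * sp ≤ W * sp := mul_le_mul_of_nonneg_right hnW' hsp'.le
        nlinarith
      linarith
    · have e : k = n := le_antisymm hk hkn
      have hr' : (r:ℝ) < W * (2 * sp) := by exact_mod_cast hr
      have h5 : (n:ℝ) * r / (2 * W * sp) ≤ k := by
        rw [div_le_iff₀ hden, e]
        have : (r:ℝ) ≤ 2 * W * sp := by linarith
        exact mul_le_mul_of_nonneg_left this hn'.le
      linarith
  · -- upper bound
    rcases Nat.eq_zero_or_pos k with h0 | h0
    · have : (0:ℝ) ≤ (n:ℝ) * r / (2 * W * sp) := by positivity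
      rw [h0]
      push_cast
      linarith
    · obtain ⟨P, rfl⟩ : ∃ P, k = P + 1 := ⟨k - 1, by omega⟩
      have h3 := h1 P (by omega)
      have h3' : (2 * (slot W n P : ℝ) + 1) * sp < r := by exact_mod_cast h3
      have h4 : (P:ℝ) * W < ((slot W n P : ℝ) + 1) * n := by exact_mod_cast lt_slot_mul hn
      have h5 : (P:ℝ) - 1 / 2 ≤ (n:ℝ) * r / (2 * W * sp) := by
        rw [le_div_iff₀ hden]
        have h6 : n * ((2 * (slot W n P : ℝ) + 1) * sp) ≤ (n:ℝ) * r :=
          mul_le_mul_of_nonneg_left h3'.le hn'.le
        have h7 : (n:ℝ) * ((2 * (slot W n P : ℝ) + 1) * sp)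
            = 2 * sp * (((slot W n P : ℝ) + 1) * n) - n * sp := by ring
        have h8 : 2 * (sp:ℝ) * ((P:ℝ) * W) ≤ 2 * sp * (((slot W n P : ℝ) + 1) * n) :=
          mul_le_mul_of_nonneg_left h4.le (by positivity)
        have h9 : (n:ℝ) * sp ≤ W * sp := mul_le_mul_of_nonneg_right hnW' hsp'.le
        nlinarith
      push_cast
      linarith

namespace Data
variable {ι I : Type} [Fintype ι] [Fintype I] [DecidableEq ι] [DecidableEq I] (D : Data ι I)

/-! ### JOB F: time slots for the newly heavy items -/

/-- For each block `i` (items `Ah` with `bl u = i`), order the items by `exists_order` and put the item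
of position `p` at slot `k = ⌊p W / n⌋` (`n = 2|Ah_i|+2`), at time `i*w+(2k+1)*sp` where `w = W*(2*sp)`.
`FA τ` is the sum of the items with time `< τ`. -/
theorem birth_slots (j : ℕ) (Ah : Finset ι) (hQ : ∀ u ∈ Ah, D.Qf j u ≤ 1) (bl : ι → ℕ) {W sp : ℕ}
    (hsp : 0 < sp) (hW : ∀ i, 2 * (Ah.filter fun u => bl u = i).card + 2 ≤ W) :
    ∃ TA : ι → ℕ, (∀ u ∈ Ah, ∃ k, k < W ∧ TA u = bl u * (W * (2 * sp)) + (2 * k + 1) * sp) ∧
      Set.InjOn TA Ah ∧
      ∀ τ : ℕ, ∃ (i : ℕ) (κ : ℝ) (c : ι → ℝ),
        |κ| * (2 * ((Ah.filter fun u => bl u = i).card : ℝ) + 2) ≤ 3 / 2 ∧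
        D.Cert12 j (eP (2 * (Ah.filter fun u => bl u = i).card + 2)) (Ah.filter fun u => bl u = i) c ∧
        (fun x => ∑ u ∈ Ah.filter (fun u => TA u < τ), D.v u x)
            - LinT (fun τ' x => ∑ u ∈ Ah.filter (fun u => TA u < τ'), D.v u x) (W * (2 * sp)) τ
          = D.comb (Ah.filter fun u => bl u = i) c
            + κ • (fun x => ∑ u ∈ Ah.filter (fun u => bl u = i), D.v u x) := by
  classical
  have hW2 : 2 ≤ W := by
    have := hW 0
    omega
  have hW0 : 0 < W := by omega
  set w := W * (2 * sp) with hw
  have hw0 : 0 < w := by positivity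
  let Af : ℕ → Finset ι := fun i => Ah.filter fun u => bl u = i
  let n : ℕ → ℕ := fun i => 2 * (Af i).card + 2
  have hn0 : ∀ i, 0 < n i := fun i => by simp only [n]; omega
  have hnW : ∀ i, n i ≤ W := fun i => hW i
  have hsub : ∀ i u, u ∈ Af i → u ∈ Ah := fun i u hu => (Finset.mem_filter.1 hu).1
  have hbl : ∀ i u, u ∈ Af i → bl u = i := fun i u hu => (Finset.mem_filter.1 hu).2
  have hmem : ∀ u, u ∈ Ah → u ∈ Af (bl u) := fun u hu => Finset.mem_filter.2 ⟨hu, rfl⟩
  have hex := fun i => exists_order D j (Af i) (fun u hu => hQ u (hsub i u hu))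
  choose p hp1 hp2 hp3 using hex
  let sl : ι → ℕ := fun u => slot W (n (bl u)) (p (bl u) u)
  have hsl : ∀ u ∈ Ah, sl u < W := fun u hu => slot_lt hW0 (hp1 (bl u) u (hmem u hu))
  let TA : ι → ℕ := fun u => bl u * w + (2 * sl u + 1) * sp
  -- time bounds
  have hTa : ∀ u ∈ Ah, (2 * sl u + 1) * sp < w := by
    intro u hu
    have h1 : 2 * sl u + 1 < 2 * W := by
      have := hsl u hu
      omega
    calc (2 * sl u + 1) * sp < 2 * W * sp := Nat.mul_lt_mul_of_pos_right h1 hsp
      _ = w := by rw [hw]; ring
  -- grid comparison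
  have hTgrid : ∀ u ∈ Ah, ∀ i, TA u < i * w ↔ bl u < i := by
    intro u hu i
    have h1 := hTa u hu
    constructor
    · intro h
      by_contra hcon
      have h2 : i ≤ bl u := by omega
      have h3 : i * w ≤ bl u * w := Nat.mul_le_mul_right w h2
      simp only [TA] at h
      omega
    · intro h
      have h2 : bl u + 1 ≤ i := h
      have h3 : (bl u + 1) * w ≤ i * w := Nat.mul_le_mul_right w h2
      have h4 : (bl u + 1) * w = bl u * w + w := by ring
      simp only [TA]
      omega
  refine ⟨TA, ?_, ?_, ?_⟩
  · intro u hu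
    exact ⟨sl u, hsl u hu, rfl⟩
  · intro u hu u' hu' he
    have hu0 : u ∈ Ah := hu
    have hu'0 : u' ∈ Ah := hu'
    have h1 := hTa u hu0
    have h2 := hTa u' hu'0
    have e : bl u * w + (2 * sl u + 1) * sp = bl u' * w + (2 * sl u' + 1) * sp := he
    have hbb : bl u = bl u' := by
      rcases lt_trichotomy (bl u) (bl u') with h | h | h
      · have h3 : (bl u + 1) * w ≤ bl u' * w := Nat.mul_le_mul_right w h
        have h4 : (bl u + 1) * w = bl u * w + w := by ring
        omega
      · exact h
      · have h3 : (bl u' + 1) * w ≤ bl u * w := Nat.mul_le_mul_right w h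
        have h4 : (bl u' + 1) * w = bl u' * w + w := by ring
        omega
    have h3 : (2 * sl u + 1) * sp = (2 * sl u' + 1) * sp := by
      rw [hbb] at e
      omega
    have h4 : 2 * sl u + 1 = 2 * sl u' + 1 := Nat.eq_of_mul_eq_mul_right hsp h3
    have h5 : sl u = sl u' := by omega
    have hu2 : u ∈ Af (bl u) := hmem u hu0
    have hu'2 : u' ∈ Af (bl u) := by
      rw [hbb]
      exact hmem u' hu'0
    have h6 : slot W (n (bl u)) (p (bl u) u) = slot W (n (bl u)) (p (bl u) u') := by
      have : sl u' = slot W (n (bl u)) (p (bl u) u') := by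
        simp only [sl]
        rw [hbb]
      rw [← this]
      exact h5
    have h7 : p (bl u) u = p (bl u) u' := by
      rcases lt_trichotomy (p (bl u) u) (p (bl u) u') with h | h | h
      · have := slot_strict (W := W) (hn0 (bl u)) (hnW (bl u)) h
        omega
      · exact h
      · have := slot_strict (W := W) (hn0 (bl u)) (hnW (bl u)) h
        omega
    exact hp2 (bl u) hu2 hu'2 h7
  · intro τ
    set i := τ / w with hi
    set r := τ % w with hr
    have hτ : τ = i * w + r := by
      rw [hi, hr, Nat.mul_comm]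
      exact (Nat.div_add_mod τ w).symm
    have hrw : r < w := Nat.mod_lt _ hw0
    -- the number of positions before `r`
    obtain ⟨k, hk, hkq⟩ := exists_initial (fun P => (2 * slot W (n i) P + 1) * sp < r)
      (by
        intro P P' hPP' h
        have := slot_strict (W := W) (hn0 i) (hnW i) hPP'
        have h2 : (2 * slot W (n i) P + 1) * sp ≤ (2 * slot W (n i) P' + 1) * sp :=
          Nat.mul_le_mul_right sp (by omega)
        exact lt_of_le_of_lt h2 h)
      (n i)
    have hcount := count_bound (W := W) (n := n i) (sp := sp) (r := r) (k := k) (hn0 i) (hnW i) hsp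
      hrw hk (fun P hP => (hkq P (by omega)).2 hP)
      (fun P hP1 hP2 => by
        have := (hkq P hP2).not.2 (by omega)
        omega)
    have hnr : (((n i : ℕ) : ℝ)) = 2 * ((Af i).card : ℝ) + 2 := by
      simp only [n]
      push_cast
      ring
    refine ⟨i, (k:ℝ) / (n i : ℝ) - (r:ℝ) / ((w : ℕ) : ℝ),
      fun u => (if p i u < k then (1:ℝ) else 0) - (k:ℝ) / ((n i : ℕ) : ℝ), ?_, ?_, ?_⟩
    · have e : (2 * ((Af i).card : ℝ) + 2) = (n i : ℝ) := hnr.symm
      change |(k:ℝ) / (n i : ℝ) - (r:ℝ) / ((w : ℕ) : ℝ)| * (2 * ((Af i).card : ℝ) + 2) ≤ 3 / 2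
      rw [e]
      exact hcount
    · exact hp3 i k hk
    · -- membership at time τ
      have hTτ : ∀ u ∈ Ah, TA u < τ ↔ bl u < i ∨ (bl u = i ∧ p i u < k) := by
        intro u hu
        have h1 := hTa u hu
        rcases lt_trichotomy (bl u) i with h | h | h
        · have h3 : (bl u + 1) * w ≤ i * w := Nat.mul_le_mul_right w h
          have h4 : (bl u + 1) * w = bl u * w + w := by ring
          constructor
          · intro _
            exact Or.inl h
          · intro _
            simp only [TA]
            omega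
        · have hmemi : u ∈ Af i := by
            rw [← h]
            exact hmem u hu
          have hlt : p i u < n i := hp1 i u hmemi
          have hq := hkq (p i u) hlt
          have e : TA u = i * w + (2 * slot W (n i) (p i u) + 1) * sp := by
            simp only [TA, sl, h]
          constructor
          · intro h2
            right
            refine ⟨h, hq.1 ?_⟩
            omega
          · rintro (h2 | ⟨_, h2⟩)
            · omega
            · have := hq.2 h2
              omega
        · have h3 : (i + 1) * w ≤ bl u * w := Nat.mul_le_mul_right w h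
          have h4 : (i + 1) * w = i * w + w := by ring
          constructor
          · intro h2
            simp only [TA] at h2
            omega
          · rintro (h2 | ⟨h2, _⟩) <;> omega
      funext x
      have hFi : ∀ i', (∑ u ∈ Ah.filter (fun u => TA u < i' * w), D.v u x)
          = ∑ u ∈ Ah, if bl u < i' then D.v u x else 0 := by
        intro i'
        rw [Finset.sum_filter]
        apply Finset.sum_congr rfl
        intro u hu
        simp only [hTgrid u hu i']
      have hFτ : (∑ u ∈ Ah.filter (fun u => TA u < τ), D.v u x)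
          = (∑ u ∈ Ah, if bl u < i then D.v u x else 0)
            + ∑ u ∈ Af i, if p i u < k then D.v u x else 0 := by
        rw [Finset.sum_filter, Finset.sum_filter, ← Finset.sum_add_distrib]
        apply Finset.sum_congr rfl
        intro u hu
        by_cases h1 : bl u < i
        · have : TA u < τ := (hTτ u hu).2 (Or.inl h1)
          have h2 : ¬ bl u = i := by omega
          simp [this, h1, h2]
        · by_cases h2 : bl u = i
          · by_cases h3 : p i u < k
            · have : TA u < τ := (hTτ u hu).2 (Or.inr ⟨h2, h3⟩)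
              simp [this, h1, h2, h3]
            · have : ¬ TA u < τ := fun h => by
                rcases (hTτ u hu).1 h with h4 | ⟨_, h4⟩
                · exact h1 h4
                · exact h3 h4
              simp [this, h1, h2, h3]
          · have : ¬ TA u < τ := fun h => by
              rcases (hTτ u hu).1 h with h4 | ⟨h4, _⟩
              · exact h1 h4
              · exact h2 h4
            simp [this, h1, h2]
      have hstep : (∑ u ∈ Ah, if bl u < i + 1 then D.v u x else 0)
          - (∑ u ∈ Ah, if bl u < i then D.v u x else 0) = ∑ u ∈ Af i, D.v u x := by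
        rw [← Finset.sum_sub_distrib, Finset.sum_filter]
        apply Finset.sum_congr rfl
        intro u _
        by_cases h1 : bl u < i
        · have h2 : bl u < i + 1 := by omega
          have h3 : ¬ bl u = i := by omega
          simp [h1, h2, h3]
        · by_cases h3 : bl u = i
          · have h2 : bl u < i + 1 := by omega
            simp [h1, h2, h3]
          · have h2 : ¬ bl u < i + 1 := by omega
            simp [h1, h2, h3]
      have hLin : LinT (fun τ' x => ∑ u ∈ Ah.filter (fun u => TA u < τ'), D.v u x) w τ x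
          = (∑ u ∈ Ah, if bl u < i then D.v u x else 0)
            + ((r:ℝ) / (w:ℝ)) * ∑ u ∈ Af i, D.v u x := by
        unfold LinT
        simp only [Pi.add_apply, Pi.smul_apply, Pi.sub_apply, smul_eq_mul]
        rw [hFi, hFi, hstep]
      simp only [Pi.sub_apply, Pi.add_apply, Pi.smul_apply, smul_eq_mul]
      rw [hFτ, hLin]
      unfold Data.comb
      have hsplit : ∑ u ∈ Af i, ((if p i u < k then (1:ℝ) else 0) - (k:ℝ) / ((n i : ℕ) : ℝ)) * D.v u x
          = (∑ u ∈ Af i, if p i u < k then D.v u x else 0)
            - (k:ℝ) / ((n i : ℕ) : ℝ) * ∑ u ∈ Af i, D.v u x := by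
        rw [Finset.mul_sum, ← Finset.sum_sub_distrib]
        apply Finset.sum_congr rfl
        intro u _
        split_ifs <;> ring
      rw [hsplit]
      ring

end Data

end Vale.Agent.Lib.P262S
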