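import Vale.Agent.Lib.P262S.RefineB
import Vale.Agent.Lib.P262S.SchDefs
import Vale.Agent.Lib.P262S.Slots
import Vale.Agent.Lib.P262S.Concat
import Vale.Agent.Lib.P262S.Schedule

section
open Finset Real

namespace Vale.Agent.Lib.P262S

set_option linter.unusedSectionVars false
set_option linter.unusedVariables false

/-- share at stage `j` -/
noncomputable def tt (m : ℕ → ℕ) (j : ℕ) : ℝ := (1 / 2 : ℝ) ^ (m j)

section Gen
variable {E : Type} [AddCommGroup E] [Module ℝ E]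

lemma AffOn.refine {R : ℕ → E} {b w : ℕ} (hR : AffOn R (b * w)) (hb : 0 < b) (hw : 0 < w) :
    AffOn R w := by
  intro i k hk
  have hbr : (b:ℝ) ≠ 0 := by positivity
  have hwr : (w:ℝ) ≠ 0 := by positivity
  set i0 := i / b with hi0
  set l := i % b with hl
  have hl1 : l < b := Nat.mod_lt _ hb
  have hi : i = i0 * b + l := by
    rw [hi0, hl, Nat.div_add_mod']
  have e1 : i * w + k = i0 * (b * w) + (l * w + k) := by
    rw [hi]
    ring
  have e2 : i * w = i0 * (b * w) + l * w := by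
    rw [hi]
    ring
  have e3 : (i + 1) * w = i0 * (b * w) + (l + 1) * w := by
    rw [hi]
    ring
  have hl2 : (l + 1) * w ≤ b * w := Nat.mul_le_mul_right _ hl1
  have e4 : (l + 1) * w = l * w + w := by ring
  have h1 := hR i0 (l * w + k) (by omega)
  have h2 := hR i0 (l * w) (by omega)
  have h3 := hR i0 ((l + 1) * w) hl2
  rw [e1, e2, e3, h1, h2, h3]
  set Δ := R ((i0 + 1) * (b * w)) - R (i0 * (b * w))
  push_cast
  have e5 : ((l:ℝ) * w + k) / (b * w) = (l:ℝ) * w / (b * w) + (k:ℝ) / w * (1 / b) := by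
    field_simp
  have e6 : ((l:ℝ) + 1) * w / (b * w) = (l:ℝ) * w / (b * w) + 1 / b := by
    field_simp
  rw [e5, e6]
  module

lemma AffOn.add {R S : ℕ → E} {w : ℕ} (hR : AffOn R w) (hS : AffOn S w) :
    AffOn (fun τ => R τ + S τ) w := by
  intro i k hk
  simp only
  rw [hR i k hk, hS i k hk]
  module

lemma LinT_add (F G : ℕ → E) (w τ : ℕ) :
    LinT (fun t => F t + G t) w τ = LinT F w τ + LinT G w τ := by
  unfold LinT
  module

end Gen

section Fixes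
variable {ι I : Type} [Fintype I]

lemma Sm_diff {E : Type} [AddCommGroup E] (S : Finset ι) (T : ι → ℕ) (g : ι → E) {τ₁ τ₂ : ℕ}
    (h : τ₁ ≤ τ₂) :
    Sm S T g τ₂ - Sm S T g τ₁ = ∑ u ∈ S.filter (fun u => τ₁ ≤ T u ∧ T u < τ₂), g u := by
  classical
  unfold Sm
  rw [sub_eq_iff_eq_add, ← Finset.sum_union]
  · apply Finset.sum_congr _ (fun _ _ => rfl)
    ext u
    simp only [mem_filter, mem_union]
    constructor
    · rintro ⟨h1, h2⟩
      by_cases h3 : T u < τ₁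
      · exact Or.inr ⟨h1, h3⟩
      · exact Or.inl ⟨h1, by omega, h2⟩
    · rintro (⟨h1, _, h2⟩ | ⟨h1, h2⟩)
      · exact ⟨h1, h2⟩
      · exact ⟨h1, by omega⟩
  · rw [Finset.disjoint_left]
    intro u hu hu'
    simp only [mem_filter] at hu hu'
    omega

/-- seminorm bound for a difference of partial list sums by the count -/
lemma wn_Sm_diff {w₀ : I → ℝ} (hw : ∀ i, 0 ≤ w₀ i) (S : Finset ι) (T : ι → ℕ) (g : ι → I → ℝ)
    {ρ : ℝ} (hρ : ∀ u ∈ S, wn w₀ (g u) ≤ ρ) {τ₁ τ₂ : ℕ} (h : τ₁ ≤ τ₂) :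
    wn w₀ (Sm S T g τ₂ - Sm S T g τ₁)
      ≤ ((S.filter (fun u => τ₁ ≤ T u ∧ T u < τ₂)).card : ℝ) * ρ := by
  rw [Sm_diff S T g h]
  refine (wn_sum_le hw _ _).trans ?_
  rw [← nsmul_eq_mul]
  apply Finset.sum_le_card_nsmul
  intro u hu
  exact hρ u (Finset.mem_filter.1 hu).1

/-- deviation of a partial list sum from its linear interpolation -/
lemma wn_fix_dev {w₀ : I → ℝ} (hw : ∀ i, 0 ≤ w₀ i) (S : Finset ι) (T : ι → ℕ) (g : ι → I → ℝ)
    {ρ c : ℝ} (hρ : ∀ u ∈ S, wn w₀ (g u) ≤ ρ) (hρ0 : 0 ≤ ρ) {W : ℕ} (hW : 0 < W)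
    (hc : ∀ i, ((S.filter (fun u => i * W ≤ T u ∧ T u < (i + 1) * W)).card : ℝ) ≤ c) (τ : ℕ) :
    wn w₀ (Sm S T g τ - LinT (Sm S T g) W τ) ≤ c * ρ := by
  set i := τ / W with hi
  set k := τ % W with hk
  have hτ : τ = i * W + k := by
    rw [hi, hk, Nat.div_add_mod']
  have hk1 : k < W := Nat.mod_lt _ hW
  have hWr : (0:ℝ) < W := by positivity
  set f : ℝ := (k:ℝ) / W with hf
  have hf0 : 0 ≤ f := by positivity
  have hf1 : f ≤ 1 := by
    rw [hf, div_le_one hWr]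
    exact_mod_cast hk1.le
  have h1 : i * W ≤ τ := by omega
  have h2 : τ ≤ (i + 1) * W := by
    have : (i + 1) * W = i * W + W := by ring
    omega
  have e : Sm S T g τ - LinT (Sm S T g) W τ
      = (1 - f) • (Sm S T g τ - Sm S T g (i * W)) - f • (Sm S T g ((i + 1) * W) - Sm S T g τ) := by
    unfold LinT
    rw [← hi, ← hk]
    module
  rw [e]
  have hb1 : wn w₀ (Sm S T g τ - Sm S T g (i * W)) ≤ c * ρ := by
    refine (wn_Sm_diff hw S T g hρ h1).trans (mul_le_mul_of_nonneg_right ?_ hρ0)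
    refine le_trans ?_ (hc i)
    apply Nat.cast_le.2
    apply Finset.card_le_card
    intro u hu
    simp only [mem_filter] at hu ⊢
    exact ⟨hu.1, hu.2.1, by omega⟩
  have hb2 : wn w₀ (Sm S T g ((i + 1) * W) - Sm S T g τ) ≤ c * ρ := by
    refine (wn_Sm_diff hw S T g hρ h2).trans (mul_le_mul_of_nonneg_right ?_ hρ0)
    refine le_trans ?_ (hc i)
    apply Nat.cast_le.2
    apply Finset.card_le_card
    intro u hu
    simp only [mem_filter] at hu ⊢
    exact ⟨hu.1, by omega, hu.2.2⟩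
  refine (wn_sub_le hw _ _).trans ?_
  rw [wn_smul, wn_smul, abs_of_nonneg (by linarith : 0 ≤ 1 - f), abs_of_nonneg hf0]
  nlinarith

/-- increments of a partial list sum over a block -/
lemma wn_fix_inc {w₀ : I → ℝ} (hw : ∀ i, 0 ≤ w₀ i) (S : Finset ι) (T : ι → ℕ) (g : ι → I → ℝ)
    {ρ c : ℝ} (hρ : ∀ u ∈ S, wn w₀ (g u) ≤ ρ) (hρ0 : 0 ≤ ρ) {W : ℕ}
    (hc : ∀ i, ((S.filter (fun u => i * W ≤ T u ∧ T u < (i + 1) * W)).card : ℝ) ≤ c) (i : ℕ) :
    wn w₀ (Sm S T g ((i + 1) * W) - Sm S T g (i * W)) ≤ c * ρ := by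
  have h2 : i * W ≤ (i + 1) * W := Nat.mul_le_mul_right _ (by omega)
  exact (wn_Sm_diff hw S T g hρ h2).trans (mul_le_mul_of_nonneg_right (hc i) hρ0)

/-- counting multiples in a block -/
lemma count_block (S : Finset ι) (T : ι → ℕ) {g L : ℕ} (hg : 0 < g) (hinj : Set.InjOn T (↑S))
    (hd : ∀ u ∈ S, g ∣ T u) (a : ℕ) (ha : g ∣ a) :
    (S.filter (fun u => a ≤ T u ∧ T u < a + L * g)).card ≤ L := by
  classical
  obtain ⟨a', rfl⟩ := ha
  have hmap : ∀ u ∈ S.filter (fun u => g * a' ≤ T u ∧ T u < g * a' + L * g),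
      T u / g - a' ∈ Finset.range L := by
    intro u hu
    rw [Finset.mem_filter] at hu
    obtain ⟨c, hc⟩ := hd u hu.1
    rw [Finset.mem_range]
    have h1 := hu.2.1
    have h2 := hu.2.2
    rw [hc] at h1 h2 ⊢
    rw [Nat.mul_div_cancel_left _ hg]
    have h3 : a' ≤ c := Nat.le_of_mul_le_mul_left h1 hg
    have h4 : c < a' + L := by
      have : g * c < g * (a' + L) := by
        calc g * c < g * a' + L * g := h2
          _ = g * (a' + L) := by ring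
      exact Nat.lt_of_mul_lt_mul_left this
    omega
  have hcard := Finset.card_le_card_of_injOn _ hmap (by
    intro u hu u' hu' he
    have hu1 := (Finset.mem_filter.1 (Finset.mem_coe.1 hu))
    have hu2 := (Finset.mem_filter.1 (Finset.mem_coe.1 hu'))
    obtain ⟨c, hc⟩ := hd u hu1.1
    obtain ⟨c', hc'⟩ := hd u' hu2.1
    apply hinj (Finset.mem_coe.2 hu1.1) (Finset.mem_coe.2 hu2.1)
    simp only at he
    have h1 := hu1.2.1
    have h2 := hu2.2.1
    rw [hc] at he h1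
    rw [hc'] at he h2
    rw [Nat.mul_div_cancel_left _ hg, Nat.mul_div_cancel_left _ hg] at he
    have h3 : a' ≤ c := Nat.le_of_mul_le_mul_left h1 hg
    have h4 : a' ≤ c' := Nat.le_of_mul_le_mul_left h2 hg
    have : c = c' := by omega
    rw [hc, hc', this])
  simpa using hcard

end Fixes

namespace Data
variable {ι I : Type} [Fintype ι] [Fintype I] [DecidableEq ι] [DecidableEq I] (D : Data ι I)

/-- closed form count bound -/
noncomputable def Xi (j' j : ℕ) : ℝ := D.φ j' ^ 2 / 2 ^ 26 * (1 + 2 * (1 / 2 : ℝ) ^ (j - j'))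

/-- closed form for increments of the reference -/
noncomputable def dU (m : ℕ → ℕ) (h j : ℕ) : ℝ := D.Gam m j * (1 / 2 : ℝ) ^ (h - j) / 2 ^ 20

/-- combined budget of a group -/
noncomputable def cU (m : ℕ → ℕ) (h j : ℕ) : ℝ :=
  √(C1 * (D.kap h + 4)) + (if h ≤ D.top then D.Gam m h else 0)
    + ∑ j' ∈ Finset.Ico j h, D.incU m h j'

/-- bound for the number of list items in a block at stage `j` -/
noncomputable def CntB (m : ℕ → ℕ) (j : ℕ) : ℝ := if j ≤ D.top then D.Gam m j / 2 ^ 21 else 0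

/-- invariants after stage `j` -/
structure Inv (m al : ℕ → ℕ) (A j : ℕ) (Lt : Finset ι) (bl T : ι → ℕ) : Prop where
  bl_lt : ∀ u ∈ Lt, bl u < 2 ^ m j
  Q_le : ∀ u ∈ Lt, D.Qf j u ≤ 1
  T_lt : ∀ u, u ∉ Lt → T u < 2 ^ A
  T_inj : Set.InjOn T (↑(Ltᶜ))
  T_dvd : ∀ u, u ∉ Lt → 2 ^ (A - (al j + 1)) ∣ T u
  cnt : ∀ i, (((Ltᶜ).filter (fun u => i * 2 ^ (A - m j) ≤ T u ∧ T u < (i + 1) * 2 ^ (A - m j))).card : ℝ)
    ≤ D.CntB m j
  fresh : ∀ a, a ≤ j → ∀ i, 0 < i → i < 2 ^ m j →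
    D.gn a (Sm Lt bl D.v i + Sm Ltᶜ T D.v (i * 2 ^ (A - m j)))
      ≤ C1 * (D.kap a + eR + ((j - a : ℕ) : ℝ))
  qform : ∀ x, ∀ i, i < 2 ^ m j → |Tot Lt bl (fun u => D.ip j u x ^ 2) i - tt m j * D.sqD j x|
    ≤ tt m j * (D.φ j / 4) * √(D.sq j x) * √(D.sqD j x)
  xb : ∀ j', j' ≤ j → j' ≤ D.top → ∀ i, i < 2 ^ m j → Tot Lt bl (D.chi j') i ≤ tt m j * D.Xi j' j
  uu : ∀ h, j < h → h ≤ D.top + 1 → ∃ (Rf : ℕ → I → ℝ) (a B : ℝ), AffOn Rf (2 ^ (A - m j)) ∧
    (∀ i, i ≤ 2 ^ m j → D.gr h (Sm Lt bl D.v i + Rf (i * 2 ^ (A - m j))) ≤ a) ∧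
    (∀ τ, D.gr h (Sm Ltᶜ T D.v τ - Rf τ) ≤ B) ∧
    (∀ i, i < 2 ^ m j → D.gr h (Rf ((i + 1) * 2 ^ (A - m j)) - Rf (i * 2 ^ (A - m j))) ≤ D.dU m h j) ∧
    a + B ≤ D.cU m h j

end Data

end Vale.Agent.Lib.P262S
end

section
open Finset Real

namespace Vale.Agent.Lib.P262S

set_option linter.unusedSectionVars false
set_option linter.unusedVariables false

namespace Data
variable {ι I : Type} [Fintype ι] [Fintype I] [DecidableEq ι] [DecidableEq I] {D : Data ι I}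

lemma wn_wh_v (D : Data ι I) (j : ℕ) (u : ι) : wn (D.wh j) (D.v u) ≤ 1 / D.φ j := by
  have hφ := D.hφ j
  apply Real.sqrt_le_iff.2
  refine ⟨by positivity, ?_⟩
  have h1 : ∀ i, D.wh j i * D.v u i ^ 2 ≤ D.v u i ^ 2 * (1 / D.φ j) ^ 2 := by
    intro i
    unfold wh
    by_cases hi : D.gp i ≤ j
    · simp only [hi, if_true]
      have h2 := D.φ_anti hi
      have h3 := D.hφ (D.gp i)
      rw [mul_comm]
      apply mul_le_mul_of_nonneg_left _ (sq_nonneg _)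
      rw [one_div, one_div, inv_pow]
      apply inv_anti₀ (by positivity)
      exact pow_le_pow_left₀ hφ.le h2 2
    · simp only [hi, if_false, zero_mul]
      positivity
  refine (Finset.sum_le_sum fun i _ => h1 i).trans ?_
  rw [← Finset.sum_mul]
  have h4 := D.hv u
  have h5 : (0:ℝ) ≤ (1 / D.φ j) ^ 2 := by positivity
  nlinarith

lemma gr_v_le_one (D : Data ι I) (h : ℕ) (u : ι) : D.gr h (D.v u) ≤ 1 := by
  apply Real.sqrt_le_iff.2
  refine ⟨by norm_num, ?_⟩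
  have h1 : ∀ i, D.wg h i * D.v u i ^ 2 ≤ D.v u i ^ 2 := by
    intro i
    unfold wg
    split_ifs
    · simp
    · simp only [zero_mul]
      positivity
  refine (Finset.sum_le_sum fun i _ => h1 i).trans ?_
  have := D.hv u
  linarith

/-- truncation to the coordinates of groups `≤ j` -/
noncomputable def trunc (D : Data ι I) (j : ℕ) (x : I → ℝ) : I → ℝ :=
  fun i => if D.gp i ≤ j then x i else 0

lemma ip_trunc (D : Data ι I) (j : ℕ) (u : ι) (x : I → ℝ) :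
    D.ip (j + 1) u (D.trunc j x) = D.ip j u x := by
  unfold ip trunc
  apply Finset.sum_congr rfl
  intro i _
  by_cases h : D.gp i ≤ j
  · have : D.gp i ≤ j + 1 := by omega
    simp [h, this]
  · simp [h]

lemma sq_trunc (D : Data ι I) (j : ℕ) (x : I → ℝ) : D.sq (j + 1) (D.trunc j x) = D.sq j x := by
  unfold sq trunc
  apply Finset.sum_congr rfl
  intro i _
  by_cases h : D.gp i ≤ j
  · have : D.gp i ≤ j + 1 := by omega
    simp [h, this]
  · simp [h]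

lemma sqD_trunc (D : Data ι I) (j : ℕ) (x : I → ℝ) : D.sqD (j + 1) (D.trunc j x) = D.sqD j x := by
  unfold sqD trunc
  apply Finset.sum_congr rfl
  intro i _
  by_cases h : D.gp i ≤ j
  · have : D.gp i ≤ j + 1 := by omega
    simp [h, this]
  · simp [h]

/-- whitening bound for a certificate of the previous stage -/
lemma Cert12.wh_bound_succ {j : ℕ} {e : ℝ} {S : Finset ι} {c : ι → ℝ}
    (hC : D.Cert12 (j + 1) e S c) (he : 0 ≤ e) :
    D.φ j * wn (D.wh j) (D.comb S c) ≤ √(C1 * (D.khat j + 2 * e + 3)) := by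
  have hC1 := C1_ge
  have hφ := D.hφ j
  apply Real.le_sqrt_of_sq_le
  rw [mul_pow, D.wh_sq]
  have h1 : ∑ a ∈ range (j + 1), D.gn a (D.comb S c) / D.φ a ^ 2
      ≤ C1 * ∑ a ∈ range (j + 1), (D.kap a + (e + 1) + ((j - a : ℕ) : ℝ)) / D.φ a ^ 2 := by
    rw [Finset.mul_sum]
    apply Finset.sum_le_sum
    intro a ha
    rw [Finset.mem_range] at ha
    have h2 := hC.c1 a (by omega)
    have e1 : ((j + 1 - a : ℕ) : ℝ) = ((j - a : ℕ) : ℝ) + 1 := by
      have : j + 1 - a = (j - a) + 1 := by omega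
      rw [this]
      push_cast
      ring
    rw [e1] at h2
    rw [← mul_div_assoc]
    apply div_le_div_of_nonneg_right _ (by positivity)
    refine h2.trans (le_of_eq ?_)
    ring
  have h3 := D.whiten_sum j (c := e + 1) (by linarith)
  calc D.φ j ^ 2 * ∑ a ∈ range (j + 1), D.gn a (D.comb S c) / D.φ a ^ 2
      ≤ D.φ j ^ 2 * (C1 * ∑ a ∈ range (j + 1), (D.kap a + (e + 1) + ((j - a : ℕ) : ℝ)) / D.φ a ^ 2) :=
        mul_le_mul_of_nonneg_left h1 (by positivity)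
    _ = C1 * (D.φ j ^ 2 * ∑ a ∈ range (j + 1), (D.kap a + (e + 1) + ((j - a : ℕ) : ℝ)) / D.φ a ^ 2) := by ring
    _ ≤ C1 * (D.khat j + 2 * e + 3) := by
        apply mul_le_mul_of_nonneg_left _ (by linarith)
        linarith

/-- group bound for a certificate of the previous stage, in unified form -/
lemma Cert12.gr_succ {j : ℕ} {e : ℝ} {S : Finset ι} {c : ι → ℝ}
    (hC : D.Cert12 (j + 1) e S c) {h : ℕ} (hh : j < h) :
    D.gr h (D.comb S c)
      ≤ √(C1 * ((1 / 4 : ℝ) ^ (h - (j + 1)) * (D.kap h + e + ((h - (j + 1) : ℕ) : ℝ)))) := by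
  apply D.gr_le_of_gn
  by_cases h1 : h = j + 1
  · subst h1
    have := hC.c1 (j + 1) le_rfl
    simpa using this
  · exact hC.c2 h (by omega)

/-- group bound of an item of the previous stage -/
lemma gr_v_succ (D : Data ι I) {j h : ℕ} (hh : j < h) {u : ι} (hu : D.Qf (j + 1) u ≤ 1) :
    D.gr h (D.v u) ≤ (1 / 2 : ℝ) ^ (h - (j + 1)) := by
  by_cases h1 : h = j + 1
  · subst h1
    simpa using D.gr_v_le_one (j + 1) u
  · have h2 : j + 1 < h := by omega
    apply Real.sqrt_le_iff.2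
    refine ⟨by positivity, ?_⟩
    have h3 := D.gn_v_le h2 u hu
    have h4 : D.chi (j + 1) u ≤ 1 := D.chi_le_one _ _
    have h5 := D.gr_sq h (D.v u)
    unfold gr at h5
    have h6 : wn (D.wg h) (D.v u) ^ 2 = ∑ i, D.wg h i * D.v u i ^ 2 := wn_sq (D.wg_nonneg h) _
    rw [← h6, h5]
    refine h3.trans ?_
    have e : ((1 / 2 : ℝ) ^ (h - (j + 1))) ^ 2 = (1 / 4 : ℝ) ^ (h - (j + 1)) := by
      rw [← pow_mul, mul_comm, pow_mul]
      norm_num
    rw [e]
    have : (0:ℝ) ≤ (1 / 4 : ℝ) ^ (h - (j + 1)) := by positivity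
    nlinarith

/-- the lights that stay, the heavy items -/
noncomputable def Hv (D : Data ι I) (j : ℕ) (Lt : Finset ι) : Finset ι := Lt.filter fun u => 1 < D.Qf j u
noncomputable def Ls (D : Data ι I) (j : ℕ) (Lt : Finset ι) : Finset ι := Lt.filter fun u => D.Qf j u ≤ 1

lemma Sm_split {E : Type} [AddCommGroup E] (Lt : Finset ι) (D : Data ι I) (j : ℕ) (key : ι → ℕ)
    (g : ι → E) (p : ℕ) :
    Sm Lt key g p = Sm (D.Ls j Lt) key g p + Sm (D.Hv j Lt) key g p := by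
  unfold Sm Ls Hv
  rw [← Finset.sum_union]
  · apply Finset.sum_congr _ (fun _ _ => rfl)
    ext u
    simp only [mem_filter, mem_union]
    by_cases h : D.Qf j u ≤ 1
    · simp [h, not_lt.2 h]
    · simp [h, not_le.1 h]
  · rw [Finset.disjoint_left]
    intro u hu hu'
    simp only [mem_filter] at hu hu'
    linarith [hu.1.2, hu'.1.2]

lemma Tot_split {E : Type} [AddCommGroup E] (Lt : Finset ι) (D : Data ι I) (j : ℕ) (key : ι → ℕ)
    (g : ι → E) (p : ℕ) :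
    Tot Lt key g p = Tot (D.Ls j Lt) key g p + Tot (D.Hv j Lt) key g p := by
  unfold Tot Ls Hv
  rw [← Finset.sum_union]
  · apply Finset.sum_congr _ (fun _ _ => rfl)
    ext u
    simp only [mem_filter, mem_union]
    by_cases h : D.Qf j u ≤ 1
    · simp [h, not_lt.2 h]
    · simp [h, not_le.1 h]
  · rw [Finset.disjoint_left]
    intro u hu hu'
    simp only [mem_filter] at hu hu'
    linarith [hu.1.2, hu'.1.2]

/-- new time function -/
noncomputable def T2 (D : Data ι I) (j : ℕ) (Lt : Finset ι) (T TA : ι → ℕ) (u : ι) : ℕ :=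
  if u ∈ D.Hv j Lt then TA u else T u

lemma compl_Ls (D : Data ι I) (j : ℕ) (Lt : Finset ι) :
    (D.Ls j Lt)ᶜ = Ltᶜ ∪ D.Hv j Lt := by
  ext u
  simp only [Ls, Hv, mem_compl, mem_filter, mem_union, not_and, not_le]
  by_cases h : u ∈ Lt <;> simp [h]

lemma Sm_T2 {E : Type} [AddCommGroup E] (D : Data ι I) (j : ℕ) (Lt : Finset ι) (T TA : ι → ℕ)
    (g : ι → E) (τ : ℕ) :
    Sm (D.Ls j Lt)ᶜ (D.T2 j Lt T TA) g τ = Sm Ltᶜ T g τ + Sm (D.Hv j Lt) TA g τ := by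
  unfold Sm
  rw [compl_Ls, Finset.filter_union, Finset.sum_union]
  · have e1 : (Ltᶜ).filter (fun u => D.T2 j Lt T TA u < τ) = (Ltᶜ).filter (fun u => T u < τ) := by
      apply Finset.filter_congr
      intro u hu
      have : u ∉ D.Hv j Lt := fun h => (Finset.mem_compl.1 hu) (Finset.mem_filter.1 h).1
      unfold T2
      rw [if_neg this]
    have e2 : (D.Hv j Lt).filter (fun u => D.T2 j Lt T TA u < τ)
        = (D.Hv j Lt).filter (fun u => TA u < τ) := by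
      apply Finset.filter_congr
      intro u hu
      unfold T2
      rw [if_pos hu]
    rw [e1, e2]
  · rw [Finset.disjoint_left]
    intro u hu hu'
    simp only [mem_filter, mem_compl] at hu hu'
    exact hu.1 (Finset.mem_filter.1 hu'.1).1

/-- a heavy item has count one -/
lemma card_Hv_le (D : Data ι I) (j : ℕ) (Lt : Finset ι) (bl : ι → ℕ) (i : ℕ) :
    (((D.Hv j Lt).filter fun u => bl u = i).card : ℝ) ≤ Tot Lt bl (D.chi j) i := by
  have h1 : (((D.Hv j Lt).filter fun u => bl u = i).card : ℝ)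
      = ∑ u ∈ (D.Hv j Lt).filter (fun u => bl u = i), D.chi j u := by
    rw [Finset.card_eq_sum_ones]
    push_cast
    apply Finset.sum_congr rfl
    intro u hu
    have h2 : 1 < D.Qf j u := (Finset.mem_filter.1 (Finset.mem_filter.1 hu).1).2
    unfold chi
    rw [min_eq_left h2.le]
  rw [h1]
  unfold Tot
  apply Finset.sum_le_sum_of_subset_of_nonneg
  · intro u hu
    simp only [mem_filter, Hv] at hu ⊢
    exact ⟨hu.1.1, hu.2⟩
  · intro u _ _
    exact D.chi_nonneg j u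

end Data

end Vale.Agent.Lib.P262S
end

section
open Finset Real

namespace Vale.Agent.Lib.P262S

set_option linter.unusedSectionVars false
set_option linter.unusedVariables false

namespace Data
variable {ι I : Type} [Fintype ι] [Fintype I] [DecidableEq ι] [DecidableEq I] {D : Data ι I}

lemma Cert12.mono {j : ℕ} {e e' : ℝ} {S : Finset ι} {c : ι → ℝ} (hC : D.Cert12 j e S c) (he : e ≤ e') :
    D.Cert12 j e' S c := by
  have hC1 := C1_ge
  constructor
  · intro a ha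
    refine (hC.c1 a ha).trans ?_
    apply mul_le_mul_of_nonneg_left _ (by linarith)
    linarith
  · intro h hh
    refine (hC.c2 h hh).trans ?_
    apply mul_le_mul_of_nonneg_left _ (by linarith)
    apply mul_le_mul_of_nonneg_left _ (by positivity)
    linarith

/-- the budget of the order lemma at stage `j`, for counts up to `n` -/
noncomputable def eO (n : ℝ) : ℝ := 4 + log (2 * n + 3)

lemma eP_le_eO {c : ℕ} {n : ℝ} (h : (c:ℝ) ≤ n) : eP (2 * c + 2) ≤ eO n := by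
  unfold eP eO
  have h1 : (0:ℝ) ≤ c := by positivity
  have h2 : ((2 * c + 2 : ℕ) : ℝ) + 1 = 2 * (c:ℝ) + 3 := by
    push_cast
    ring
  rw [h2]
  have := Real.log_le_log (by linarith) (by linarith : 2 * (c:ℝ) + 3 ≤ 2 * n + 3)
  linarith

lemma eO_nonneg {n : ℝ} (h : 0 ≤ n) : 0 ≤ eO n := by
  unfold eO
  have := Real.log_nonneg (by linarith : (1:ℝ) ≤ 2 * n + 3)
  linarith

lemma eP_nonneg' (n : ℕ) : 0 ≤ eP n := eP_nonneg n

section Slots
variable {Ah : Finset ι} {bl TA : ι → ℕ} {W sp : ℕ} {j : ℕ} {nb : ℝ}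

lemma Sm_eq_fun (Ah : Finset ι) (TA : ι → ℕ) (D : Data ι I) (τ : ℕ) :
    (fun x => ∑ u ∈ Ah.filter (fun u => TA u < τ), D.v u x) = Sm Ah TA D.v τ := by
  funext x
  unfold Sm
  rw [Finset.sum_apply]

/-- the slot times are in the right block -/
lemma FA_grid (hW : 0 < W) (hsp : 0 < sp)
    (hT : ∀ u ∈ Ah, ∃ k, k < W ∧ TA u = bl u * (W * (2 * sp)) + (2 * k + 1) * sp)
    {E : Type} [AddCommGroup E] (g : ι → E) (i : ℕ) :
    Sm Ah TA g (i * (W * (2 * sp))) = Sm Ah bl g i := by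
  unfold Sm
  apply Finset.sum_congr _ (fun _ _ => rfl)
  apply Finset.filter_congr
  intro u hu
  obtain ⟨k, hk, hk2⟩ := hT u hu
  rw [hk2]
  have h1 : (2 * k + 1) * sp < W * (2 * sp) := by
    have : (2 * k + 2) * sp ≤ (2 * W) * sp := Nat.mul_le_mul_right _ (by omega)
    have e1 : (2 * k + 2) * sp = (2 * k + 1) * sp + sp := by ring
    have e2 : (2 * W) * sp = W * (2 * sp) := by ring
    omega
  set w := W * (2 * sp) with hw
  constructor
  · intro h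
    by_contra hcon
    have h3 : i ≤ bl u := by omega
    have : i * w ≤ bl u * w := Nat.mul_le_mul_right _ h3
    omega
  · intro h
    have : (bl u + 1) * w ≤ i * w := Nat.mul_le_mul_right _ h
    have e : (bl u + 1) * w = bl u * w + w := by ring
    omega

/-- bound of the deviation in a seminorm -/
lemma DA_wn {w₀ : I → ℝ} (hw : ∀ i, 0 ≤ w₀ i)
    {X : ℝ} {ρ : ℝ} (hρ : ∀ u ∈ Ah, wn w₀ (D.v u) ≤ ρ) (hρ0 : 0 ≤ ρ)
    {F : I → ℝ} {i : ℕ} {κ : ℝ} {c : ι → ℝ}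
    (h1 : |κ| * (2 * ((Ah.filter fun u => bl u = i).card : ℝ) + 2) ≤ 3 / 2)
    (hX : wn w₀ (D.comb (Ah.filter fun u => bl u = i) c) ≤ X)
    (h2 : F = D.comb (Ah.filter fun u => bl u = i) c
            + κ • (fun x => ∑ u ∈ Ah.filter (fun u => bl u = i), D.v u x)) :
    wn w₀ F ≤ X + 3 / 4 * ρ := by
  rw [h2]
  refine (wn_add_le hw _ _).trans (add_le_add hX ?_)
  rw [wn_smul]
  have e : (fun x => ∑ u ∈ Ah.filter (fun u => bl u = i), D.v u x)
      = ∑ u ∈ Ah.filter (fun u => bl u = i), D.v u := by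
    funext x
    rw [Finset.sum_apply]
  rw [e]
  have h3 : wn w₀ (∑ u ∈ Ah.filter (fun u => bl u = i), D.v u)
      ≤ ((Ah.filter fun u => bl u = i).card : ℝ) * ρ := by
    refine (wn_sum_le hw _ _).trans ?_
    rw [← nsmul_eq_mul]
    apply Finset.sum_le_card_nsmul
    intro u hu
    exact hρ u (Finset.mem_filter.1 hu).1
  set n := ((Ah.filter fun u => bl u = i).card : ℝ) with hn
  have hn0 : 0 ≤ n := by positivity
  have h4 : |κ| * n ≤ 3 / 4 := by
    have := abs_nonneg κ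
    nlinarith
  calc |κ| * wn w₀ (∑ u ∈ Ah.filter (fun u => bl u = i), D.v u) ≤ |κ| * (n * ρ) :=
        mul_le_mul_of_nonneg_left h3 (abs_nonneg _)
    _ = (|κ| * n) * ρ := by ring
    _ ≤ 3 / 4 * ρ := mul_le_mul_of_nonneg_right h4 hρ0

end Slots

end Data

end Vale.Agent.Lib.P262S
end

section
open Finset Real

namespace Vale.Agent.Lib.P262S

set_option linter.unusedSectionVars false
set_option linter.unusedVariables false

namespace Data
variable {ι I : Type} [Fintype ι] [Fintype I] [DecidableEq ι] [DecidableEq I] {D : Data ι I}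

/-- time arithmetic at stage `j` -/
structure TimeOK (m al : ℕ → ℕ) (A j : ℕ) : Prop where
  h1 : m j + 4 ≤ A
  h2 : m (j + 1) ≤ m j
  h3 : al j + 1 ≤ A
  h4 : m (j + 1) ≤ al j
  h5 : al (j + 1) + 1 ≤ al j

lemma TimeOK.w_eq {m al : ℕ → ℕ} {A j : ℕ} (h : TimeOK m al A j) :
    2 ^ (A - m (j + 1)) = 2 ^ (al j - m (j + 1)) * (2 * 2 ^ (A - al j - 1)) := by
  have := h.h1
  have := h.h2
  have := h.h3
  have := h.h4
  rw [show 2 * 2 ^ (A - al j - 1) = 2 ^ (A - al j - 1 + 1) by ring, ← pow_add]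
  congr 1
  omega

lemma TimeOK.w_eq2 {m al : ℕ → ℕ} {A j : ℕ} (h : TimeOK m al A j) :
    2 ^ (A - m (j + 1)) = 16 * 2 ^ (m j - m (j + 1)) * 2 ^ (A - m j - 4) := by
  have := h.h1
  have := h.h2
  rw [show (16:ℕ) = 2 ^ 4 by norm_num, ← pow_add, ← pow_add]
  congr 1
  omega

lemma TimeOK.w_eq3 {m al : ℕ → ℕ} {A j : ℕ} (h : TimeOK m al A j) :
    2 ^ (A - m j) = 16 * 2 ^ (A - m j - 4) := by
  have := h.h1
  rw [show (16:ℕ) = 2 ^ 4 by norm_num, ← pow_add]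
  congr 1
  omega

lemma TimeOK.M_eq {m al : ℕ → ℕ} {A j : ℕ} (h : TimeOK m al A j) :
    2 ^ m j = 2 ^ m (j + 1) * 2 ^ (m j - m (j + 1)) := by
  have := h.h2
  rw [← pow_add]
  congr 1
  omega

lemma Xi_succ (D : Data ι I) (j : ℕ) : D.Xi j (j + 1) = D.φ j ^ 2 / 2 ^ 25 := by
  unfold Xi
  have : j + 1 - j = 1 := by omega
  rw [this]
  norm_num
  ring

/-- the number of newly heavy items in a block -/
lemma Hv_card_le {m al : ℕ → ℕ} {A j : ℕ} {Lt : Finset ι} {bl T : ι → ℕ}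
    (hI : D.Inv m al A (j + 1) Lt bl T) (hj : j ≤ D.top) (i : ℕ) :
    (((D.Hv j Lt).filter fun u => bl u = i).card : ℝ) ≤ tt m (j + 1) * D.Xi j (j + 1) := by
  by_cases hi : i < 2 ^ m (j + 1)
  · exact (D.card_Hv_le j Lt bl i).trans (hI.xb j (by omega) hj i hi)
  · have h0 : (D.Hv j Lt).filter (fun u => bl u = i) = ∅ := by
      apply Finset.filter_eq_empty_iff.2
      intro u hu hb
      have := hI.bl_lt u (Finset.mem_filter.1 hu).1
      omega
    rw [h0]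
    simp only [Finset.card_empty, Nat.cast_zero]
    unfold tt Xi
    have := D.hφ j
    positivity

/-- the outcome of the slots -/
structure BOut (D : Data ι I) (m al : ℕ → ℕ) (A j : ℕ) (Lt : Finset ι) (bl TA : ι → ℕ) : Prop where
  hslot : ∀ u ∈ D.Hv j Lt, ∃ k, k < 2 ^ (al j - m (j + 1)) ∧
    TA u = bl u * 2 ^ (A - m (j + 1)) + (2 * k + 1) * 2 ^ (A - al j - 1)
  hinj : Set.InjOn TA (D.Hv j Lt)
  hdev : ∀ τ : ℕ, ∃ (i : ℕ) (κ : ℝ) (c : ι → ℝ),
    |κ| * (2 * (((D.Hv j Lt).filter fun u => bl u = i).card : ℝ) + 2) ≤ 3 / 2 ∧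
    D.Cert12 (j + 1) (eP (2 * ((D.Hv j Lt).filter fun u => bl u = i).card + 2))
      ((D.Hv j Lt).filter fun u => bl u = i) c ∧
    Sm (D.Hv j Lt) TA D.v τ - LinT (Sm (D.Hv j Lt) TA D.v) (2 ^ (A - m (j + 1))) τ
      = D.comb ((D.Hv j Lt).filter fun u => bl u = i) c
        + κ • (fun x => ∑ u ∈ (D.Hv j Lt).filter (fun u => bl u = i), D.v u x)

/-- existence of the slots, given a capacity -/
lemma birth_exists {m al : ℕ → ℕ} {A j : ℕ} {Lt : Finset ι} {bl T : ι → ℕ}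
    (hI : D.Inv m al A (j + 1) Lt bl T) (hT : TimeOK m al A j) (hj : j ≤ D.top)
    (hcap : 2 * (tt m (j + 1) * D.Xi j (j + 1)) + 2 ≤ ((2 ^ (al j - m (j + 1)) : ℕ) : ℝ)) :
    ∃ TA, BOut D m al A j Lt bl TA := by
  have hW : ∀ i, 2 * ((D.Hv j Lt).filter fun u => bl u = i).card + 2 ≤ 2 ^ (al j - m (j + 1)) := by
    intro i
    have h1 := Hv_card_le hI hj i
    have h2 : ((2 * ((D.Hv j Lt).filter fun u => bl u = i).card + 2 : ℕ) : ℝ)
        ≤ ((2 ^ (al j - m (j + 1)) : ℕ) : ℝ) := by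
      push_cast at hcap ⊢
      linarith
    exact_mod_cast h2
  have hsp : 0 < 2 ^ (A - al j - 1) := by positivity
  obtain ⟨TA, h1, h2, h3⟩ := D.birth_slots (j + 1) (D.Hv j Lt)
    (fun u hu => hI.Q_le u (Finset.mem_filter.1 hu).1) bl hsp hW
  refine ⟨TA, ?_, h2, ?_⟩
  · intro u hu
    obtain ⟨k, hk1, hk2⟩ := h1 u hu
    refine ⟨k, hk1, ?_⟩
    rw [hk2, hT.w_eq]
  · intro τ
    obtain ⟨i, κ, c, h4, h5, h6⟩ := h3 τ
    refine ⟨i, κ, c, h4, h5, ?_⟩
    have e1 : (fun x => ∑ u ∈ (D.Hv j Lt).filter (fun u => TA u < τ), D.v u x)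
        = Sm (D.Hv j Lt) TA D.v τ := Sm_eq_fun _ _ _ _
    have e2 : (fun τ' x => ∑ u ∈ (D.Hv j Lt).filter (fun u => TA u < τ'), D.v u x)
        = Sm (D.Hv j Lt) TA D.v := by
      funext τ'
      exact Sm_eq_fun _ _ _ _
    rw [e1, e2] at h6
    rw [hT.w_eq]
    exact h6

section After
variable {m al : ℕ → ℕ} {A j : ℕ} {Lt : Finset ι} {bl T TA : ι → ℕ}

lemma BOut.slot' (hB : BOut D m al A j Lt bl TA) (hT : TimeOK m al A j) :
    ∀ u ∈ D.Hv j Lt, ∃ k, k < 2 ^ (al j - m (j + 1)) ∧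
      TA u = bl u * (2 ^ (al j - m (j + 1)) * (2 * 2 ^ (A - al j - 1)))
        + (2 * k + 1) * 2 ^ (A - al j - 1) := by
  intro u hu
  obtain ⟨k, h1, h2⟩ := hB.hslot u hu
  refine ⟨k, h1, ?_⟩
  rw [h2, hT.w_eq]

lemma BOut.FA_grid (hB : BOut D m al A j Lt bl TA) (hT : TimeOK m al A j)
    {E : Type} [AddCommGroup E] (g : ι → E) (i : ℕ) :
    Sm (D.Hv j Lt) TA g (i * 2 ^ (A - m (j + 1))) = Sm (D.Hv j Lt) bl g i := by
  rw [hT.w_eq]
  exact Data.FA_grid (by positivity) (by positivity) (hB.slot' hT) g i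

/-- `P` is unchanged by a birth -/
lemma P_same (hB : BOut D m al A j Lt bl TA) (hT : TimeOK m al A j)
    {E : Type} [AddCommGroup E] (g : ι → E) (i : ℕ) :
    Sm (D.Ls j Lt) bl g i + Sm (D.Ls j Lt)ᶜ (D.T2 j Lt T TA) g (i * 2 ^ (A - m (j + 1)))
      = Sm Lt bl g i + Sm Ltᶜ T g (i * 2 ^ (A - m (j + 1))) := by
  rw [Sm_T2, hB.FA_grid hT, Sm_split Lt D j bl g i]
  abel

/-- new time bounds -/
lemma T2_lt (hI : D.Inv m al A (j + 1) Lt bl T) (hB : BOut D m al A j Lt bl TA)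
    (hT : TimeOK m al A j) {u : ι} (hu : u ∉ D.Ls j Lt) : D.T2 j Lt T TA u < 2 ^ A := by
  unfold T2
  by_cases hH : u ∈ D.Hv j Lt
  · rw [if_pos hH]
    obtain ⟨k, h1, h2⟩ := hB.slot' hT u hH
    have hb := hI.bl_lt u (Finset.mem_filter.1 hH).1
    have h3 : (2 * k + 1) * 2 ^ (A - al j - 1) < 2 ^ (al j - m (j + 1)) * (2 * 2 ^ (A - al j - 1)) := by
      have hp : 0 < 2 ^ (A - al j - 1) := by positivity
      have : (2 * k + 2) * 2 ^ (A - al j - 1) ≤ (2 * 2 ^ (al j - m (j + 1))) * 2 ^ (A - al j - 1) :=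
        Nat.mul_le_mul_right _ (by omega)
      have e1 : (2 * k + 2) * 2 ^ (A - al j - 1) = (2 * k + 1) * 2 ^ (A - al j - 1) + 2 ^ (A - al j - 1) := by ring
      have e2 : (2 * 2 ^ (al j - m (j + 1))) * 2 ^ (A - al j - 1) = 2 ^ (al j - m (j + 1)) * (2 * 2 ^ (A - al j - 1)) := by ring
      omega
    rw [h2]
    rw [← hT.w_eq] at h3 ⊢
    have h4 : (bl u + 1) * 2 ^ (A - m (j + 1)) ≤ 2 ^ m (j + 1) * 2 ^ (A - m (j + 1)) :=
      Nat.mul_le_mul_right _ hb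
    have e3 : 2 ^ m (j + 1) * 2 ^ (A - m (j + 1)) = 2 ^ A := by
      rw [← pow_add]
      congr 1
      have := hT.h1
      have := hT.h2
      omega
    have e4 : (bl u + 1) * 2 ^ (A - m (j + 1)) = bl u * 2 ^ (A - m (j + 1)) + 2 ^ (A - m (j + 1)) := by ring
    omega
  · rw [if_neg hH]
    have : u ∉ Lt := by
      intro h
      apply hu
      simp only [Ls, Hv, mem_filter, not_and, not_lt] at hH ⊢
      exact ⟨h, hH h⟩
    exact hI.T_lt u this

lemma not_mem_Lt_of (D : Data ι I) {u : ι} (hu : u ∉ D.Ls j Lt) (hH : u ∉ D.Hv j Lt) : u ∉ Lt := by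
  intro h
  apply hu
  simp only [Ls, Hv, mem_filter, not_and, not_lt] at hH ⊢
  exact ⟨h, hH h⟩

/-- divisibility of the old list times -/
lemma old_dvd (hI : D.Inv m al A (j + 1) Lt bl T) (hT : TimeOK m al A j) {u : ι} (hu : u ∉ Lt) :
    2 * 2 ^ (A - al j - 1) ∣ T u := by
  have h1 := hI.T_dvd u hu
  refine dvd_trans ?_ h1
  have h2 := hT.h5
  have h3 := hT.h3
  rw [show 2 * 2 ^ (A - al j - 1) = 2 ^ (A - al j - 1 + 1) by ring]
  apply pow_dvd_pow
  omega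

lemma T2_dvd (hI : D.Inv m al A (j + 1) Lt bl T) (hB : BOut D m al A j Lt bl TA)
    (hT : TimeOK m al A j) {u : ι} (hu : u ∉ D.Ls j Lt) :
    2 ^ (A - (al j + 1)) ∣ D.T2 j Lt T TA u := by
  have e : A - (al j + 1) = A - al j - 1 := by omega
  rw [e]
  unfold T2
  by_cases hH : u ∈ D.Hv j Lt
  · rw [if_pos hH]
    obtain ⟨k, h1, h2⟩ := hB.slot' hT u hH
    rw [h2]
    apply dvd_add
    · exact Dvd.dvd.mul_left (Dvd.dvd.mul_left (Dvd.intro_left 2 rfl) _) _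
    · exact Dvd.intro_left _ rfl
  · rw [if_neg hH]
    exact dvd_trans (Dvd.intro_left 2 rfl) (old_dvd hI hT (D.not_mem_Lt_of hu hH))

lemma T2_inj (hI : D.Inv m al A (j + 1) Lt bl T) (hB : BOut D m al A j Lt bl TA)
    (hT : TimeOK m al A j) : Set.InjOn (D.T2 j Lt T TA) (↑((D.Ls j Lt)ᶜ)) := by
  have hpar : ∀ u v, u ∈ D.Hv j Lt → v ∉ Lt → TA u ≠ T v := by
    intro u v hu hv he
    obtain ⟨k, h1, h2⟩ := hB.slot' hT u hu
    obtain ⟨c, hc⟩ := old_dvd hI hT hv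
    rw [h2, hc] at he
    set q := 2 ^ (A - al j - 1) with hq
    have hq0 : 0 < q := by positivity
    set W := 2 ^ (al j - m (j + 1))
    have e1 : bl u * (W * (2 * q)) + (2 * k + 1) * q = q * (2 * (bl u * W + k) + 1) := by ring
    have e2 : 2 * q * c = q * (2 * c) := by ring
    rw [e1, e2] at he
    have := Nat.eq_of_mul_eq_mul_left hq0 he
    omega
  intro u hu v hv he
  have hu' : u ∉ D.Ls j Lt := Finset.mem_compl.1 (Finset.mem_coe.1 hu)
  have hv' : v ∉ D.Ls j Lt := Finset.mem_compl.1 (Finset.mem_coe.1 hv)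
  unfold T2 at he
  by_cases h1 : u ∈ D.Hv j Lt <;> by_cases h2 : v ∈ D.Hv j Lt
  · rw [if_pos h1, if_pos h2] at he
    exact hB.hinj (Finset.mem_coe.2 h1) (Finset.mem_coe.2 h2) he
  · rw [if_pos h1, if_neg h2] at he
    exact absurd he (hpar u v h1 (D.not_mem_Lt_of hv' h2))
  · rw [if_neg h1, if_pos h2] at he
    exact absurd he.symm (hpar v u h2 (D.not_mem_Lt_of hu' h1))
  · rw [if_neg h1, if_neg h2] at he
    exact hI.T_inj (Finset.mem_coe.2 (Finset.mem_compl.2 (D.not_mem_Lt_of hu' h1)))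
      (Finset.mem_coe.2 (Finset.mem_compl.2 (D.not_mem_Lt_of hv' h2))) he

end After

end Data

end Vale.Agent.Lib.P262S
end

section
open Finset Real

namespace Vale.Agent.Lib.P262S

set_option linter.unusedSectionVars false
set_option linter.unusedVariables false

/-- the constant of the schedule -/
noncomputable def A00 : ℝ := 2 ^ 50 * C1

lemma A00_ge : (2:ℝ) ^ 40 ≤ A00 := by
  have := C1_ge
  unfold A00
  nlinarith [pow_pos (by norm_num : (0:ℝ) < 2) 40]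

lemma rt {X Y c : ℝ} (hX : 0 ≤ X) (hc : 0 ≤ c) (h : Y ≤ c ^ 2 * X) : √(C1 * Y) ≤ c * (C1 * √X) := by
  have hC := C1_ge
  apply Real.sqrt_le_iff.2
  refine ⟨by positivity, ?_⟩
  have e : (c * (C1 * √X)) ^ 2 = C1 ^ 2 * (c ^ 2 * X) := by
    rw [mul_pow, mul_pow, Real.sq_sqrt hX]
    ring
  rw [e]
  have h1 : 0 ≤ c ^ 2 * X := by positivity
  have h2 : C1 * Y ≤ C1 * (c ^ 2 * X) := mul_le_mul_of_nonneg_left h (by linarith)
  nlinarith

/-- the refinement exponent -/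
def ee (m : ℕ → ℕ) (j : ℕ) : ℕ := m j - m (j + 1)

/-- the refinement factor -/
def bb (m : ℕ → ℕ) (j : ℕ) : ℕ := 2 ^ ee m j

lemma bb_pos (m : ℕ → ℕ) (j : ℕ) : 0 < bb m j := by
  unfold bb
  positivity

lemma bb_cast (m : ℕ → ℕ) (j : ℕ) : ((bb m j : ℕ) : ℝ) = 2 ^ ee m j := by
  unfold bb
  push_cast
  rfl

lemma tt_pos (m : ℕ → ℕ) (j : ℕ) : 0 < tt m j := by
  unfold tt
  positivity

lemma tt_div {m : ℕ → ℕ} {j : ℕ} (h : m (j + 1) ≤ m j) : tt m (j + 1) / (bb m j : ℝ) = tt m j := by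
  rw [bb_cast]
  unfold tt ee
  have e : m j = m (j + 1) + (m j - m (j + 1)) := by omega
  conv_rhs => rw [e, pow_add]
  have : (1 / 2 : ℝ) ^ (m j - m (j + 1)) = 1 / 2 ^ (m j - m (j + 1)) := by
    rw [one_div, one_div, inv_pow]
  rw [this]
  ring

lemma tt_mul {m : ℕ → ℕ} {j : ℕ} (h : m (j + 1) ≤ m j) : tt m (j + 1) = tt m j * (bb m j : ℝ) := by
  rw [← tt_div h]
  have := bb_pos m j
  have h2 : (bb m j : ℝ) ≠ 0 := by positivity
  field_simp

lemma eP_bd (m : ℕ → ℕ) (j : ℕ) : eP (16 * bb m j) ≤ 9 + (ee m j : ℝ) := by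
  unfold eP
  have h1 : ((16 * bb m j : ℕ) : ℝ) + 1 ≤ 2 ^ (5 + ee m j) := by
    push_cast
    rw [bb_cast, pow_add]
    have : (1:ℝ) ≤ 2 ^ ee m j := one_le_pow₀ (by norm_num)
    nlinarith
  have h2 : log (((16 * bb m j : ℕ) : ℝ) + 1) ≤ log (2 ^ (5 + ee m j)) :=
    Real.log_le_log (by positivity) h1
  rw [Real.log_pow] at h2
  have h3 : log 2 ≤ 1 := by
    have := Real.log_two_lt_d9
    linarith
  have h4 : (0:ℝ) ≤ ((5 + ee m j : ℕ) : ℝ) := by positivity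
  have h5 := mul_le_mul_of_nonneg_left h3 h4
  push_cast at h2 h5 ⊢
  linarith

lemma eO_bd {nb Γ : ℝ} {e : ℕ} (hnb : nb = Γ * 2 ^ e / 2 ^ 25) (hΓ : 2 ^ 30 ≤ Γ) :
    Data.eO nb ≤ 3 + (e:ℝ) + Γ / 2 ^ 20 := by
  unfold Data.eO
  have hp : (1:ℝ) ≤ 2 ^ e := one_le_pow₀ (by norm_num)
  have hΓ0 : 0 < Γ := by linarith [pow_pos (by norm_num : (0:ℝ) < 2) 30]
  have h1 : 2 * nb + 3 ≤ 2 ^ e * (Γ / 2 ^ 20) := by
    rw [hnb]
    have : (3:ℝ) ≤ 2 ^ e * (Γ / 2 ^ 21) := by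
      have : (3:ℝ) ≤ Γ / 2 ^ 21 := by
        rw [le_div_iff₀ (by positivity)]
        norm_num at hΓ ⊢
        linarith
      nlinarith
    have e1 : 2 * (Γ * 2 ^ e / 2 ^ 25) = 2 ^ e * (Γ / 2 ^ 24) := by ring
    rw [e1]
    have e2 : 2 ^ e * (Γ / 2 ^ 20) = 2 ^ e * (Γ / 2 ^ 24) + 2 ^ e * (Γ / 2 ^ 21) + 2 ^ e * (Γ * (1 / 2 ^ 20 - 1 / 2 ^ 24 - 1 / 2 ^ 21)) := by ring
    rw [e2]
    have : 0 ≤ (2:ℝ) ^ e * (Γ * (1 / 2 ^ 20 - 1 / 2 ^ 24 - 1 / 2 ^ 21)) := by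
      apply mul_nonneg (by positivity)
      apply mul_nonneg hΓ0.le
      norm_num
    linarith
  have hnb0 : 0 ≤ nb := by
    rw [hnb]
    positivity
  have h2 : log (2 * nb + 3) ≤ log (2 ^ e * (Γ / 2 ^ 20)) :=
    Real.log_le_log (by positivity) h1
  rw [Real.log_mul (by positivity) (by positivity), Real.log_pow] at h2
  have h3 : log 2 ≤ 1 := by
    have := Real.log_two_lt_d9
    linarith
  have h4 : log (Γ / 2 ^ 20) ≤ Γ / 2 ^ 20 - 1 := Real.log_le_sub_one_of_pos (by positivity)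
  have h5 : (e:ℝ) * log 2 ≤ (e:ℝ) * 1 := mul_le_mul_of_nonneg_left h3 (by positivity)
  linarith

namespace Data
variable {ι I : Type} [Fintype ι] [Fintype I] [DecidableEq ι] [DecidableEq I] {D : Data ι I}
variable {m al : ℕ → ℕ} {A j : ℕ}

/-- the dimension term of stage `j` -/
noncomputable def XX (D : Data ι I) (m : ℕ → ℕ) (j : ℕ) : ℝ := D.khat j + (ee m j : ℝ) + 1

/-- the main square root of stage `j` -/
noncomputable def SS (D : Data ι I) (m : ℕ → ℕ) (j : ℕ) : ℝ := C1 * √(D.XX m j)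

/-- the bound for the number of newly heavy items in a block -/
noncomputable def nb (D : Data ι I) (m : ℕ → ℕ) (j : ℕ) : ℝ := tt m (j + 1) * D.Xi j (j + 1)

lemma XX_ge (D : Data ι I) (m : ℕ → ℕ) (j : ℕ) : 1 ≤ D.XX m j := by
  unfold XX
  have := D.khat_nonneg j
  have h : (0:ℝ) ≤ (ee m j : ℝ) := by positivity
  linarith

lemma XX_nonneg (D : Data ι I) (m : ℕ → ℕ) (j : ℕ) : 0 ≤ D.XX m j := by
  have := D.XX_ge m j
  linarith

lemma SS_ge (D : Data ι I) (m : ℕ → ℕ) (j : ℕ) : 1 ≤ D.SS m j := by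
  unfold SS
  have hC := C1_ge
  have h1 : 1 ≤ √(D.XX m j) := by
    rw [Real.one_le_sqrt]
    exact D.XX_ge m j
  nlinarith

lemma Gam_eq (D : Data ι I) (m : ℕ → ℕ) (j : ℕ) : D.Gam m j = tt m j * D.φ j ^ 2 := rfl

lemma Gam_pos (D : Data ι I) (m : ℕ → ℕ) (j : ℕ) : 0 < D.Gam m j := by
  rw [Gam_eq]
  have := tt_pos m j
  have := D.hφ j
  positivity

lemma SS_le (hS : D.SchOK m al A00) (hj : j ≤ D.top) : D.SS m j ≤ D.Gam m j / 2 ^ 50 := by
  have h := hS.cap j hj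
  rw [le_div_iff₀ (by positivity)]
  unfold SS XX ee
  unfold A00 at h
  linarith

lemma Gam_ge (hS : D.SchOK m al A00) (hj : j ≤ D.top) : 2 ^ 50 ≤ D.Gam m j := by
  have h1 := SS_le hS hj
  have h2 := D.SS_ge m j
  have : (1:ℝ) ≤ D.Gam m j / 2 ^ 50 := h2.trans h1
  rwa [le_div_iff₀ (by positivity), one_mul] at this

lemma nb_eq (hm : m (j + 1) ≤ m j) : D.nb m j = D.Gam m j * (bb m j : ℝ) / 2 ^ 25 := by
  unfold nb
  rw [Xi_succ, tt_mul hm, Gam_eq]
  ring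

lemma nb_nonneg (D : Data ι I) (m : ℕ → ℕ) (j : ℕ) : 0 ≤ D.nb m j := by
  unfold nb Xi
  have := tt_pos m (j + 1)
  have := D.hφ j
  positivity

lemma rt1 (D : Data ι I) (m : ℕ → ℕ) (j : ℕ) : √(C1 * (D.khat j + 11)) ≤ 4 * D.SS m j := by
  apply rt (D.XX_nonneg m j) (by norm_num)
  unfold XX
  have := D.khat_nonneg j
  have h : (0:ℝ) ≤ (ee m j : ℝ) := by positivity
  nlinarith

lemma rt2 (D : Data ι I) (m : ℕ → ℕ) (j : ℕ) :
    √(C1 * (D.khat j + 2 * eP (16 * bb m j) + 1)) ≤ 5 * D.SS m j := by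
  apply rt (D.XX_nonneg m j) (by norm_num)
  unfold XX
  have := D.khat_nonneg j
  have h : (0:ℝ) ≤ (ee m j : ℝ) := by positivity
  have h2 := eP_bd m j
  nlinarith

lemma rt4 (D : Data ι I) (m : ℕ → ℕ) (j : ℕ) :
    C1 * √(D.khat j + eP (16 * bb m j)) ≤ 3 * D.SS m j := by
  unfold SS
  have hC := C1_ge
  have h1 : √(D.khat j + eP (16 * bb m j)) ≤ 3 * √(D.XX m j) := by
    apply Real.sqrt_le_iff.2
    refine ⟨by positivity, ?_⟩
    rw [mul_pow, Real.sq_sqrt (D.XX_nonneg m j)]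
    unfold XX
    have := D.khat_nonneg j
    have h : (0:ℝ) ≤ (ee m j : ℝ) := by positivity
    have h2 := eP_bd m j
    nlinarith
  have := mul_le_mul_of_nonneg_left h1 (by linarith : 0 ≤ C1)
  linarith

lemma eO_nb (hS : D.SchOK m al A00) (hj : j ≤ D.top) :
    eO (D.nb m j) ≤ 3 + (ee m j : ℝ) + D.Gam m j / 2 ^ 20 := by
  apply eO_bd (nb_eq (hS.mono j hj) |>.trans ?_)
  · have := Gam_ge hS hj
    norm_num at this ⊢
    linarith
  · rw [bb_cast]

/-- the square root of the order budget -/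
lemma rt_sum {a b c d : ℝ} (ha : 0 ≤ a) (hb : 0 ≤ b) (hc : 0 ≤ c) (hd : 0 ≤ d)
    (h1 : √a ≤ c) (h2 : √b ≤ d) : √(a + b) ≤ c + d := by
  have h3 : √a ^ 2 = a := Real.sq_sqrt ha
  have h4 : √b ^ 2 = b := Real.sq_sqrt hb
  have h5 := Real.sqrt_nonneg a
  have h6 := Real.sqrt_nonneg b
  apply Real.sqrt_le_iff.2
  refine ⟨by positivity, ?_⟩
  have h7 : √a * √b ≤ c * d := mul_le_mul h1 h2 h6 hc
  nlinarith

lemma rt3 (hS : D.SchOK m al A00) (hj : j ≤ D.top) :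
    √(C1 * (D.khat j + 2 * eO (D.nb m j) + 3)) ≤ 3 * D.SS m j + D.Gam m j / 2 ^ 34 := by
  have hC := C1_ge
  have hΓ := D.Gam_pos m j
  have h0 := eO_nb hS hj
  have hk := D.khat_nonneg j
  have he : (0:ℝ) ≤ (ee m j : ℝ) := by positivity
  have hX := D.XX_nonneg m j
  have h1 : C1 * (D.khat j + 2 * eO (D.nb m j) + 3)
      ≤ C1 * (9 * D.XX m j) + C1 * (D.Gam m j / 2 ^ 19) := by
    rw [← mul_add]
    apply mul_le_mul_of_nonneg_left _ (by linarith)
    unfold XX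
    have e : D.Gam m j / 2 ^ 19 = 2 * (D.Gam m j / 2 ^ 20) := by ring
    rw [e]
    nlinarith
  refine (Real.sqrt_le_sqrt h1).trans ?_
  apply rt_sum (by positivity) (by positivity) (by have := D.SS_ge m j; linarith) (by positivity)
  · exact rt hX (by norm_num) (by nlinarith)
  · apply Real.sqrt_le_iff.2
    refine ⟨by positivity, ?_⟩
    have h2 : C1 ≤ D.Gam m j / 2 ^ 50 := by
      refine le_trans ?_ (SS_le hS hj)
      unfold SS
      have : 1 ≤ √(D.XX m j) := by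
        rw [Real.one_le_sqrt]
        exact D.XX_ge m j
      nlinarith
    have e : (D.Gam m j / 2 ^ 34) ^ 2 = (D.Gam m j / 2 ^ 49) * (D.Gam m j / 2 ^ 19) := by ring
    rw [e]
    apply mul_le_mul_of_nonneg_right _ (by positivity)
    refine h2.trans ?_
    apply div_le_div_of_nonneg_left hΓ.le (by positivity)
    norm_num

lemma CntB_le (hS : D.SchOK m al A00) (hj : j ≤ D.top) :
    0 ≤ D.CntB m (j + 1) ∧ D.CntB m (j + 1) ≤ 5 * D.Gam m j / 2 ^ 21 := by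
  unfold CntB
  have hΓ := D.Gam_pos m j
  by_cases h : j + 1 ≤ D.top
  · rw [if_pos h]
    have h1 := hS.Gam5 j (by omega)
    have := D.Gam_pos m (j + 1)
    constructor
    · positivity
    · apply div_le_div_of_nonneg_right h1 (by positivity)
  · rw [if_neg h]
    constructor
    · exact le_rfl
    · positivity

/-- the value of `g0` -/
lemma g0_ok (hS : D.SchOK m al A00) (hj : j ≤ D.top) :
    D.φ j * (√(C1 * (D.khat j + 11)) / D.φ j
        + (D.CntB m (j + 1) + √(C1 * (D.khat j + 2 * eO (D.nb m j) + 3)) + 3 / 4) / D.φ j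
        + ((D.CntB m (j + 1) + D.nb m j) / D.φ j) / ((16 * bb m j : ℕ) : ℝ))
      + √(C1 * (D.khat j + 2 * eP (16 * bb m j) + 1)) ≤ D.Gam m j / 2 ^ 17 := by
  have hφ := D.hφ j
  have hΓ := D.Gam_pos m j
  have hb : (1:ℝ) ≤ (bb m j : ℝ) := by
    have := bb_pos m j
    exact_mod_cast this
  have h1 := D.rt1 m j
  have h2 := D.rt2 m j
  have h3 := rt3 hS hj
  obtain ⟨h4, h5⟩ := CntB_le hS hj
  have h6 := SS_le hS hj
  have h7 := D.SS_ge m j
  have h8 : D.nb m j = D.Gam m j * (bb m j : ℝ) / 2 ^ 25 := nb_eq (hS.mono j hj)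
  have e1 : D.φ j * (√(C1 * (D.khat j + 11)) / D.φ j
        + (D.CntB m (j + 1) + √(C1 * (D.khat j + 2 * eO (D.nb m j) + 3)) + 3 / 4) / D.φ j
        + ((D.CntB m (j + 1) + D.nb m j) / D.φ j) / ((16 * bb m j : ℕ) : ℝ))
      = √(C1 * (D.khat j + 11)) + (D.CntB m (j + 1) + √(C1 * (D.khat j + 2 * eO (D.nb m j) + 3)) + 3 / 4)
        + (D.CntB m (j + 1) + D.nb m j) / (16 * (bb m j : ℝ)) := by
    push_cast
    field_simp
  rw [e1]
  have e2 : (D.CntB m (j + 1) + D.nb m j) / (16 * (bb m j : ℝ))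
      ≤ D.CntB m (j + 1) / 16 + D.Gam m j / 2 ^ 29 := by
    rw [add_div, h8]
    apply add_le_add
    · apply div_le_div_of_nonneg_left h4 (by norm_num)
      linarith
    · apply le_of_eq
      have : (bb m j : ℝ) ≠ 0 := by positivity
      field_simp
      norm_num
  have h9 : (3:ℝ) / 4 ≤ D.SS m j := by linarith
  norm_num at h5 h6 e2 ⊢
  linarith

lemma hcap128 (hS : D.SchOK m al A00) (hj : j ≤ D.top) :
    128 * (C1 * √(D.khat j + eP (16 * bb m j))) ≤ D.Gam m j := by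
  have h1 := D.rt4 m j
  have h2 := SS_le hS hj
  have hΓ := D.Gam_pos m j
  norm_num at h2
  linarith

/-- numerics for the counts -/
lemma xb_num {Γ Pi0 P2 p nX Xb : ℝ} (hΓ : 0 < Γ) (hP2 : 1 ≤ P2) (hp : p * P2 = 1)
    (hPi0 : P2 ^ 2 * Γ ≤ Pi0) (hnX : nX ≤ 3 * P2 * (Γ / 2 ^ 50)) (hnX0 : 0 ≤ nX) (hXb : Xb ≤ Pi0 / 2 ^ 28)
    (hXb0 : 0 ≤ Xb) :
    4 * nX + 2 * √((Γ / 2 ^ 30) * (Xb + 2 * nX)) ≤ Pi0 * p / 2 ^ 26 := by
  have hP0 : 0 < P2 := by linarith
  have hp0 : 0 < p := by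
    by_contra h
    push Not at h
    nlinarith
  have hPi00 : 0 < Pi0 := by
    have : 0 < P2 ^ 2 * Γ := by positivity
    linarith
  have h1 : P2 * Γ ≤ Pi0 * p := by
    have : P2 ^ 2 * Γ * p ≤ Pi0 * p := mul_le_mul_of_nonneg_right hPi0 hp0.le
    have e : P2 ^ 2 * Γ * p = P2 * Γ * (p * P2) := by ring
    rw [e, hp, mul_one] at this
    exact this
  have h2 : Γ * Pi0 ≤ (Pi0 * p) ^ 2 := by
    have h3 : Γ ≤ Pi0 * p ^ 2 := by
      have : P2 ^ 2 * Γ * p ^ 2 ≤ Pi0 * p ^ 2 := mul_le_mul_of_nonneg_right hPi0 (by positivity)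
      have e : P2 ^ 2 * Γ * p ^ 2 = Γ * (p * P2) ^ 2 := by ring
      rw [e, hp] at this
      simpa using this
    have := mul_le_mul_of_nonneg_right h3 hPi00.le
    nlinarith
  have h4 : 4 * nX ≤ Pi0 * p / 2 ^ 27 := by
    have h5 : Γ / 2 ^ 50 * P2 ≤ Pi0 * p / 2 ^ 50 := by
      have := div_le_div_of_nonneg_right h1 (by positivity : (0:ℝ) ≤ 2 ^ 50)
      refine le_trans (le_of_eq ?_) this
      ring
    have h6 : 0 ≤ Pi0 * p := by positivity
    norm_num at hnX h5 ⊢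
    nlinarith
  have h7 : 2 * nX ≤ Pi0 / 2 ^ 28 := by
    have h5 : P2 * (Γ / 2 ^ 50) ≤ Pi0 / 2 ^ 50 := by
      have h8 : P2 * Γ ≤ P2 ^ 2 * Γ := by
        apply mul_le_mul_of_nonneg_right _ hΓ.le
        nlinarith
      have := div_le_div_of_nonneg_right (h8.trans hPi0) (by positivity : (0:ℝ) ≤ 2 ^ 50)
      refine le_trans (le_of_eq ?_) this
      ring
    norm_num at hnX h5 ⊢
    nlinarith
  have h9 : √((Γ / 2 ^ 30) * (Xb + 2 * nX)) ≤ Pi0 * p / 2 ^ 28 := by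
    apply Real.sqrt_le_iff.2
    refine ⟨by positivity, ?_⟩
    have h10 : (Γ / 2 ^ 30) * (Xb + 2 * nX) ≤ (Γ / 2 ^ 30) * (Pi0 / 2 ^ 27) := by
      apply mul_le_mul_of_nonneg_left _ (by positivity)
      have : Pi0 / 2 ^ 27 = Pi0 / 2 ^ 28 + Pi0 / 2 ^ 28 := by ring
      linarith
    refine h10.trans ?_
    have e : (Pi0 * p / 2 ^ 28) ^ 2 = (Pi0 * p) ^ 2 / 2 ^ 56 := by ring
    have e2 : (Γ / 2 ^ 30) * (Pi0 / 2 ^ 27) = Γ * Pi0 / 2 ^ 57 := by ring
    rw [e, e2]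
    have h11 : Γ * Pi0 / 2 ^ 57 ≤ (Pi0 * p) ^ 2 / 2 ^ 57 :=
      div_le_div_of_nonneg_right h2 (by positivity)
    refine h11.trans ?_
    apply div_le_div_of_nonneg_left (by positivity) (by positivity)
    norm_num
  have e3 : Pi0 * p / 2 ^ 26 = 2 * (Pi0 * p / 2 ^ 27) := by ring
  have e4 : Pi0 * p / 2 ^ 27 = 2 * (Pi0 * p / 2 ^ 28) := by ring
  rw [e3]
  linarith

end Data

end Vale.Agent.Lib.P262S
end

section
open Finset Real

namespace Vale.Agent.Lib.P262S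

set_option linter.unusedSectionVars false
set_option linter.unusedVariables false

namespace Data
variable {ι I : Type} [Fintype ι] [Fintype I] [DecidableEq ι] [DecidableEq I] {D : Data ι I}
variable {m al : ℕ → ℕ} {A j : ℕ} {Lt : Finset ι} {bl T TA : ι → ℕ}

lemma TimeOK.w16 (hT : TimeOK m al A j) : 16 * bb m j * 2 ^ (A - m j - 4) = 2 ^ (A - m (j + 1)) :=
  (hT.w_eq2).symm

lemma TimeOK.M_b (hT : TimeOK m al A j) : 2 ^ m (j + 1) * bb m j = 2 ^ m j :=
  (hT.M_eq).symm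

lemma TimeOK.Mw (hT : TimeOK m al A j) : 2 ^ m (j + 1) * 2 ^ (A - m (j + 1)) = 2 ^ A := by
  rw [← pow_add]
  congr 1
  have := hT.h1
  have := hT.h2
  omega

lemma TimeOK.Mw0 (hT : TimeOK m al A j) : 2 ^ m j * 2 ^ (A - m j) = 2 ^ A := by
  rw [← pow_add]
  congr 1
  have := hT.h1
  omega

lemma TimeOK.b_w (hT : TimeOK m al A j) : 2 ^ (A - m (j + 1)) = bb m j * 2 ^ (A - m j) := by
  unfold bb ee
  rw [← pow_add]
  congr 1
  have := hT.h1
  have := hT.h2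
  omega

/-- the value of `P` at the end -/
lemma P_top {E : Type} [AddCommGroup E] (hI : D.Inv m al A (j + 1) Lt bl T) (hT : TimeOK m al A j)
    (g : ι → E) :
    Sm Lt bl g (2 ^ m (j + 1)) + Sm Ltᶜ T g (2 ^ m (j + 1) * 2 ^ (A - m (j + 1))) = ∑ u, g u := by
  rw [hT.Mw]
  unfold Sm
  have e1 : Lt.filter (fun u => bl u < 2 ^ m (j + 1)) = Lt :=
    Finset.filter_true_of_mem fun u hu => hI.bl_lt u hu
  have e2 : (Ltᶜ).filter (fun u => T u < 2 ^ A) = Ltᶜ :=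
    Finset.filter_true_of_mem fun u hu => hI.T_lt u (Finset.mem_compl.1 hu)
  rw [e1, e2, Finset.sum_add_sum_compl]

lemma gn_zero (D : Data ι I) (a : ℕ) : D.gn a (0 : I → ℝ) = 0 := by
  unfold gn
  simp

lemma bound_nonneg (a j : ℕ) (D : Data ι I) : 0 ≤ C1 * (D.kap a + 4 + ((j + 1 - a : ℕ) : ℝ)) := by
  have := C1_ge
  have := D.kap_nonneg a
  positivity

/-- fresh errors at all grid points -/
lemma P_fresh (hI : D.Inv m al A (j + 1) Lt bl T) (hT : TimeOK m al A j)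
    (hzero : ∀ x, ∑ u, D.v u x = 0) {a : ℕ} (ha : a ≤ j + 1) {i : ℕ} (hi : i ≤ 2 ^ m (j + 1)) :
    D.gn a (Sm Lt bl D.v i + Sm Ltᶜ T D.v (i * 2 ^ (A - m (j + 1))))
      ≤ C1 * (D.kap a + 4 + ((j + 1 - a : ℕ) : ℝ)) := by
  by_cases h0 : i = 0
  · subst h0
    simp only [Sm_zero, zero_mul, add_zero]
    rw [gn_zero]
    exact bound_nonneg a j D
  by_cases h1 : i = 2 ^ m (j + 1)
  · subst h1
    rw [P_top hI hT]
    have : ∑ u, D.v u = 0 := by
      ext x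
      rw [Finset.sum_apply]
      exact hzero x
    rw [this, gn_zero]
    exact bound_nonneg a j D
  · exact hI.fresh a ha i (Nat.pos_of_ne_zero h0) (by omega)

/-- whitening from group bounds -/
lemma wh_of_gn (D : Data ι I) {j : ℕ} {y : I → ℝ} {c : ℝ} (hc : 0 ≤ c)
    (h : ∀ a, a ≤ j → D.gn a y ≤ C1 * (D.kap a + c + ((j - a : ℕ) : ℝ))) :
    D.φ j * wn (D.wh j) y ≤ √(C1 * (D.khat j + 2 * c + 1)) := by
  have hC1 := C1_ge
  have hφ := D.hφ j
  apply Real.le_sqrt_of_sq_le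
  rw [mul_pow, D.wh_sq]
  have h1 : ∑ a ∈ range (j + 1), D.gn a y / D.φ a ^ 2
      ≤ C1 * ∑ a ∈ range (j + 1), (D.kap a + c + ((j - a : ℕ) : ℝ)) / D.φ a ^ 2 := by
    rw [Finset.mul_sum]
    apply Finset.sum_le_sum
    intro a ha
    rw [Finset.mem_range] at ha
    have h2 := h a (by omega)
    rw [← mul_div_assoc]
    exact div_le_div_of_nonneg_right h2 (by positivity)
  have h3 := D.whiten_sum j hc
  calc D.φ j ^ 2 * ∑ a ∈ range (j + 1), D.gn a y / D.φ a ^ 2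
      ≤ D.φ j ^ 2 * (C1 * ∑ a ∈ range (j + 1), (D.kap a + c + ((j - a : ℕ) : ℝ)) / D.φ a ^ 2) :=
        mul_le_mul_of_nonneg_left h1 (by positivity)
    _ = C1 * (D.φ j ^ 2 * ∑ a ∈ range (j + 1), (D.kap a + c + ((j - a : ℕ) : ℝ)) / D.φ a ^ 2) := by ring
    _ ≤ C1 * (D.khat j + 2 * c + 1) := mul_le_mul_of_nonneg_left h3 (by linarith)

/-- whitened `P` -/
lemma birth_hP (hI : D.Inv m al A (j + 1) Lt bl T) (hB : BOut D m al A j Lt bl TA)
    (hT : TimeOK m al A j) (hzero : ∀ x, ∑ u, D.v u x = 0) {i : ℕ} (hi : i ≤ 2 ^ m (j + 1)) :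
    wn (D.wh j) (Sm (D.Ls j Lt) bl D.v i
        + Sm (D.Ls j Lt)ᶜ (D.T2 j Lt T TA) D.v (i * 2 ^ (A - m (j + 1))))
      ≤ √(C1 * (D.khat j + 11)) / D.φ j := by
  have hφ := D.hφ j
  rw [P_same hB hT D.v i, le_div_iff₀ hφ, mul_comm]
  have h := D.wh_of_gn (j := j) (y := Sm Lt bl D.v i + Sm Ltᶜ T D.v (i * 2 ^ (A - m (j + 1))))
    (c := 5) (by norm_num) (by
      intro a ha
      refine (P_fresh hI hT hzero (a := a) (by omega) hi).trans (le_of_eq ?_)
      have e : ((j + 1 - a : ℕ) : ℝ) = ((j - a : ℕ) : ℝ) + 1 := by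
        have : j + 1 - a = (j - a) + 1 := by omega
        rw [this]
        push_cast
        ring
      rw [e]
      ring)
  refine h.trans (le_of_eq ?_)
  rw [show D.khat j + 2 * 5 + 1 = D.khat j + 11 by ring]

lemma Fx_eq (D : Data ι I) (j : ℕ) (Lt : Finset ι) (T TA : ι → ℕ) :
    Sm (D.Ls j Lt)ᶜ (D.T2 j Lt T TA) D.v = fun τ => Sm Ltᶜ T D.v τ + Sm (D.Hv j Lt) TA D.v τ := by
  funext τ
  exact Sm_T2 D j Lt T TA D.v τ

lemma wh_pos_rho (D : Data ι I) (j : ℕ) : 0 ≤ 1 / D.φ j := by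
  have := D.hφ j
  positivity

/-- increments of the fixed part -/
lemma birth_hF (hI : D.Inv m al A (j + 1) Lt bl T) (hB : BOut D m al A j Lt bl TA)
    (hT : TimeOK m al A j) (hj : j ≤ D.top) (τ : ℕ) :
    wn (D.wh j) (Sm (D.Ls j Lt)ᶜ (D.T2 j Lt T TA) D.v τ
        - LinT (Sm (D.Ls j Lt)ᶜ (D.T2 j Lt T TA) D.v) (2 ^ (A - m (j + 1))) τ)
      ≤ (D.CntB m (j + 1) + √(C1 * (D.khat j + 2 * eO (D.nb m j) + 3)) + 3 / 4) / D.φ j := by
  have hφ := D.hφ j
  have hw0 := D.wh_nonneg j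
  have hnb0 := D.nb_nonneg m j
  rw [Fx_eq, LinT_add]
  have e : Sm Ltᶜ T D.v τ + Sm (D.Hv j Lt) TA D.v τ
        - (LinT (Sm Ltᶜ T D.v) (2 ^ (A - m (j + 1))) τ
          + LinT (Sm (D.Hv j Lt) TA D.v) (2 ^ (A - m (j + 1))) τ)
      = (Sm Ltᶜ T D.v τ - LinT (Sm Ltᶜ T D.v) (2 ^ (A - m (j + 1))) τ)
        + (Sm (D.Hv j Lt) TA D.v τ - LinT (Sm (D.Hv j Lt) TA D.v) (2 ^ (A - m (j + 1))) τ) := by
    abel
  rw [e]
  refine (wn_add_le hw0 _ _).trans ?_
  have h1 := wn_fix_dev hw0 Ltᶜ T D.v (ρ := 1 / D.φ j) (c := D.CntB m (j + 1))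
    (fun u _ => D.wn_wh_v j u) (D.wh_pos_rho j) (W := 2 ^ (A - m (j + 1))) (by positivity)
    (fun i => hI.cnt i) τ
  obtain ⟨i, κ, c, h4, h5, h6⟩ := hB.hdev τ
  have hcard := Hv_card_le hI hj i
  have h7 : eP (2 * ((D.Hv j Lt).filter fun u => bl u = i).card + 2) ≤ eO (D.nb m j) :=
    eP_le_eO hcard
  have h8 := (h5.mono h7).wh_bound_succ (eO_nonneg hnb0)
  have h9 : wn (D.wh j) (D.comb ((D.Hv j Lt).filter fun u => bl u = i) c)
      ≤ √(C1 * (D.khat j + 2 * eO (D.nb m j) + 3)) / D.φ j := by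
    rw [le_div_iff₀ hφ, mul_comm]
    exact h8
  have h10 := DA_wn (D := D) hw0 (Ah := D.Hv j Lt) (bl := bl) (ρ := 1 / D.φ j)
    (fun u _ => D.wn_wh_v j u) (D.wh_pos_rho j) h4 h9 h6
  have e2 : (D.CntB m (j + 1) + √(C1 * (D.khat j + 2 * eO (D.nb m j) + 3)) + 3 / 4) / D.φ j
      = D.CntB m (j + 1) * (1 / D.φ j)
        + (√(C1 * (D.khat j + 2 * eO (D.nb m j) + 3)) / D.φ j + 3 / 4 * (1 / D.φ j)) := by ring
  rw [e2]
  exact add_le_add h1 h10

/-- bound of a block of heavy items in any seminorm -/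
lemma Tot_Hv_wn {w₀ : I → ℝ} (hw : ∀ i, 0 ≤ w₀ i) (hI : D.Inv m al A (j + 1) Lt bl T)
    (hj : j ≤ D.top) {ρ : ℝ} (hρ0 : 0 ≤ ρ) (hρ : ∀ u ∈ D.Hv j Lt, wn w₀ (D.v u) ≤ ρ) (i : ℕ) :
    wn w₀ (Tot (D.Hv j Lt) bl D.v i) ≤ D.nb m j * ρ := by
  unfold Tot
  refine (wn_sum_le hw _ _).trans ?_
  have h1 : ∑ u ∈ (D.Hv j Lt).filter (fun u => bl u = i), wn w₀ (D.v u)
      ≤ (((D.Hv j Lt).filter fun u => bl u = i).card : ℝ) * ρ := by
    rw [← nsmul_eq_mul]
    apply Finset.sum_le_card_nsmul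
    intro u hu
    exact hρ u (Finset.mem_filter.1 hu).1
  exact h1.trans (mul_le_mul_of_nonneg_right (Hv_card_le hI hj i) hρ0)

/-- increments of `Fx` on the grid -/
lemma Fx_inc (hB : BOut D m al A j Lt bl TA) (hT : TimeOK m al A j) (i : ℕ) :
    Sm (D.Ls j Lt)ᶜ (D.T2 j Lt T TA) D.v ((i + 1) * 2 ^ (A - m (j + 1)))
        - Sm (D.Ls j Lt)ᶜ (D.T2 j Lt T TA) D.v (i * 2 ^ (A - m (j + 1)))
      = (Sm Ltᶜ T D.v ((i + 1) * 2 ^ (A - m (j + 1))) - Sm Ltᶜ T D.v (i * 2 ^ (A - m (j + 1))))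
        + Tot (D.Hv j Lt) bl D.v i := by
  rw [Sm_T2, Sm_T2, hB.FA_grid hT, hB.FA_grid hT, Sm_succ]
  abel

lemma birth_hD (hI : D.Inv m al A (j + 1) Lt bl T) (hB : BOut D m al A j Lt bl TA)
    (hT : TimeOK m al A j) (hj : j ≤ D.top) (i : ℕ) :
    wn (D.wh j) (Sm (D.Ls j Lt)ᶜ (D.T2 j Lt T TA) D.v ((i + 1) * 2 ^ (A - m (j + 1)))
        - Sm (D.Ls j Lt)ᶜ (D.T2 j Lt T TA) D.v (i * 2 ^ (A - m (j + 1))))
      ≤ (D.CntB m (j + 1) + D.nb m j) / D.φ j := by
  have hw0 := D.wh_nonneg j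
  rw [Fx_inc hB hT i]
  refine (wn_add_le hw0 _ _).trans ?_
  have h1 := wn_fix_inc hw0 Ltᶜ T D.v (ρ := 1 / D.φ j) (c := D.CntB m (j + 1))
    (fun u _ => D.wn_wh_v j u) (D.wh_pos_rho j) (W := 2 ^ (A - m (j + 1)))
    (fun i => hI.cnt i) i
  have h2 := Tot_Hv_wn hw0 hI hj (D.wh_pos_rho j) (fun u _ => D.wn_wh_v j u) i
  have e : (D.CntB m (j + 1) + D.nb m j) / D.φ j
      = D.CntB m (j + 1) * (1 / D.φ j) + D.nb m j * (1 / D.φ j) := by ring
  rw [e]
  exact add_le_add h1 h2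

/-- the second moment of the new lights in the old blocks -/
lemma birth_hq (hI : D.Inv m al A (j + 1) Lt bl T) (hj : j ≤ D.top)
    (hS : D.SchOK m al A00) (x : I → ℝ) {i : ℕ} (hi : i < 2 ^ m (j + 1)) :
    |Tot (D.Ls j Lt) bl (fun u => D.ip j u x ^ 2) i - tt m (j + 1) * D.sqD j x|
      ≤ tt m (j + 1) * (D.φ j / 2 ^ 16) * √(D.sq j x) * √(D.sqD j x) := by
  have hφ := D.hφ j
  have ht := tt_pos m (j + 1)
  have h1 := hI.qform (D.trunc j x) i hi
  simp only [D.ip_trunc, D.sq_trunc, D.sqD_trunc] at h1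
  rw [Tot_split Lt D j bl] at h1
  set α := √(D.sq j x) with hα
  set β := √(D.sqD j x) with hβ
  have hα0 : 0 ≤ α := Real.sqrt_nonneg _
  have hβ0 : 0 ≤ β := Real.sqrt_nonneg _
  have hα2 : α ^ 2 = D.sq j x := Real.sq_sqrt (D.sq_nonneg' j x)
  have hβ2 : β ^ 2 = D.sqD j x := Real.sq_sqrt (D.sqD_nonneg j x)
  have hαβ : D.φ j * α ≤ β := by
    have h1 := D.sq_le_sqD hj x
    rw [← hα2, ← hβ2] at h1
    have h2 : (D.φ j * α) ^ 2 ≤ β ^ 2 := by
      rw [mul_pow]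
      exact h1
    exact (pow_le_pow_iff_left₀ (by positivity) hβ0 (by norm_num)).1 h2
  -- heavy part
  set Hh := Tot (D.Hv j Lt) bl (fun u => D.ip j u x ^ 2) i with hHh
  have hH0 : 0 ≤ Hh := Finset.sum_nonneg fun u _ => sq_nonneg _
  have hH1 : Hh ≤ tt m (j + 1) * (D.φ j / 2 ^ 25) * α * β := by
    have h2 : Hh ≤ (((D.Hv j Lt).filter fun u => bl u = i).card : ℝ) * D.sq j x := by
      rw [← nsmul_eq_mul]
      apply Finset.sum_le_card_nsmul
      intro u _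
      exact D.ip_sq_le j u x
    have h3 := Hv_card_le hI hj i
    rw [Xi_succ] at h3
    have h4 : Hh ≤ tt m (j + 1) * (D.φ j ^ 2 / 2 ^ 25) * D.sq j x :=
      h2.trans (mul_le_mul_of_nonneg_right h3 (D.sq_nonneg' j x))
    refine h4.trans ?_
    rw [← hα2]
    have h5 : D.φ j * α ^ 2 ≤ α * β := by nlinarith
    have e : tt m (j + 1) * (D.φ j ^ 2 / 2 ^ 25) * α ^ 2
        = tt m (j + 1) * (D.φ j / 2 ^ 25) * (D.φ j * α ^ 2) := by ring
    rw [e, mul_assoc (tt m (j + 1) * (D.φ j / 2 ^ 25))]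
    exact mul_le_mul_of_nonneg_left h5 (by positivity)
  have hφ2 : D.φ (j + 1) / 4 ≤ D.φ j / 2 ^ 17 := by
    have := hS.φc j
    norm_num at this ⊢
    linarith
  have hab : 0 ≤ α * β := mul_nonneg hα0 hβ0
  have h6 : tt m (j + 1) * (D.φ (j + 1) / 4) * α * β ≤ tt m (j + 1) * (D.φ j / 2 ^ 17) * α * β := by
    have := mul_le_mul_of_nonneg_left hφ2 ht.le
    exact mul_le_mul_of_nonneg_right (mul_le_mul_of_nonneg_right this hα0) hβ0
  have h1' := abs_le.1 h1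
  have e5 : tt m (j + 1) * (D.φ j / 2 ^ 16) * α * β
      = tt m (j + 1) * (D.φ j / 2 ^ 17) * α * β + tt m (j + 1) * (D.φ j / 2 ^ 25) * α * β
        + tt m (j + 1) * (D.φ j * (1 / 2 ^ 16 - 1 / 2 ^ 17 - 1 / 2 ^ 25)) * α * β := by ring
  have h7 : 0 ≤ tt m (j + 1) * (D.φ j * (1 / 2 ^ 16 - 1 / 2 ^ 17 - 1 / 2 ^ 25)) * α * β := by
    apply mul_nonneg (mul_nonneg (mul_nonneg ht.le (mul_nonneg hφ.le (by norm_num))) hα0) hβ0
  rw [abs_le, e5]
  constructor <;> linarith [h1'.1, h1'.2]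

/-- monotonicity of block sums -/
lemma Tot_Ls_le {g : ι → ℝ} (hg : ∀ u, 0 ≤ g u) (D : Data ι I) (j : ℕ) (Lt : Finset ι) (bl : ι → ℕ)
    (i : ℕ) : Tot (D.Ls j Lt) bl g i ≤ Tot Lt bl g i := by
  rw [Tot_split Lt D j bl g i]
  have : 0 ≤ Tot (D.Hv j Lt) bl g i := Finset.sum_nonneg fun u _ => hg u
  linarith

/-- the refinement step exists -/
theorem refine_exists (hI : D.Inv m al A (j + 1) Lt bl T) (hB : BOut D m al A j Lt bl TA)
    (hT : TimeOK m al A j) (hj : j ≤ D.top) (hS : D.SchOK m al A00)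
    (hzero : ∀ x, ∑ u, D.v u x = 0) :
    ∃ (U : ι → ℕ) (y χ : ι → ℝ), D.RCtx (D.Ls j Lt) bl U j (bb m j) ∧
      RC2 D (D.Ls j Lt) bl U j (2 ^ m (j + 1)) (bb m j) (2 ^ (A - m j - 4))
        (Sm (D.Ls j Lt)ᶜ (D.T2 j Lt T TA) D.v) y χ (D.Gam m j / 2 ^ 17) (D.Gam m j) := by
  have hm := hS.mono j hj
  have hφ := D.hφ j
  have hQ : ∀ u ∈ D.Ls j Lt, D.Qf j u ≤ 1 := fun u hu => (Finset.mem_filter.1 hu).2
  obtain ⟨U, hU⟩ := D.units_exist hj hQ bl (bb_pos m j)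
  have hΓ : tt m (j + 1) / (bb m j : ℝ) * D.φ j ^ 2 = D.Gam m j := by
    rw [tt_div hm]
    rfl
  have hΓ0 := D.Gam_pos m j
  obtain ⟨y, χ, h⟩ := hU.steer_round hj hQ (M := 2 ^ m (j + 1)) (δ := 2 ^ (A - m j - 4))
    (by positivity) (Fx := Sm (D.Ls j Lt)ᶜ (D.T2 j Lt T TA) D.v)
    (t := tt m (j + 1)) (E := D.φ j / 2 ^ 16)
    (gP := √(C1 * (D.khat j + 11)) / D.φ j)
    (gF := (D.CntB m (j + 1) + √(C1 * (D.khat j + 2 * eO (D.nb m j) + 3)) + 3 / 4) / D.φ j)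
    (gD := (D.CntB m (j + 1) + D.nb m j) / D.φ j)
    (g0 := D.Gam m j / 2 ^ 17)
    (fun x i hi => birth_hq hI hj hS x hi)
    (by positivity)
    (by
      have : D.φ j / 2 ^ 16 ≤ D.φ j / 8 :=
        div_le_div_of_nonneg_left hφ.le (by norm_num) (by norm_num)
      exact this)
    (tt_pos m (j + 1))
    (by rw [hΓ]; exact hcap128 hS hj)
    (by
      rw [hΓ]
      have : 64 * (D.Gam m j / 2 ^ 17) = D.Gam m j / 2 ^ 11 := by ring
      rw [this]
      apply div_le_self hΓ0.le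
      norm_num)
    (by
      intro i hi
      rw [hT.w16]
      exact birth_hP hI hB hT hzero hi)
    (by
      intro τ
      rw [hT.w16]
      exact birth_hF hI hB hT hj τ)
    (by
      intro i hi
      rw [hT.w16]
      exact birth_hD hI hB hT hj i)
    (g0_ok hS hj)
  rw [hΓ] at h
  exact ⟨U, y, χ, hU, h⟩

end Data

end Vale.Agent.Lib.P262S
end

section
open Finset Real

namespace Vale.Agent.Lib.P262S

set_option linter.unusedSectionVars false
set_option linter.unusedVariables false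

namespace Data
variable {ι I : Type} [Fintype ι] [Fintype I] [DecidableEq ι] [DecidableEq I] {D : Data ι I}
variable {m al : ℕ → ℕ} {A j : ℕ} {Lt : Finset ι} {bl T TA U : ι → ℕ} {y χ : ι → ℝ}

/-- the share is small compared with the list slots -/
lemma m_le_al (hS : D.SchOK m al A00) (hj : j ≤ D.top) : m j + 27 ≤ al j := by
  have h1 := Gam_ge hS hj
  have h2 := hS.al1 j hj
  rw [Gam_eq] at h1
  unfold tt at h1
  have h3 : (2:ℝ) ^ 50 * 2 ^ m j ≤ D.φ j ^ 2 := by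
    have e : (1 / 2 : ℝ) ^ m j * 2 ^ m j = 1 := by
      rw [← mul_pow]
      norm_num
    have h4 := mul_le_mul_of_nonneg_right h1 (by positivity : (0:ℝ) ≤ 2 ^ m j)
    have e2 : (1 / 2 : ℝ) ^ m j * D.φ j ^ 2 * 2 ^ m j = D.φ j ^ 2 := by
      calc (1 / 2 : ℝ) ^ m j * D.φ j ^ 2 * 2 ^ m j = ((1 / 2 : ℝ) ^ m j * 2 ^ m j) * D.φ j ^ 2 := by ring
        _ = D.φ j ^ 2 := by rw [e, one_mul]
    rwa [e2] at h4
  have h5 : (2:ℝ) ^ (m j + 27) ≤ 2 ^ al j := by
    refine le_trans ?_ h2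
    rw [le_div_iff₀ (by positivity)]
    have e : (2:ℝ) ^ (m j + 27) * 2 ^ 23 = 2 ^ 50 * 2 ^ m j := by
      rw [pow_add]
      ring
    rw [e]
    exact h3
  exact (pow_le_pow_iff_right₀ (by norm_num)).1 h5

/-- the time arithmetic at stage `j` -/
lemma timeOK_of (hS : D.SchOK m al A00) (hj : j ≤ D.top) (h1 : m j + 4 ≤ A) (h3 : al j + 1 ≤ A)
    (h5 : al (j + 1) + 1 ≤ al j) : TimeOK m al A j := by
  have h2 := hS.mono j hj
  have h4 := m_le_al hS hj
  exact ⟨h1, h2, h3, by omega, h5⟩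

/-- count of list items in a block -/
lemma new_cnt (hI : D.Inv m al A (j + 1) Lt bl T) (hB : BOut D m al A j Lt bl TA)
    (hT : TimeOK m al A j) (hj : j ≤ D.top) (hS : D.SchOK m al A00) (i : ℕ) :
    (((D.Ls j Lt)ᶜ.filter (fun u => i * 2 ^ (A - m j) ≤ D.T2 j Lt T TA u
        ∧ D.T2 j Lt T TA u < (i + 1) * 2 ^ (A - m j))).card : ℝ) ≤ D.CntB m j := by
  have h0 := m_le_al hS hj
  have h3 := hT.h3
  have h1 := hT.h1
  set g := 2 ^ (A - (al j + 1)) with hg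
  set L := 2 ^ (al j + 1 - m j) with hL
  have eg : 2 ^ (A - m j) = L * g := by
    rw [hL, hg, ← pow_add]
    congr 1
    omega
  have hc := count_block ((D.Ls j Lt)ᶜ) (D.T2 j Lt T TA) (g := g) (L := L) (by positivity)
    (T2_inj hI hB hT) (fun u hu => T2_dvd hI hB hT (Finset.mem_compl.1 hu))
    (i * 2 ^ (A - m j)) (by
      rw [eg]
      exact Dvd.dvd.mul_left (Dvd.intro_left L rfl) i)
  have e2 : (i + 1) * 2 ^ (A - m j) = i * 2 ^ (A - m j) + L * g := by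
    rw [← eg]
    ring
  rw [e2]
  have hc' : (((D.Ls j Lt)ᶜ.filter (fun u => i * 2 ^ (A - m j) ≤ D.T2 j Lt T TA u
        ∧ D.T2 j Lt T TA u < i * 2 ^ (A - m j) + L * g)).card : ℝ) ≤ (L : ℝ) := by
    exact_mod_cast hc
  refine hc'.trans ?_
  unfold CntB
  rw [if_pos hj, Gam_eq]
  have h4 := hS.al2 j hj
  have hLr : (L : ℝ) * 2 ^ m j = 2 ^ (al j + 1) := by
    rw [hL]
    push_cast
    rw [← pow_add]
    congr 1
    omega
  have h5 : (L : ℝ) * 2 ^ m j ≤ D.φ j ^ 2 / 2 ^ 21 := by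
    rw [hLr, pow_succ]
    have e : D.φ j ^ 2 / 2 ^ 21 = (D.φ j ^ 2 / 2 ^ 22) * 2 := by ring
    rw [e]
    exact mul_le_mul_of_nonneg_right h4 (by norm_num)
  have h6 : (L : ℝ) = ((L : ℝ) * 2 ^ m j) * tt m j := by
    unfold tt
    rw [mul_assoc, ← mul_pow]
    norm_num
  rw [h6]
  have h7 := mul_le_mul_of_nonneg_right h5 (tt_pos m j).le
  refine h7.trans (le_of_eq ?_)
  ring

variable (hI : D.Inv m al A (j + 1) Lt bl T) (hB : BOut D m al A j Lt bl TA)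
  (hT : TimeOK m al A j) (hj : j ≤ D.top) (hS : D.SchOK m al A00)
  (hc : D.RCtx (D.Ls j Lt) bl U j (bb m j))
  (h2 : RC2 D (D.Ls j Lt) bl U j (2 ^ m (j + 1)) (bb m j) (2 ^ (A - m j - 4))
    (Sm (D.Ls j Lt)ᶜ (D.T2 j Lt T TA) D.v) y χ (D.Gam m j / 2 ^ 17) (D.Gam m j))

include hI in
lemma Ls_bl : ∀ u ∈ D.Ls j Lt, bl u < 2 ^ m (j + 1) :=
  fun u hu => hI.bl_lt u (Finset.mem_filter.1 hu).1

include hI hT hc in
lemma new_bl_lt : ∀ u ∈ D.Ls j Lt,
    newBl (fun u => bl u * (16 * bb m j) + U u) χ (2 ^ m (j + 1) * bb m j) u < 2 ^ m j := by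
  intro u hu
  rw [← hT.M_b]
  exact new_lt hc (Ls_bl hI) hu

include hT h2 in
lemma new_fresh {a : ℕ} (ha : a ≤ j) {i : ℕ} (hi0 : 0 < i) (hi : i < 2 ^ m j) :
    D.gn a (Sm (D.Ls j Lt) (newBl (fun u => bl u * (16 * bb m j) + U u) χ (2 ^ m (j + 1) * bb m j)) D.v i
        + Sm (D.Ls j Lt)ᶜ (D.T2 j Lt T TA) D.v (i * 2 ^ (A - m j)))
      ≤ C1 * (D.kap a + eR + ((j - a : ℕ) : ℝ)) := by
  have e : i * 2 ^ (A - m j) = 16 * i * 2 ^ (A - m j - 4) := by
    rw [hT.w_eq3]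
    ring
  rw [e]
  exact h2.fresh ha hi0 (by rw [hT.M_b]; exact hi)

include hI hT hj hS hc h2 in
lemma new_qform (x : I → ℝ) {i : ℕ} (hi : i < 2 ^ m j) :
    |Tot (D.Ls j Lt) (newBl (fun u => bl u * (16 * bb m j) + U u) χ (2 ^ m (j + 1) * bb m j))
        (fun u => D.ip j u x ^ 2) i - tt m j * D.sqD j x|
      ≤ tt m j * (D.φ j / 4) * √(D.sq j x) * √(D.sqD j x) := by
  have hm := hS.mono j hj
  have hφ := D.hφ j
  have hΓ0 := D.Gam_pos m j
  have hΓ : D.Gam m j = tt m (j + 1) / (bb m j : ℝ) * D.φ j ^ 2 := by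
    rw [tt_div hm]
    rfl
  have h3 := h2.qform hc hj (Ls_bl hI) (t := tt m (j + 1)) (E := D.φ j / 2 ^ 16)
    (fun x i hi => birth_hq hI hj hS x hi) (by positivity)
    (div_le_div_of_nonneg_left hφ.le (by norm_num) (by norm_num)) (tt_pos m (j + 1))
    (by rw [← hΓ]; exact hcap128 hS hj) hΓ (by positivity) x (s := i) (by rw [hT.M_b]; exact hi)
  rw [tt_div hm] at h3
  refine h3.trans ?_
  have ht := tt_pos m j
  apply mul_le_mul_of_nonneg_right _ (Real.sqrt_nonneg _)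
  apply mul_le_mul_of_nonneg_right _ (Real.sqrt_nonneg _)
  apply mul_le_mul_of_nonneg_left _ ht.le
  have h4 := D.rt4 m j
  have h5 := SS_le hS hj
  have h6 : 4 * (C1 * √(D.khat j + eP (16 * bb m j))) + 4 * (D.Gam m j / 2 ^ 17)
      ≤ D.Gam m j * (1 / 2 ^ 14) := by
    norm_num at h5 ⊢
    linarith
  have h7 : D.φ j * (4 * (C1 * √(D.khat j + eP (16 * bb m j))) + 4 * (D.Gam m j / 2 ^ 17)) / D.Gam m j
      ≤ D.φ j * (1 / 2 ^ 14) := by
    rw [div_le_iff₀ hΓ0]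
    have := mul_le_mul_of_nonneg_left h6 hφ.le
    refine this.trans (le_of_eq ?_)
    ring
  have h8 : D.φ j / 2 ^ 16 + D.φ j * (1 / 2 ^ 14) ≤ D.φ j / 4 := by
    have e : D.φ j / 4 = D.φ j / 2 ^ 16 + D.φ j * (1 / 2 ^ 14) + D.φ j * (1 / 4 - 1 / 2 ^ 16 - 1 / 2 ^ 14) := by
      ring
    have h9 : 0 ≤ D.φ j * ((1:ℝ) / 4 - 1 / 2 ^ 16 - 1 / 2 ^ 14) := by
      apply mul_nonneg hφ.le
      norm_num
    linarith
  linarith

lemma nX_bd (D : Data ι I) (m : ℕ → ℕ) (j n : ℕ) :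
    C1 * √((2:ℝ) ^ n) * √(eP (16 * bb m j) + (n : ℝ)) ≤ 3 * 2 ^ n * D.SS m j := by
  have hC := C1_ge
  have hX := D.XX_nonneg m j
  have hP : (0:ℝ) < 2 ^ n := by positivity
  have hn : (n:ℝ) + 1 ≤ 2 ^ n := by
    have : n + 1 ≤ 2 ^ n := Nat.lt_two_pow_self
    exact_mod_cast this
  have h1 : √(eP (16 * bb m j) + (n : ℝ)) ≤ 3 * √((2:ℝ) ^ n) * √(D.XX m j) := by
    apply Real.sqrt_le_iff.2
    refine ⟨by positivity, ?_⟩
    rw [mul_pow, mul_pow, Real.sq_sqrt hP.le, Real.sq_sqrt hX]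
    have h2 := eP_bd m j
    unfold XX
    have hk := D.khat_nonneg j
    have he : (0:ℝ) ≤ (ee m j : ℝ) := by positivity
    have hn0 : (0:ℝ) ≤ (n:ℝ) := by positivity
    have h3 : (n:ℝ) + 1 ≤ 2 ^ n := hn
    have h4 : ((n:ℝ) + 1) * ((ee m j : ℝ) + 1) ≤ 2 ^ n * (D.khat j + (ee m j : ℝ) + 1) := by
      apply mul_le_mul h3 (by linarith) (by positivity) (by positivity)
    nlinarith
  have h5 : C1 * √((2:ℝ) ^ n) * √(eP (16 * bb m j) + (n : ℝ))
      ≤ C1 * √((2:ℝ) ^ n) * (3 * √((2:ℝ) ^ n) * √(D.XX m j)) :=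
    mul_le_mul_of_nonneg_left h1 (by positivity)
  refine h5.trans (le_of_eq ?_)
  unfold SS
  have h6 : √((2:ℝ) ^ n) * √((2:ℝ) ^ n) = 2 ^ n := Real.mul_self_sqrt hP.le
  calc C1 * √((2:ℝ) ^ n) * (3 * √((2:ℝ) ^ n) * √(D.XX m j))
      = 3 * (√((2:ℝ) ^ n) * √((2:ℝ) ^ n)) * (C1 * √(D.XX m j)) := by ring
    _ = _ := by rw [h6]

include hI hT hj hS hc h2 in
lemma new_xb {j' : ℕ} (hj' : j' ≤ j) {i : ℕ} (hi : i < 2 ^ m j) :
    Tot (D.Ls j Lt) (newBl (fun u => bl u * (16 * bb m j) + U u) χ (2 ^ m (j + 1) * bb m j))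
        (D.chi j') i ≤ tt m j * D.Xi j' j := by
  have hm := hS.mono j hj
  have hφ := D.hφ j
  have hφ' := D.hφ j'
  have hΓ0 := D.Gam_pos m j
  have hb0 := bb_pos m j
  have hbr : (0:ℝ) < (bb m j : ℝ) := by positivity
  have ht := tt_pos m j
  have hX : ∀ i, i < 2 ^ m (j + 1) → Tot (D.Ls j Lt) bl (D.chi j') i
      ≤ tt m (j + 1) * D.Xi j' (j + 1) := fun i hi =>
    (Tot_Ls_le (fun u => D.chi_nonneg j' u) D j Lt bl i).trans
      (hI.xb j' (by omega) (by omega) i hi)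
  have h3 := h2.xb hc (Ls_bl hI) hj' hX (by positivity) (s := i) (by rw [hT.M_b]; exact hi)
  refine h3.trans ?_
  set n := j - j' with hn
  have hnr : ((j - j' : ℕ) : ℝ) = (n : ℝ) := by rw [hn]
  set P2 : ℝ := 2 ^ n with hP2
  set p : ℝ := (1 / 2 : ℝ) ^ n with hp
  have hpP : p * P2 = 1 := by
    rw [hp, hP2, ← mul_pow]
    norm_num
  have hP21 : 1 ≤ P2 := one_le_pow₀ (by norm_num)
  have hp0 : 0 < p := by positivity
  have hp1 : p ≤ 1 := pow_le_one₀ (by norm_num) (by norm_num)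
  set Pi0 := tt m j * D.φ j' ^ 2 with hPi0
  have hPi0pos : 0 < Pi0 := by positivity
  have hX1 : tt m (j + 1) * D.Xi j' (j + 1) / (bb m j : ℝ) = Pi0 / 2 ^ 26 * (1 + p) := by
    have e1 : tt m (j + 1) * D.Xi j' (j + 1) / (bb m j : ℝ)
        = tt m (j + 1) / (bb m j : ℝ) * D.Xi j' (j + 1) := by ring
    rw [e1, tt_div hm]
    unfold Xi
    have e2 : j + 1 - j' = n + 1 := by omega
    rw [e2, pow_succ (1 / 2 : ℝ) n, ← hp, hPi0]
    ring
  have hX2 : tt m j * D.Xi j' j = Pi0 / 2 ^ 26 * (1 + 2 * p) := by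
    unfold Xi
    rw [← hn, ← hp, hPi0]
    ring
  have hX3 : tt m (j + 1) * D.Xi j' (j + 1) / (8 * (bb m j : ℝ)) = Pi0 / 2 ^ 26 * (1 + p) / 8 := by
    rw [← hX1]
    field_simp
  rw [hX1, hX2, hX3, hnr]
  set nX := C1 * √((2:ℝ) ^ n) * √(eP (16 * bb m j) + (n : ℝ)) with hnX
  have hnX0 : 0 ≤ nX := by
    have := C1_ge
    positivity
  have hg : 16 * (D.Gam m j / 2 ^ 17) ^ 2 / D.Gam m j = D.Gam m j / 2 ^ 30 := by
    field_simp
    norm_num
  rw [hg]
  have hPiB : P2 ^ 2 * D.Gam m j ≤ Pi0 := by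
    have h4 := D.φ_ratio hj'
    rw [← hn, ← hp, div_le_iff₀ hφ'] at h4
    have h5 : P2 * D.φ j ≤ D.φ j' := by
      have := mul_le_mul_of_nonneg_left h4 (by positivity : 0 ≤ P2)
      have e : P2 * (p * D.φ j') = (p * P2) * D.φ j' := by ring
      rw [e, hpP, one_mul] at this
      exact this
    have h6 : (P2 * D.φ j) ^ 2 ≤ D.φ j' ^ 2 := pow_le_pow_left₀ (by positivity) h5 2
    rw [Gam_eq, hPi0]
    have := mul_le_mul_of_nonneg_left h6 ht.le
    refine le_trans (le_of_eq ?_) this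
    ring
  have hnX1 : nX ≤ 3 * P2 * (D.Gam m j / 2 ^ 50) := by
    have h7 := D.nX_bd m j n
    have h8 := SS_le hS hj
    refine h7.trans ?_
    exact mul_le_mul_of_nonneg_left h8 (by positivity)
  have hXb : Pi0 / 2 ^ 26 * (1 + p) / 8 ≤ Pi0 / 2 ^ 28 := by
    have : Pi0 / 2 ^ 26 * (1 + p) / 8 ≤ Pi0 / 2 ^ 26 * 2 / 8 := by
      apply div_le_div_of_nonneg_right _ (by norm_num)
      apply mul_le_mul_of_nonneg_left _ (by positivity)
      linarith
    refine this.trans (le_of_eq ?_)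
    ring
  have hfinal := xb_num hΓ0 hP21 hpP hPiB hnX1 hnX0 hXb (by positivity)
  have e3 : Pi0 / 2 ^ 26 * (1 + 2 * p) = Pi0 / 2 ^ 26 * (1 + p) + Pi0 * p / 2 ^ 26 := by ring
  rw [e3]
  linarith

end Data

end Vale.Agent.Lib.P262S
end

section
open Finset Real

namespace Vale.Agent.Lib.P262S

set_option linter.unusedSectionVars false
set_option linter.unusedVariables false

lemma sqrt_q {q : ℝ} (hq : 0 ≤ q) (Y : ℝ) : √(C1 * (q ^ 2 * Y)) = q * √(C1 * Y) := by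
  have e : C1 * (q ^ 2 * Y) = q ^ 2 * (C1 * Y) := by ring
  rw [e, Real.sqrt_mul (sq_nonneg q), Real.sqrt_sq hq]

lemma quarter_pow (n : ℕ) : (1 / 4 : ℝ) ^ n = ((1 / 2 : ℝ) ^ n) ^ 2 := by
  rw [← pow_mul, mul_comm, pow_mul]
  norm_num

namespace Data
variable {ι I : Type} [Fintype ι] [Fintype I] [DecidableEq ι] [DecidableEq I] {D : Data ι I}
variable {m al : ℕ → ℕ} {A j : ℕ} {Lt : Finset ι} {bl T TA U : ι → ℕ} {y χ : ι → ℝ}

lemma rt5 (hS : D.SchOK m al A00) (hj : j ≤ D.top) :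
    √(C1 * eO (D.nb m j)) ≤ 3 * D.SS m j + D.Gam m j / 2 ^ 34 := by
  refine le_trans (Real.sqrt_le_sqrt ?_) (rt3 hS hj)
  have hC := C1_ge
  apply mul_le_mul_of_nonneg_left _ (by linarith)
  have h1 := eO_nonneg (D.nb_nonneg m j)
  have h2 := D.khat_nonneg j
  linarith

lemma rt6 (D : Data ι I) (m : ℕ → ℕ) (j : ℕ) : √(C1 * eP (16 * bb m j)) ≤ 3 * D.SS m j := by
  apply rt (D.XX_nonneg m j) (by norm_num)
  unfold XX
  have := D.khat_nonneg j
  have h : (0:ℝ) ≤ (ee m j : ℝ) := by positivity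
  have h2 := eP_bd m j
  nlinarith

lemma rt7 (D : Data ι I) (m : ℕ → ℕ) (j : ℕ) : C1 * √(eP (16 * bb m j)) ≤ 3 * D.SS m j := by
  have hC := C1_ge
  unfold SS
  have h1 : √(eP (16 * bb m j)) ≤ 3 * √(D.XX m j) := by
    apply Real.sqrt_le_iff.2
    refine ⟨by positivity, ?_⟩
    rw [mul_pow, Real.sq_sqrt (D.XX_nonneg m j)]
    unfold XX
    have := D.khat_nonneg j
    have h : (0:ℝ) ≤ (ee m j : ℝ) := by positivity
    have h2 := eP_bd m j
    nlinarith
  have := mul_le_mul_of_nonneg_left h1 (by linarith : 0 ≤ C1)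
  linarith

/-- the sum of all new terms fits in the increment -/
lemma uu_num (hS : D.SchOK m al A00) (hj : j ≤ D.top) {h : ℕ} (hh : j < h) {d1 : ℝ} (hd0 : 0 ≤ d1)
    (hd1 : d1 / (bb m j : ℝ) ≤ D.Gam m j * (1 / 2 : ℝ) ^ (h - j) / 2 ^ 23) :
    d1 / ((16 * bb m j : ℕ) : ℝ)
      + √(C1 * ((1 / 4 : ℝ) ^ (h - j) * (D.kap h + eP (16 * bb m j) + ((h - j : ℕ) : ℝ))))
      + √(C1 * ((1 / 4 : ℝ) ^ (h - j) * (D.kap h + eR + ((h - j : ℕ) : ℝ))))
      + √(16 * (D.Gam m j / 2 ^ 17) ^ 2 / D.Gam m j * ((1 / 4 : ℝ) ^ (h - j)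
          * (D.nb m j / (8 * (bb m j : ℝ))
            + 2 * (C1 * √((2:ℝ) ^ (j - j)) * √(eP (16 * bb m j) + ((j - j : ℕ) : ℝ))))))
      + (√(C1 * ((1 / 4 : ℝ) ^ (h - (j + 1)) * (D.kap h + eO (D.nb m j) + ((h - (j + 1) : ℕ) : ℝ))))
        + 3 / 4 * (1 / 2 : ℝ) ^ (h - (j + 1)))
      ≤ D.incU m h j := by
  have hΓ0 := D.Gam_pos m j
  have hb0 := bb_pos m j
  have hbr : (0:ℝ) < (bb m j : ℝ) := by positivity
  have hC := C1_ge
  have hκ := D.kap_nonneg h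
  have hS1 := SS_le hS hj
  have hS2 := D.SS_ge m j
  have hnr : (0:ℝ) ≤ ((h - j : ℕ) : ℝ) := by positivity
  set n := h - j with hn
  have hn' : h - (j + 1) = n - 1 := by omega
  have hn1 : 1 ≤ n := by omega
  set q : ℝ := (1 / 2 : ℝ) ^ n with hq
  have hq0 : 0 < q := by positivity
  have hρ : (1 / 2 : ℝ) ^ (h - (j + 1)) = 2 * q := by
    rw [hn', hq]
    have : n = (n - 1) + 1 := by omega
    conv_rhs => rw [this, pow_succ]
    ring
  have hρ2 : (1 / 4 : ℝ) ^ (h - (j + 1)) = (2 * q) ^ 2 := by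
    rw [quarter_pow, hρ]
  have hq2 : (1 / 4 : ℝ) ^ n = q ^ 2 := quarter_pow n
  rw [hq2, hρ, hρ2, sqrt_q hq0.le, sqrt_q hq0.le, sqrt_q (by positivity)]
  set L := √(C1 * (D.kap h + 4 + (n : ℝ))) with hL
  have hL0 : 0 ≤ L := Real.sqrt_nonneg _
  have hnnr : (0:ℝ) ≤ (n:ℝ) := by positivity
  have heP := eP_nonneg (16 * bb m j)
  have heO := eO_nonneg (D.nb_nonneg m j)
  -- the first term
  have t1 : d1 / ((16 * bb m j : ℕ) : ℝ) ≤ D.Gam m j * q / 2 ^ 27 := by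
    have e : d1 / ((16 * bb m j : ℕ) : ℝ) = d1 / (bb m j : ℝ) / 16 := by
      push_cast
      field_simp
    rw [e]
    have := div_le_div_of_nonneg_right hd1 (by norm_num : (0:ℝ) ≤ 16)
    refine this.trans (le_of_eq ?_)
    ring
  have hsq_add : ∀ Y Z : ℝ, 0 ≤ Y → 0 ≤ Z → √(C1 * (Y + Z)) ≤ √(C1 * Y) + √(C1 * Z) := by
    intro Y Z hY hZ
    rw [mul_add]
    exact rt_sum (by positivity) (by positivity) (by positivity) (by positivity) le_rfl le_rfl
  have t2 : √(C1 * (D.kap h + eP (16 * bb m j) + (n : ℝ))) ≤ L + 3 * D.SS m j := by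
    have e : D.kap h + eP (16 * bb m j) + (n : ℝ) ≤ (D.kap h + 4 + (n : ℝ)) + eP (16 * bb m j) := by
      linarith
    refine (Real.sqrt_le_sqrt (mul_le_mul_of_nonneg_left e (by linarith))).trans ?_
    refine (hsq_add _ _ (by positivity) heP).trans ?_
    have := D.rt6 m j
    linarith
  have t3 : √(C1 * (D.kap h + eR + (n : ℝ))) = L := by
    unfold eR
    rfl
  have t5 : √(C1 * (D.kap h + eO (D.nb m j) + ((h - (j + 1) : ℕ) : ℝ)))
      ≤ L + (3 * D.SS m j + D.Gam m j / 2 ^ 34) := by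
    have hn2 : ((h - (j + 1) : ℕ) : ℝ) ≤ (n:ℝ) := by
      rw [hn']
      exact_mod_cast Nat.sub_le _ _
    have e : D.kap h + eO (D.nb m j) + ((h - (j + 1) : ℕ) : ℝ)
        ≤ (D.kap h + 4 + (n : ℝ)) + eO (D.nb m j) := by
      linarith
    refine (Real.sqrt_le_sqrt (mul_le_mul_of_nonneg_left e (by linarith))).trans ?_
    refine (hsq_add _ _ (by positivity) heO).trans ?_
    have := rt5 hS hj
    linarith
  have t4 : √(16 * (D.Gam m j / 2 ^ 17) ^ 2 / D.Gam m j * (q ^ 2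
          * (D.nb m j / (8 * (bb m j : ℝ))
            + 2 * (C1 * √((2:ℝ) ^ (j - j)) * √(eP (16 * bb m j) + ((j - j : ℕ) : ℝ))))))
      ≤ q * (D.Gam m j / 2 ^ 28) := by
    have e1 : 16 * (D.Gam m j / 2 ^ 17) ^ 2 / D.Gam m j = D.Gam m j / 2 ^ 30 := by
      field_simp
      norm_num
    have e2 : D.nb m j / (8 * (bb m j : ℝ)) = D.Gam m j / 2 ^ 28 := by
      rw [nb_eq (hS.mono j hj)]
      field_simp
      norm_num
    have e3 : C1 * √((2:ℝ) ^ (j - j)) * √(eP (16 * bb m j) + ((j - j : ℕ) : ℝ))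
        = C1 * √(eP (16 * bb m j)) := by
      simp
    rw [e1, e2, e3]
    apply Real.sqrt_le_iff.2
    refine ⟨by positivity, ?_⟩
    have h7 := D.rt7 m j
    have h8 : D.Gam m j / 2 ^ 28 + 2 * (C1 * √(eP (16 * bb m j))) ≤ D.Gam m j / 2 ^ 26 := by
      norm_num at hS1 ⊢
      linarith
    have e4 : (q * (D.Gam m j / 2 ^ 28)) ^ 2 = D.Gam m j / 2 ^ 30 * (q ^ 2 * (D.Gam m j / 2 ^ 26)) := by
      ring
    rw [e4]
    apply mul_le_mul_of_nonneg_left _ (by positivity)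
    exact mul_le_mul_of_nonneg_left h8 (by positivity)
  have e5 : D.incU m h j = q * (4 * L + 4 * D.Gam m j) := by
    unfold incU
    rw [← hn, ← hq, ← hL]
  rw [e5]
  have t2' := mul_le_mul_of_nonneg_left t2 hq0.le
  have t5' := mul_le_mul_of_nonneg_left t5 (by positivity : 0 ≤ 2 * q)
  rw [t3]
  have hΓ1 : (3:ℝ) / 2 ≤ D.SS m j * 2 := by linarith
  have key : D.Gam m j * q / 2 ^ 27 + q * (L + 3 * D.SS m j) + q * L + q * (D.Gam m j / 2 ^ 28)
      + (2 * q * (L + (3 * D.SS m j + D.Gam m j / 2 ^ 34)) + 3 / 4 * (2 * q))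
      ≤ q * (4 * L + 4 * D.Gam m j) := by
    have h9 : D.Gam m j / 2 ^ 27 + 3 * D.SS m j + D.Gam m j / 2 ^ 28 + 2 * (3 * D.SS m j + D.Gam m j / 2 ^ 34) + 3 / 2 ≤ 4 * D.Gam m j := by
      norm_num at hS1 ⊢
      nlinarith
    have := mul_le_mul_of_nonneg_left h9 hq0.le
    nlinarith
  refine le_trans ?_ key
  linarith

end Data

end Vale.Agent.Lib.P262S
end

section
open Finset Real

namespace Vale.Agent.Lib.P262S

set_option linter.unusedSectionVars false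
set_option linter.unusedVariables false

namespace Data
variable {ι I : Type} [Fintype ι] [Fintype I] [DecidableEq ι] [DecidableEq I] {D : Data ι I}
variable {m al : ℕ → ℕ} {A j : ℕ} {Lt : Finset ι} {bl T TA U : ι → ℕ} {y χ : ι → ℝ}

/-- the reference of the previous stage, including the group of the previous stage -/
lemma base0 (hI : D.Inv m al A (j + 1) Lt bl T) (hT : TimeOK m al A j) (hj : j ≤ D.top)
    (hS : D.SchOK m al A00) (hzero : ∀ x, ∑ u, D.v u x = 0) {h : ℕ} (hh : j < h) (hh2 : h ≤ D.top + 1) :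
    ∃ (R0 : ℕ → I → ℝ) (a0 B0 : ℝ), AffOn R0 (2 ^ (A - m (j + 1))) ∧
      (∀ i, i ≤ 2 ^ m (j + 1) →
        D.gr h (Sm Lt bl D.v i + R0 (i * 2 ^ (A - m (j + 1)))) ≤ a0) ∧
      (∀ τ, D.gr h (Sm Ltᶜ T D.v τ - R0 τ) ≤ B0) ∧
      (∀ i, i < 2 ^ m (j + 1) →
        D.gr h (R0 ((i + 1) * 2 ^ (A - m (j + 1))) - R0 (i * 2 ^ (A - m (j + 1)))) ≤ D.dU m h (j + 1)) ∧
      a0 + B0 ≤ D.cU m h (j + 1) := by
  by_cases h1 : h = j + 1
  · subst h1
    have hw : 0 < 2 ^ (A - m (j + 1)) := by positivity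
    have hw0 := D.wg_nonneg (j + 1)
    obtain ⟨hc0, hc1⟩ := CntB_le (D := D) hS hj
    refine ⟨LinT (Sm Ltᶜ T D.v) (2 ^ (A - m (j + 1))), √(C1 * (D.kap (j + 1) + 4)), D.CntB m (j + 1),
      LinT_aff _ hw, ?_, ?_, ?_, ?_⟩
    · intro i hi
      rw [LinT_grid _ hw]
      apply D.gr_le_of_gn
      have := P_fresh hI hT hzero (a := j + 1) le_rfl hi
      simpa using this
    · intro τ
      have := wn_fix_dev hw0 Ltᶜ T D.v (ρ := 1) (c := D.CntB m (j + 1))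
        (fun u _ => D.gr_v_le_one (j + 1) u) (by norm_num) (W := 2 ^ (A - m (j + 1))) hw
        (fun i => hI.cnt i) τ
      rw [mul_one] at this
      exact this
    · intro i hi
      rw [LinT_grid _ hw, LinT_grid _ hw]
      have := wn_fix_inc hw0 Ltᶜ T D.v (ρ := 1) (c := D.CntB m (j + 1))
        (fun u _ => D.gr_v_le_one (j + 1) u) (by norm_num) (W := 2 ^ (A - m (j + 1)))
        (fun i => hI.cnt i) i
      rw [mul_one] at this
      refine le_trans this ?_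
      unfold CntB dU
      have hG := D.Gam_pos m (j + 1)
      simp only [Nat.sub_self, pow_zero, mul_one]
      split_ifs
      · apply div_le_div_of_nonneg_left hG.le (by norm_num) (by norm_num)
      · positivity
    · unfold cU CntB
      simp only [Finset.Ico_self, Finset.sum_empty, add_zero]
      have hG := D.Gam_pos m (j + 1)
      split_ifs
      · have : D.Gam m (j + 1) / 2 ^ 21 ≤ D.Gam m (j + 1) := by
          apply div_le_self hG.le
          norm_num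
        linarith
      · linarith
  · exact hI.uu h (by omega) hh2

lemma Gam_succ_div (hS : D.SchOK m al A00) (hj : j ≤ D.top) :
    D.Gam m (j + 1) / (bb m j : ℝ) ≤ D.Gam m j / 2 ^ 30 := by
  have hm := hS.mono j hj
  have h1 : D.Gam m (j + 1) / (bb m j : ℝ) = tt m j * D.φ (j + 1) ^ 2 := by
    rw [← tt_div hm, Gam_eq]
    ring
  rw [h1, Gam_eq]
  have h2 := hS.φc j
  have h3 := D.hφ (j + 1)
  have h4 : D.φ (j + 1) ^ 2 ≤ (D.φ j / 2 ^ 15) ^ 2 := pow_le_pow_left₀ h3.le h2 2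
  have h5 := mul_le_mul_of_nonneg_left h4 (tt_pos m j).le
  refine h5.trans (le_of_eq ?_)
  ring

/-- the increment bound after division -/
lemma d1_bd (hS : D.SchOK m al A00) (hj : j ≤ D.top) {h : ℕ} (hh : j < h) :
    (D.dU m h (j + 1) + D.nb m j * (1 / 2 : ℝ) ^ (h - (j + 1))) / (bb m j : ℝ)
      ≤ D.Gam m j * (1 / 2 : ℝ) ^ (h - j) / 2 ^ 23 := by
  have hb0 := bb_pos m j
  have hbr : (0:ℝ) < (bb m j : ℝ) := by positivity
  have hΓ0 := D.Gam_pos m j
  set q : ℝ := (1 / 2 : ℝ) ^ (h - j) with hq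
  have hq0 : 0 < q := by positivity
  have hρ : (1 / 2 : ℝ) ^ (h - (j + 1)) = 2 * q := by
    rw [hq]
    have h1 : h - j = (h - (j + 1)) + 1 := by omega
    rw [h1, pow_succ]
    ring
  rw [add_div]
  have h2 : D.dU m h (j + 1) / (bb m j : ℝ) ≤ D.Gam m j / 2 ^ 30 * (2 * q) / 2 ^ 20 := by
    unfold dU
    rw [hρ]
    have h3 := mul_le_mul_of_nonneg_right (Gam_succ_div (D := D) hS hj) (by positivity : 0 ≤ (2 * q) / 2 ^ 20)
    refine le_trans (le_of_eq ?_) (h3.trans (le_of_eq ?_))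
    · ring
    · ring
  have h4 : D.nb m j * (2 * q) / (bb m j : ℝ) = D.Gam m j * (2 * q) / 2 ^ 25 := by
    rw [nb_eq (hS.mono j hj)]
    field_simp
  rw [hρ, h4]
  have e : D.Gam m j * q / 2 ^ 23 = D.Gam m j / 2 ^ 30 * (2 * q) / 2 ^ 20 + D.Gam m j * (2 * q) / 2 ^ 25
      + D.Gam m j * q * (1 / 2 ^ 23 - 1 / 2 ^ 49 - 1 / 2 ^ 24) := by ring
  rw [e]
  have h5 : 0 ≤ D.Gam m j * q * ((1:ℝ) / 2 ^ 23 - 1 / 2 ^ 49 - 1 / 2 ^ 24) := by
    apply mul_nonneg (by positivity)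
    norm_num
  linarith

lemma cU_step (D : Data ι I) (m : ℕ → ℕ) {h j : ℕ} (hh : j < h) :
    D.cU m h j = D.cU m h (j + 1) + D.incU m h j := by
  unfold cU
  rw [Finset.sum_eq_sum_Ico_succ_bot hh]
  ring

/-- group seminorm of the new reference -/
theorem new_uu (hI : D.Inv m al A (j + 1) Lt bl T) (hB : BOut D m al A j Lt bl TA)
    (hT : TimeOK m al A j) (hj : j ≤ D.top) (hS : D.SchOK m al A00)
    (hzero : ∀ x, ∑ u, D.v u x = 0)
    (hc : D.RCtx (D.Ls j Lt) bl U j (bb m j))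
    (h2 : RC2 D (D.Ls j Lt) bl U j (2 ^ m (j + 1)) (bb m j) (2 ^ (A - m j - 4))
      (Sm (D.Ls j Lt)ᶜ (D.T2 j Lt T TA) D.v) y χ (D.Gam m j / 2 ^ 17) (D.Gam m j))
    {h : ℕ} (hh : j < h) (hh2 : h ≤ D.top + 1) :
    ∃ (Rf : ℕ → I → ℝ) (a B : ℝ), AffOn Rf (2 ^ (A - m j)) ∧
    (∀ i, i ≤ 2 ^ m j → D.gr h (Sm (D.Ls j Lt)
        (newBl (fun u => bl u * (16 * bb m j) + U u) χ (2 ^ m (j + 1) * bb m j)) D.v i
          + Rf (i * 2 ^ (A - m j))) ≤ a) ∧
    (∀ τ, D.gr h (Sm (D.Ls j Lt)ᶜ (D.T2 j Lt T TA) D.v τ - Rf τ) ≤ B) ∧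
    (∀ i, i < 2 ^ m j → D.gr h (Rf ((i + 1) * 2 ^ (A - m j)) - Rf (i * 2 ^ (A - m j))) ≤ D.dU m h j) ∧
    a + B ≤ D.cU m h j := by
  obtain ⟨R0, a0, B0, hR0, hU1, hU2, hU4, hsum⟩ := base0 hI hT hj hS hzero hh hh2
  have hw : 0 < 2 ^ (A - m (j + 1)) := by positivity
  have hw0 := D.wg_nonneg h
  have hb0 := bb_pos m j
  have hbr : (0:ℝ) < (bb m j : ℝ) := by positivity
  have hQ : ∀ u ∈ D.Ls j Lt, D.Qf j u ≤ 1 := fun u hu => (Finset.mem_filter.1 hu).2
  have hΓ0 := D.Gam_pos m j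
  set ρ : ℝ := (1 / 2 : ℝ) ^ (h - (j + 1)) with hρ
  have hρ0 : 0 ≤ ρ := by positivity
  have hvρ : ∀ u ∈ D.Hv j Lt, wn (D.wg h) (D.v u) ≤ ρ := fun u hu =>
    D.gr_v_succ hh (hI.Q_le u (Finset.mem_filter.1 hu).1)
  set R1 : ℕ → I → ℝ := fun τ => R0 τ + LinT (Sm (D.Hv j Lt) TA D.v) (2 ^ (A - m (j + 1))) τ with hR1
  have hAff : AffOn R1 (2 ^ (A - m (j + 1))) := AffOn.add hR0 (LinT_aff _ hw)
  have hgrid : ∀ i, R1 (i * 2 ^ (A - m (j + 1)))
      = R0 (i * 2 ^ (A - m (j + 1))) + Sm (D.Hv j Lt) bl D.v i := by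
    intro i
    simp only [hR1]
    rw [LinT_grid _ hw, hB.FA_grid hT]
  -- the analog of `U1`
  have hU1' : ∀ i, i ≤ 2 ^ m (j + 1) →
      D.gr h (Sm (D.Ls j Lt) bl D.v i + R1 (i * 2 ^ (A - m (j + 1)))) ≤ a0 := by
    intro i hi
    rw [hgrid]
    have e : Sm (D.Ls j Lt) bl D.v i + (R0 (i * 2 ^ (A - m (j + 1))) + Sm (D.Hv j Lt) bl D.v i)
        = Sm Lt bl D.v i + R0 (i * 2 ^ (A - m (j + 1))) := by
      rw [Sm_split Lt D j bl D.v i]
      abel
    rw [e]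
    exact hU1 i hi
  -- the analog of `U4`
  set d1 := D.dU m h (j + 1) + D.nb m j * ρ with hd1
  have hU4' : ∀ i, i < 2 ^ m (j + 1) →
      D.gr h (R1 ((i + 1) * 2 ^ (A - m (j + 1))) - R1 (i * 2 ^ (A - m (j + 1)))) ≤ d1 := by
    intro i hi
    rw [hgrid, hgrid, Sm_succ]
    have e : R0 ((i + 1) * 2 ^ (A - m (j + 1))) + (Sm (D.Hv j Lt) bl D.v i + Tot (D.Hv j Lt) bl D.v i)
          - (R0 (i * 2 ^ (A - m (j + 1))) + Sm (D.Hv j Lt) bl D.v i)
        = (R0 ((i + 1) * 2 ^ (A - m (j + 1))) - R0 (i * 2 ^ (A - m (j + 1))))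
          + Tot (D.Hv j Lt) bl D.v i := by
      abel
    rw [e]
    exact (wn_add_le hw0 _ _).trans (add_le_add (hU4 i hi)
      (Tot_Hv_wn hw0 hI hj hρ0 hvρ i))
  have hd10 : 0 ≤ d1 := (wn_nonneg _).trans (hU4' 0 (by positivity))
  -- the analog of `U2`
  set B1 := B0 + (√(C1 * ((1 / 4 : ℝ) ^ (h - (j + 1))
      * (D.kap h + eO (D.nb m j) + ((h - (j + 1) : ℕ) : ℝ)))) + 3 / 4 * ρ) with hB1
  have hU2' : ∀ τ, D.gr h (Sm (D.Ls j Lt)ᶜ (D.T2 j Lt T TA) D.v τ - R1 τ) ≤ B1 := by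
    intro τ
    rw [Sm_T2]
    have e : Sm Ltᶜ T D.v τ + Sm (D.Hv j Lt) TA D.v τ - R1 τ
        = (Sm Ltᶜ T D.v τ - R0 τ)
          + (Sm (D.Hv j Lt) TA D.v τ - LinT (Sm (D.Hv j Lt) TA D.v) (2 ^ (A - m (j + 1))) τ) := by
      simp only [hR1]
      abel
    rw [e]
    refine (wn_add_le hw0 _ _).trans (add_le_add (hU2 τ) ?_)
    obtain ⟨i, κ, c, h4, h5, h6⟩ := hB.hdev τ
    have hcard := Hv_card_le hI hj i
    have h7 : eP (2 * ((D.Hv j Lt).filter fun u => bl u = i).card + 2) ≤ eO (D.nb m j) :=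
      eP_le_eO hcard
    exact DA_wn (D := D) hw0 (Ah := D.Hv j Lt) (bl := bl) (ρ := ρ) hvρ hρ0 h4
      ((h5.mono h7).gr_succ hh) h6
  -- refine
  have hX : ∀ i, i < 2 ^ m (j + 1) → Tot (D.Ls j Lt) bl (D.chi j) i ≤ D.nb m j := fun i hi =>
    (Tot_Ls_le (fun u => D.chi_nonneg j u) D j Lt bl i).trans (hI.xb j (by omega) hj i hi)
  have hAff2 : AffOn R1 (16 * bb m j * 2 ^ (A - m j - 4)) := by
    rw [hT.w16]
    exact hAff
  have hnew : ∀ s, s ≤ 2 ^ m j → D.gr h (Sm (D.Ls j Lt)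
        (newBl (fun u => bl u * (16 * bb m j) + U u) χ (2 ^ m (j + 1) * bb m j)) D.v s
          + R1 (s * 2 ^ (A - m j))) ≤ a0 + d1 / ((16 * bb m j : ℕ) : ℝ)
        + √(C1 * ((1 / 4 : ℝ) ^ (h - j) * (D.kap h + eP (16 * bb m j) + ((h - j : ℕ) : ℝ))))
        + √(C1 * ((1 / 4 : ℝ) ^ (h - j) * (D.kap h + eR + ((h - j : ℕ) : ℝ))))
        + √(16 * (D.Gam m j / 2 ^ 17) ^ 2 / D.Gam m j * ((1 / 4 : ℝ) ^ (h - j) * (D.nb m j / (8 * (bb m j : ℝ))
            + 2 * (C1 * √((2:ℝ) ^ (j - j)) * √(eP (16 * bb m j) + ((j - j : ℕ) : ℝ)))))) := by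
    intro s hs
    have e : s * 2 ^ (A - m j) = 16 * s * 2 ^ (A - m j - 4) := by
      rw [hT.w_eq3]
      ring
    rw [e]
    exact h2.uu hc hQ (Ls_bl hI) (by positivity) (by positivity) hX hh hAff2 (a := a0) (d := d1)
      (by
        intro i hi
        rw [hT.w16]
        exact hU1' i hi)
      (by
        intro i hi
        rw [hT.w16]
        exact hU4' i hi)
      (by rw [hT.M_b]; exact hs)
  have hAff3 : AffOn R1 (bb m j * 2 ^ (A - m j)) := by
    rw [← hT.b_w]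
    exact hAff
  refine ⟨R1, _, B1, hAff3.refine hb0 (by positivity), hnew, hU2', ?_, ?_⟩
  · intro p hp
    have hsucc := hAff3.succ hb0 (by positivity) p
    rw [hsucc, ← hT.b_w]
    unfold gr
    rw [wn_smul, abs_of_nonneg (by positivity)]
    have hp2 : p / bb m j < 2 ^ m (j + 1) := by
      apply Nat.div_lt_of_lt_mul
      rw [mul_comm, hT.M_b]
      exact hp
    have h8 := hU4' _ hp2
    have h9 : 1 / (bb m j : ℝ) * wn (D.wg h) (R1 ((p / bb m j + 1) * 2 ^ (A - m (j + 1)))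
        - R1 (p / bb m j * 2 ^ (A - m (j + 1)))) ≤ 1 / (bb m j : ℝ) * d1 :=
      mul_le_mul_of_nonneg_left h8 (by positivity)
    refine h9.trans ?_
    have h10 := d1_bd (D := D) hS hj hh
    have h11 : 1 / (bb m j : ℝ) * d1 = d1 / (bb m j : ℝ) := by ring
    rw [h11]
    refine h10.trans ?_
    unfold dU
    apply div_le_div_of_nonneg_left (by positivity) (by norm_num) (by norm_num)
  · have h12 := uu_num (D := D) hS hj hh hd10 (d1_bd (D := D) hS hj hh)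
    rw [cU_step D m hh]
    rw [hB1]
    linarith

end Data

end Vale.Agent.Lib.P262S
end

section
open Finset Real

namespace Vale.Agent.Lib.P262S

set_option linter.unusedSectionVars false
set_option linter.unusedVariables false

namespace Data
variable {ι I : Type} [Fintype ι] [Fintype I] [DecidableEq ι] [DecidableEq I] {D : Data ι I}
variable {m al : ℕ → ℕ} {A j : ℕ} {Lt : Finset ι} {bl T TA U : ι → ℕ} {y χ : ι → ℝ}

lemma birth_cap (hT : TimeOK m al A j) (hj : j ≤ D.top) (hS : D.SchOK m al A00) :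
    2 * (tt m (j + 1) * D.Xi j (j + 1)) + 2 ≤ ((2 ^ (al j - m (j + 1)) : ℕ) : ℝ) := by
  have h4 := hT.h4
  have h1 := hS.al1 j hj
  have hm := hS.mono j hj
  have hΓ := Gam_ge hS hj
  have hb : (1:ℝ) ≤ (bb m j : ℝ) := by
    have := bb_pos m j
    exact_mod_cast this
  have hnb : tt m (j + 1) * D.Xi j (j + 1) = D.Gam m j * (bb m j : ℝ) / 2 ^ 25 := nb_eq hm
  have hnb2 : (1:ℝ) ≤ tt m (j + 1) * D.Xi j (j + 1) := by
    rw [hnb, le_div_iff₀ (by positivity)]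
    norm_num at hΓ ⊢
    nlinarith
  have e1 : ((2 ^ (al j - m (j + 1)) : ℕ) : ℝ) = 2 ^ al j * tt m (j + 1) := by
    unfold tt
    push_cast
    have e : al j = (al j - m (j + 1)) + m (j + 1) := by omega
    conv_rhs => rw [e, pow_add]
    rw [mul_assoc, ← mul_pow]
    norm_num
  rw [e1]
  have ht := tt_pos m (j + 1)
  have h2 : D.φ j ^ 2 / 2 ^ 23 * tt m (j + 1) ≤ 2 ^ al j * tt m (j + 1) :=
    mul_le_mul_of_nonneg_right h1 ht.le
  refine le_trans ?_ h2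
  have e2 : D.φ j ^ 2 / 2 ^ 23 * tt m (j + 1) = 4 * (tt m (j + 1) * D.Xi j (j + 1)) := by
    rw [Xi_succ]
    ring
  rw [e2]
  linarith

/-- the transition -/
theorem Inv_step (hI : D.Inv m al A (j + 1) Lt bl T) (hT : TimeOK m al A j) (hj : j ≤ D.top)
    (hS : D.SchOK m al A00) (hzero : ∀ x, ∑ u, D.v u x = 0) :
    ∃ Lt' bl' T', D.Inv m al A j Lt' bl' T' := by
  obtain ⟨TA, hB⟩ := birth_exists hI hT hj (birth_cap hT hj hS)
  obtain ⟨U, y, χ, hc, h2⟩ := refine_exists hI hB hT hj hS hzero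
  refine ⟨D.Ls j Lt, newBl (fun u => bl u * (16 * bb m j) + U u) χ (2 ^ m (j + 1) * bb m j),
    D.T2 j Lt T TA, ?_⟩
  exact
  { bl_lt := new_bl_lt hI hT hc
    Q_le := fun u hu => (Finset.mem_filter.1 hu).2
    T_lt := fun u hu => T2_lt hI hB hT hu
    T_inj := T2_inj hI hB hT
    T_dvd := fun u hu => T2_dvd hI hB hT hu
    cnt := fun i => new_cnt hI hB hT hj hS i
    fresh := fun a ha i hi0 hi => new_fresh hT h2 ha hi0 hi
    qform := fun x i hi => new_qform hI hT hj hS hc h2 x hi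
    xb := fun j' hj' _ i hi => new_xb hI hT hj hS hc h2 hj' hi
    uu := fun h hh hh2 => new_uu hI hB hT hj hS hzero hc h2 hh hh2 }

lemma Qf_le_top {j : ℕ} (hgp : ∀ i, D.gp i ≤ j) (u : ι) : D.Qf j u = 0 := by
  unfold Qf
  apply Finset.sum_eq_zero
  intro i _
  rw [if_neg (not_lt.2 (hgp i))]

lemma Tot_ip_top (hgp : ∀ i, D.gp i ≤ j)
    (hW : ∀ i i', ∑ u, D.v u i * D.v u i' = if i = i' then D.f i ^ 2 else 0) (x : I → ℝ) :
    ∑ u, D.ip j u x ^ 2 = D.sqD j x := by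
  have h1 : ∀ u, D.ip j u x ^ 2 = ∑ i, ∑ i', (D.v u i * D.v u i') * (x i * x i') := by
    intro u
    have e : D.ip j u x = ∑ i, D.v u i * x i := by
      unfold ip
      exact Finset.sum_congr rfl fun i _ => by rw [if_pos (hgp i)]
    rw [e, pow_two, Finset.sum_mul_sum]
    exact Finset.sum_congr rfl fun i _ => Finset.sum_congr rfl fun i' _ => by ring
  simp_rw [h1]
  rw [Finset.sum_comm]
  have h2 : ∀ i, ∑ u, ∑ i', (D.v u i * D.v u i') * (x i * x i') = (D.f i * x i) ^ 2 := by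
    intro i
    rw [Finset.sum_comm]
    have h3 : ∀ i', ∑ u, (D.v u i * D.v u i') * (x i * x i')
        = (if i = i' then D.f i ^ 2 else 0) * (x i * x i') := by
      intro i'
      rw [← hW i i', Finset.sum_mul]
    simp_rw [h3]
    rw [Finset.sum_eq_single i]
    · rw [if_pos rfl]
      ring
    · intro b _ hb
      rw [if_neg (Ne.symm hb), zero_mul]
    · intro hh
      exact absurd (Finset.mem_univ i) hh
  simp_rw [h2]
  unfold sqD
  exact Finset.sum_congr rfl fun i _ => by rw [if_pos (hgp i)]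

/-- the base of the induction -/
theorem Inv_base (hS : D.SchOK m al A00)
    (hW : ∀ i i', ∑ u, D.v u i * D.v u i' = if i = i' then D.f i ^ 2 else 0) :
    D.Inv m al A (D.top + 1) Finset.univ (fun _ => 0) (fun _ => 0) := by
  have hgp : ∀ i, D.gp i ≤ D.top + 1 := fun i => (hS.gp1 i).2
  have htt : tt m (D.top + 1) = 1 := by
    unfold tt
    rw [hS.m0]
    simp
  have hcompl : (Finset.univ : Finset ι)ᶜ = ∅ := Finset.compl_univ
  refine ⟨?_, ?_, ?_, ?_, ?_, ?_, ?_, ?_, ?_, ?_⟩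
  · intro u _
    simp
  · intro u _
    rw [Qf_le_top hgp]
    norm_num
  · intro u hu
    exact absurd (Finset.mem_univ u) hu
  · rw [hcompl]
    simp
  · intro u hu
    exact absurd (Finset.mem_univ u) hu
  · intro i
    rw [hcompl]
    unfold CntB
    rw [if_neg (by omega)]
    simp
  · intro a _ i hi0 hi
    rw [hS.m0] at hi
    omega
  · intro x i hi
    rw [hS.m0] at hi
    have hi0 : i = 0 := by omega
    subst hi0
    rw [htt]
    have e : Tot Finset.univ (fun _ : ι => 0) (fun u => D.ip (D.top + 1) u x ^ 2) 0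
        = D.sqD (D.top + 1) x := by
      unfold Tot
      simp only [Finset.filter_true]
      exact Tot_ip_top hgp hW x
    rw [e]
    have hφ := D.hφ (D.top + 1)
    simp only [sub_self, one_mul, abs_zero]
    positivity
  · intro j' _ hj' i hi
    rw [hS.m0] at hi
    have hi0 : i = 0 := by omega
    subst hi0
    rw [htt, one_mul]
    have e : Tot Finset.univ (fun _ : ι => 0) (D.chi j') 0 = ∑ u, D.chi j' u := by
      unfold Tot
      simp only [Finset.filter_true]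
    rw [e]
    have h1 : ∑ u, D.chi j' u ≤ ∑ u, D.Qf j' u :=
      Finset.sum_le_sum fun u _ => min_le_right _ _
    refine h1.trans ((hS.Qsum j' hj').trans ?_)
    unfold Xi
    have hφ := D.hφ j'
    have : (0:ℝ) ≤ 2 * (1 / 2 : ℝ) ^ (D.top + 1 - j') := by positivity
    have h2 : 0 ≤ D.φ j' ^ 2 / 2 ^ 26 := by positivity
    nlinarith
  · intro h hh hh2
    omega

lemma al_step (hS : D.SchOK m al A00) {j : ℕ} (hj : j < D.top) : al (j + 1) + 1 ≤ al j := by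
  have h1 := hS.al2 (j + 1) hj
  have h2 := hS.al1 j (by omega)
  have h3 := hS.φc j
  have h4 := D.hφ (j + 1)
  have h5 := D.hφ j
  have h6 : D.φ (j + 1) ^ 2 ≤ (D.φ j / 2 ^ 15) ^ 2 := pow_le_pow_left₀ h4.le h3 2
  have h7 : (2:ℝ) ^ (al (j + 1) + 1) ≤ 2 ^ al j := by
    rw [pow_succ]
    refine le_trans ?_ h2
    have e : (D.φ j / 2 ^ 15) ^ 2 = D.φ j ^ 2 / 2 ^ 30 := by ring
    rw [e] at h6
    have h8 : (2:ℝ) ^ al (j + 1) ≤ D.φ j ^ 2 / 2 ^ 30 / 2 ^ 22 :=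
      h1.trans (div_le_div_of_nonneg_right h6 (by positivity))
    have h9 : (0:ℝ) ≤ D.φ j ^ 2 := by positivity
    have e2 : D.φ j ^ 2 / 2 ^ 30 / 2 ^ 22 = D.φ j ^ 2 / 2 ^ 52 := by ring
    rw [e2] at h8
    have e3 : D.φ j ^ 2 / 2 ^ 23 = D.φ j ^ 2 / 2 ^ 52 * 2 ^ 29 := by ring
    rw [e3]
    nlinarith [pow_pos (by norm_num : (0:ℝ) < 2) 29, pow_pos (by norm_num : (0:ℝ) < 2) (al (j + 1))]
  exact (pow_le_pow_iff_right₀ (by norm_num)).1 h7

/-- cutting `al` after the top stage -/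
noncomputable def alW (D : Data ι I) (al : ℕ → ℕ) (j : ℕ) : ℕ := if j ≤ D.top then al j else 0

lemma SchOK.wrap (hS : D.SchOK m al A00) : D.SchOK m (D.alW al) A00 := by
  refine ⟨hS.gp1, hS.φc, hS.Qsum, hS.m0, hS.mono, hS.cap, hS.Gam5, ?_, ?_⟩
  · intro j hj
    unfold alW
    rw [if_pos hj]
    exact hS.al1 j hj
  · intro j hj
    unfold alW
    rw [if_pos hj]
    exact hS.al2 j hj

lemma alW_step (hS : D.SchOK m al A00) {j : ℕ} (hj : j ≤ D.top) : D.alW al (j + 1) + 1 ≤ D.alW al j := by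
  by_cases h : j < D.top
  · have := al_step hS.wrap h
    exact this
  · have h1 : j = D.top := by omega
    have h2 := m_le_al hS.wrap hj
    unfold alW
    rw [if_neg (by omega), if_pos hj]
    unfold alW at h2
    rw [if_pos hj] at h2
    omega

lemma alW_le (hS : D.SchOK m al A00) {j : ℕ} (hj : j ≤ D.top + 1) : D.alW al j ≤ D.alW al 0 := by
  induction j with
  | zero => exact le_rfl
  | succ j ih =>
    have h1 := alW_step hS (j := j) (by omega)
    have h2 := ih (by omega)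
    omega

lemma m_le (hS : D.SchOK m al A00) {j : ℕ} (hj : j ≤ D.top + 1) : m j ≤ m 0 := by
  induction j with
  | zero => exact le_rfl
  | succ j ih =>
    have h1 := hS.mono j (by omega)
    have h2 := ih (by omega)
    omega

/-- the stage `0` invariants -/
theorem Inv_zero (hS : D.SchOK m al A00) (hzero : ∀ x, ∑ u, D.v u x = 0)
    (hW : ∀ i i', ∑ u, D.v u i * D.v u i' = if i = i' then D.f i ^ 2 else 0) :
    ∃ Lt bl T, D.Inv m (D.alW al) (m 0 + D.alW al 0 + 5) 0 Lt bl T := by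
  have hS' := hS.wrap
  have key : ∀ k, k ≤ D.top + 1 →
      ∃ Lt bl T, D.Inv m (D.alW al) (m 0 + D.alW al 0 + 5) (D.top + 1 - k) Lt bl T := by
    intro k
    induction k with
    | zero =>
      intro _
      exact ⟨_, _, _, Inv_base hS' hW⟩
    | succ k ih =>
      intro hk
      obtain ⟨Lt, bl, T, hI⟩ := ih (by omega)
      have hj : D.top + 1 - (k + 1) ≤ D.top := by omega
      have e : D.top + 1 - k = (D.top + 1 - (k + 1)) + 1 := by omega
      rw [e] at hI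
      have hT : TimeOK m (D.alW al) (m 0 + D.alW al 0 + 5) (D.top + 1 - (k + 1)) :=
        timeOK_of hS' hj
          (by
            have := m_le hS (j := D.top + 1 - (k + 1)) (by omega)
            omega)
          (by
            have := alW_le hS (j := D.top + 1 - (k + 1)) (by omega)
            omega)
          (alW_step hS hj)
      exact Inv_step hI hT hj hS' hzero
  have := key (D.top + 1) le_rfl
  simpa using this

end Data

end Vale.Agent.Lib.P262S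
end

section
open Finset Real

namespace Vale.Agent.Lib.P262S

set_option linter.unusedSectionVars false
set_option linter.unusedVariables false

namespace Data
variable {ι I : Type} [Fintype ι] [Fintype I] [DecidableEq ι] [DecidableEq I] {D : Data ι I}
variable {m al : ℕ → ℕ} {A : ℕ} {Lt : Finset ι} {bl T : ι → ℕ}

lemma sum_sq_eq_gn (hgp : ∀ i, D.gp i ≤ D.top + 1) (y : I → ℝ) :
    ∑ x, y x ^ 2 = ∑ h ∈ range (D.top + 2), D.gn h y := by
  unfold gn
  rw [Finset.sum_comm]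
  apply Finset.sum_congr rfl
  intro i _
  rw [Finset.sum_eq_single (D.gp i)]
  · simp
  · intro b _ hb
    rw [if_neg (Ne.symm hb)]
  · intro hh
    exact absurd (Finset.mem_range.2 (by have := hgp i; omega)) hh

lemma gn_eq_zero_of_kap {a : ℕ} (h : D.kap a = 0) (y : I → ℝ) : D.gn a y = 0 := by
  unfold gn
  apply Finset.sum_eq_zero
  intro i _
  rw [if_neg]
  intro hi
  unfold kap at h
  simp only [Nat.cast_eq_zero, Finset.card_eq_zero] at h
  exact (Finset.filter_eq_empty_iff.1 h) (Finset.mem_univ i) hi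

lemma kap_zero (hS : D.SchOK m al A00) : D.kap 0 = 0 := by
  unfold kap
  simp only [Nat.cast_eq_zero, Finset.card_eq_zero]
  apply Finset.eq_empty_of_forall_notMem
  intro i hi
  have h1 := (hS.gp1 i).1
  have : D.gp i = 0 := by
    convert (Finset.mem_filter.1 hi).2
  omega

lemma cU_zero (D : Data ι I) (m : ℕ → ℕ) (h : ℕ) : D.cU m h 0 = D.finB m h := by
  unfold cU finB
  rw [Finset.range_eq_Ico]

lemma gr_P_le (hI : D.Inv m al A 0 Lt bl T) {h : ℕ} (hh0 : 0 < h) (hh : h ≤ D.top + 1) {i : ℕ}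
    (hi : i ≤ 2 ^ m 0) :
    D.gr h (Sm Lt bl D.v i + Sm Ltᶜ T D.v (i * 2 ^ (A - m 0))) ≤ D.finB m h := by
  obtain ⟨Rf, a, B, _, hU1, hU2, _, hsum⟩ := hI.uu h hh0 hh
  have e : Sm Lt bl D.v i + Sm Ltᶜ T D.v (i * 2 ^ (A - m 0))
      = (Sm Lt bl D.v i + Rf (i * 2 ^ (A - m 0)))
        + (Sm Ltᶜ T D.v (i * 2 ^ (A - m 0)) - Rf (i * 2 ^ (A - m 0))) := by abel
  rw [e, ← D.cU_zero m h]
  unfold gr at *
  refine (wn_add_le (D.wg_nonneg h) _ _).trans ?_
  linarith [hU1 i hi, hU2 (i * 2 ^ (A - m 0))]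

/-- the square of a prefix at a block boundary -/
theorem prefix_le (hI : D.Inv m al A 0 Lt bl T) (hS : D.SchOK m al A00) {i : ℕ} (hi : i ≤ 2 ^ m 0) :
    ∑ x, (Sm Lt bl D.v i + Sm Ltᶜ T D.v (i * 2 ^ (A - m 0))) x ^ 2
      ≤ ∑ h ∈ range (D.top + 2), if D.kap h = 0 then 0 else D.finB m h ^ 2 := by
  rw [sum_sq_eq_gn (fun i => (hS.gp1 i).2)]
  apply Finset.sum_le_sum
  intro h hh
  rw [Finset.mem_range] at hh
  by_cases hk : D.kap h = 0
  · rw [if_pos hk, gn_eq_zero_of_kap hk]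
  · rw [if_neg hk]
    have hh0 : 0 < h := by
      rcases Nat.eq_zero_or_pos h with h0 | h0
      · subst h0
        exact absurd (kap_zero hS) hk
      · exact h0
    rw [← D.gr_sq]
    exact pow_le_pow_left₀ (wn_nonneg _) (gr_P_le hI hh0 (by omega) hi) 2

/-- the leaf of an item -/
noncomputable def keyF (Lt : Finset ι) (bl T : ι → ℕ) (w : ℕ) (u : ι) : ℕ :=
  if u ∈ Lt then bl u else T u / w

lemma filter_key_sum {E : Type} [AddCommGroup E] (g : ι → E) {w : ℕ} (hw : 0 < w) (i : ℕ) :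
    ∑ u ∈ Finset.univ.filter (fun u => keyF Lt bl T w u < i), g u
      = Sm Lt bl g i + Sm Ltᶜ T g (i * w) := by
  unfold Sm
  rw [Finset.sum_filter, ← Finset.sum_add_sum_compl Lt, Finset.sum_filter, Finset.sum_filter]
  congr 1
  · apply Finset.sum_congr rfl
    intro u hu
    unfold keyF
    rw [if_pos hu]
  · apply Finset.sum_congr rfl
    intro u hu
    unfold keyF
    rw [if_neg (Finset.mem_compl.1 hu)]
    simp only [Nat.div_lt_iff_lt_mul hw]

lemma filter_key_eq {E : Type} [AddCommMonoid E] (g : ι → E) (w i : ℕ) :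
    ∑ u ∈ Finset.univ.filter (fun u => keyF Lt bl T w u = i), g u
      = ∑ u ∈ Lt.filter (fun u => bl u = i), g u
        + ∑ u ∈ (Ltᶜ).filter (fun u => T u / w = i), g u := by
  rw [Finset.sum_filter, ← Finset.sum_add_sum_compl Lt, Finset.sum_filter, Finset.sum_filter]
  congr 1
  · apply Finset.sum_congr rfl
    intro u hu
    unfold keyF
    rw [if_pos hu]
  · apply Finset.sum_congr rfl
    intro u hu
    unfold keyF
    rw [if_neg (Finset.mem_compl.1 hu)]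

lemma key_lt (hI : D.Inv m al A 0 Lt bl T) (hA : m 0 ≤ A) (u : ι) :
    keyF Lt bl T (2 ^ (A - m 0)) u < 2 ^ m 0 := by
  unfold keyF
  by_cases hu : u ∈ Lt
  · rw [if_pos hu]
    exact hI.bl_lt u hu
  · rw [if_neg hu]
    apply Nat.div_lt_of_lt_mul
    have := hI.T_lt u hu
    rw [← pow_add]
    have e : A - m 0 + m 0 = A := by omega
    rw [e]
    exact this

lemma sq_le_chi (hS : D.SchOK m al A00) (u : ι) : ∑ x, D.v u x ^ 2 ≤ D.chi 0 u := by
  apply le_min (D.hv u)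
  unfold Qf
  apply Finset.sum_le_sum
  intro i _
  have h1 := (hS.gp1 i).1
  rw [if_pos (by omega)]
  have h2 : (1:ℝ) ≤ (4:ℝ) ^ (D.gp i - 0) := one_le_pow₀ (by norm_num)
  nlinarith [sq_nonneg (D.v u i)]

/-- the trace of a leaf -/
theorem leaf_trace (hI : D.Inv m al A 0 Lt bl T) (hS : D.SchOK m al A00) {i : ℕ} (hi : i < 2 ^ m 0) :
    ∑ u ∈ Finset.univ.filter (fun u => keyF Lt bl T (2 ^ (A - m 0)) u = i), ∑ x, D.v u x ^ 2
      ≤ D.Gam m 0 := by
  rw [filter_key_eq]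
  have h1 : ∑ u ∈ Lt.filter (fun u => bl u = i), ∑ x, D.v u x ^ 2 ≤ tt m 0 * D.Xi 0 0 := by
    refine le_trans (Finset.sum_le_sum fun u _ => sq_le_chi hS u) ?_
    exact hI.xb 0 le_rfl (Nat.zero_le _) i hi
  have hw : 0 < 2 ^ (A - m 0) := by positivity
  have h2 : ∑ u ∈ (Ltᶜ).filter (fun u => T u / 2 ^ (A - m 0) = i), ∑ x, D.v u x ^ 2 ≤ D.CntB m 0 := by
    have h3 : ∑ u ∈ (Ltᶜ).filter (fun u => T u / 2 ^ (A - m 0) = i), ∑ x, D.v u x ^ 2
        ≤ (((Ltᶜ).filter (fun u => T u / 2 ^ (A - m 0) = i)).card : ℝ) := by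
      have := Finset.sum_le_card_nsmul ((Ltᶜ).filter (fun u => T u / 2 ^ (A - m 0) = i))
        (fun u => ∑ x, D.v u x ^ 2) 1 (fun u _ => D.hv u)
      simpa using this
    refine h3.trans (le_trans ?_ (hI.cnt i))
    apply Nat.cast_le.2
    apply Finset.card_le_card
    intro u hu
    rw [Finset.mem_filter] at hu ⊢
    refine ⟨hu.1, ?_⟩
    have h4 := Nat.div_add_mod (T u) (2 ^ (A - m 0))
    have h5 := Nat.mod_lt (T u) hw
    rw [hu.2] at h4
    constructor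
    · have : i * 2 ^ (A - m 0) = 2 ^ (A - m 0) * i := Nat.mul_comm _ _
      omega
    · have : (i + 1) * 2 ^ (A - m 0) = 2 ^ (A - m 0) * i + 2 ^ (A - m 0) := by ring
      omega
  have hΓ := D.Gam_pos m 0
  have e1 : tt m 0 * D.Xi 0 0 = 3 * D.Gam m 0 / 2 ^ 26 := by
    unfold Xi
    rw [Gam_eq]
    simp only [Nat.sub_self, pow_zero]
    ring
  have e2 : D.CntB m 0 = D.Gam m 0 / 2 ^ 21 := by
    unfold CntB
    rw [if_pos (Nat.zero_le _)]
  rw [e1] at h1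
  rw [e2] at h2
  norm_num at h1 h2 ⊢
  linarith

end Data

end Vale.Agent.Lib.P262S
end

section
open Finset Real

namespace Vale.Agent.Lib.P262S

set_option linter.unusedSectionVars false
set_option linter.unusedVariables false

namespace Data
variable {ι I : Type} [Fintype ι] [Fintype I] [DecidableEq ι] [DecidableEq I] {D : Data ι I}
variable {m al : ℕ → ℕ}

/-- the order for a scheduled family -/
theorem order_of_data (hS : D.SchOK m al A00) (hzero : ∀ x, ∑ u, D.v u x = 0)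
    (hW : ∀ i i', ∑ u, D.v u i * D.v u i' = if i = i' then D.f i ^ 2 else 0) :
    ∃ l : List ι, l.Perm (Finset.univ.toList) ∧ ∀ k, √(∑ x, (((l.take k).map D.v).sum x) ^ 2)
      ≤ 5 * √(∑ h ∈ range (D.top + 2), if D.kap h = 0 then 0 else D.finB m h ^ 2) + √(D.Gam m 0) := by
  obtain ⟨Lt, bl, T, hI⟩ := Inv_zero hS hzero hW
  set A := m 0 + D.alW al 0 + 5 with hA
  have hA0 : m 0 ≤ A := by omega
  have hw : 0 < 2 ^ (A - m 0) := by positivity
  apply concat_order D.v (keyF Lt bl T (2 ^ (A - m 0))) (key_lt hI hA0)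
  · intro i hi
    apply Real.sqrt_le_sqrt
    have e : ∀ x, ∑ u ∈ Finset.univ.filter (fun u => keyF Lt bl T (2 ^ (A - m 0)) u < i), D.v u x
        = (Sm Lt bl D.v i + Sm Ltᶜ T D.v (i * 2 ^ (A - m 0))) x := by
      intro x
      rw [← filter_key_sum D.v hw i, Finset.sum_apply]
    simp_rw [e]
    exact prefix_le hI hS.wrap hi
  · intro i hi
    exact leaf_trace hI hS.wrap hi

end Data

/-- a nodup list as a subset sum -/
lemma take_map_sum {ι E : Type} [DecidableEq ι] [AddCommMonoid E] (L : List ι) (hL : L.Nodup) (k : ℕ)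
    (g : ι → E) : ((L.take k).map g).sum = ∑ u ∈ (L.take k).toFinset, g u :=
  (List.sum_toFinset g ((List.take_sublist k L).nodup hL)).symm

/-- **the Euclidean Steinitz constant has order `√d`** -/
theorem steinitz_sqrt : ∃ C : ℝ, 0 < C ∧ ∀ d : ℕ, 1 ≤ d → ∀ l : List (EuclideanSpace ℝ (Fin d)),
    (∀ v ∈ l, ‖v‖ ≤ 1) → l.sum = 0 →
    ∃ l' : List (EuclideanSpace ℝ (Fin d)), l'.Perm l ∧
      ∀ k : ℕ, ‖(l'.take k).sum‖ ≤ C * √(d:ℝ) := by
  obtain ⟨Cf, hCf, hsched⟩ := schedule_exists A00 A00_ge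
  refine ⟨6 * √Cf, by positivity, ?_⟩
  intro d hd l hl hl0
  set n := l.length with hn
  set vec : Fin n → EuclideanSpace ℝ (Fin d) := l.get with hvec
  obtain ⟨d', w, f, hd', hf, hW, hiso⟩ := eigen_reduction vec
  have hdr : (d':ℝ) ≤ d := by exact_mod_cast hd'
  -- facts on `w`
  have hsumvec : ∑ u, vec u = l.sum := by
    have h1 := List.map_get_finRange l
    have h2 := List.sum_toFinset vec (List.nodup_finRange n)
    rw [List.toFinset_finRange] at h2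
    rw [h2]
    exact congrArg List.sum h1
  have hzero : ∀ x, ∑ u, w u x = 0 := by
    have h1 := hiso (fun _ => 1)
    simp only [one_mul, one_smul] at h1
    rw [hsumvec, hl0, norm_zero] at h1
    intro x
    have h2 := (Finset.sum_eq_zero_iff_of_nonneg (fun i _ => sq_nonneg _)).1
      (by simpa using h1) x (Finset.mem_univ x)
    simpa using h2
  have hnorm : ∀ u, ∑ i, w u i ^ 2 ≤ 1 := by
    intro u
    have h1 := hiso (fun u' => if u' = u then 1 else 0)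
    have e1 : ∀ i, ∑ u', (if u' = u then (1:ℝ) else 0) * w u' i = w u i := by
      intro i
      simp
    have e2 : ∑ u', (if u' = u then (1:ℝ) else 0) • vec u' = vec u := by
      simp
    simp_rw [e1] at h1
    rw [e2] at h1
    rw [h1]
    have h3 : ‖vec u‖ ≤ 1 := hl _ (List.get_mem l u)
    have h4 := norm_nonneg (vec u)
    nlinarith
  have hsq : ∀ i, ∑ u, w u i ^ 2 = f i ^ 2 := by
    intro i
    have := hW i i
    rw [if_pos rfl] at this
    rw [← this]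
    exact Finset.sum_congr rfl fun u _ => by ring
  -- an order of the indices
  have hmain : ∃ L : List (Fin n), L.Perm (Finset.univ.toList) ∧
      ∀ k, √(∑ x, (((L.take k).map w).sum x) ^ 2) ≤ 6 * √Cf * √(d:ℝ) := by
    rcases Nat.eq_zero_or_pos d' with h0 | h0
    · subst h0
      refine ⟨Finset.univ.toList, List.Perm.refl _, fun k => ?_⟩
      simp only [Finset.univ_eq_empty, Finset.sum_empty, Real.sqrt_zero]
      positivity
    · obtain ⟨D, m, al, h1, h2, hS, hB1, hB2⟩ := hsched (ι := Fin n) (d := d') h0 w f hf hnorm hsq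
      subst h1
      subst h2
      obtain ⟨L, hL1, hL2⟩ := Data.order_of_data hS hzero hW
      refine ⟨L, hL1, fun k => (hL2 k).trans ?_⟩
      have hsqrt : ∀ z, z ≤ Cf * d' → √z ≤ √Cf * √(d:ℝ) := by
        intro z hz
        rw [← Real.sqrt_mul hCf.le]
        apply Real.sqrt_le_sqrt
        refine hz.trans ?_
        exact mul_le_mul_of_nonneg_left hdr hCf.le
      have h3 := hsqrt _ hB1
      have h4 := hsqrt _ hB2
      nlinarith
  obtain ⟨L, hL1, hL2⟩ := hmain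
  have hLnd : L.Nodup := hL1.nodup_iff.2 (Finset.nodup_toList _)
  refine ⟨L.map vec, ?_, ?_⟩
  · have h1 : (Finset.univ : Finset (Fin n)).toList.Perm (List.finRange n) := by
      rw [List.perm_ext_iff_of_nodup (Finset.nodup_toList _) (List.nodup_finRange n)]
      intro a
      simp
    have h2 := ((hL1.trans h1).map vec)
    refine h2.trans ?_
    exact (congrArg (fun z => z) (List.map_get_finRange l)).subst (motive := fun z => List.Perm _ z)
      (List.Perm.refl _)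
  · intro k
    rw [← List.map_take, take_map_sum L hLnd k vec]
    have h1 := hiso (fun u => if u ∈ (L.take k).toFinset then 1 else 0)
    have e1 : ∑ u, (if u ∈ (L.take k).toFinset then (1:ℝ) else 0) • vec u
        = ∑ u ∈ (L.take k).toFinset, vec u := by
      rw [← Finset.sum_filter_add_sum_filter_not Finset.univ (fun u => u ∈ (L.take k).toFinset)]
      have h2 : ∑ u ∈ Finset.univ.filter (fun u => ¬ u ∈ (L.take k).toFinset),
          (if u ∈ (L.take k).toFinset then (1:ℝ) else 0) • vec u = 0 := by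
        apply Finset.sum_eq_zero
        intro u hu
        rw [if_neg (Finset.mem_filter.1 hu).2, zero_smul]
      rw [h2, add_zero, Finset.filter_mem_eq_inter, Finset.univ_inter]
      apply Finset.sum_congr rfl
      intro u hu
      rw [if_pos hu, one_smul]
    have e2 : ∀ x, ∑ u, (if u ∈ (L.take k).toFinset then (1:ℝ) else 0) * w u x
        = ((L.take k).map w).sum x := by
      intro x
      rw [take_map_sum L hLnd k w, Finset.sum_apply]
      rw [← Finset.sum_filter_add_sum_filter_not Finset.univ (fun u => u ∈ (L.take k).toFinset)]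
      have h2 : ∑ u ∈ Finset.univ.filter (fun u => ¬ u ∈ (L.take k).toFinset),
          (if u ∈ (L.take k).toFinset then (1:ℝ) else 0) * w u x = 0 := by
        apply Finset.sum_eq_zero
        intro u hu
        rw [if_neg (Finset.mem_filter.1 hu).2, zero_mul]
      rw [h2, add_zero, Finset.filter_mem_eq_inter, Finset.univ_inter]
      apply Finset.sum_congr rfl
      intro u hu
      rw [if_pos hu, one_mul]
    simp_rw [e2] at h1
    rw [e1] at h1
    have h3 := hL2 k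
    rw [h1, Real.sqrt_sq (norm_nonneg _)] at h3
    exact h3

end Vale.Agent.Lib.P262S
end
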