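import Vale.Agent.Lib.P262S.Blocks
import Vale.Agent.Lib.P262S.CertEx

open Finset Real

namespace Vale.Agent.Lib.P262S

set_option linter.unusedSectionVars false

/-- affine on each time block of width `w` -/
def AffOn {E : Type} [AddCommGroup E] [Module ℝ E] (R : ℕ → E) (w : ℕ) : Prop :=
  ∀ i k, k ≤ w → R (i * w + k) = R (i * w) + ((k:ℝ) / w) • (R ((i + 1) * w) - R (i * w))

/-- linear interpolation of a function on the grid of width `w` -/
noncomputable def LinT {E : Type} [AddCommGroup E] [Module ℝ E] (F : ℕ → E) (w τ : ℕ) : E :=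
  F ((τ / w) * w) + (((τ % w : ℕ) : ℝ) / w) • (F ((τ / w + 1) * w) - F ((τ / w) * w))

section Aff
variable {E : Type} [AddCommGroup E] [Module ℝ E]

lemma LinT_grid (F : ℕ → E) {w : ℕ} (hw : 0 < w) (i : ℕ) : LinT F w (i * w) = F (i * w) := by
  unfold LinT
  have h1 : i * w / w = i := Nat.mul_div_cancel _ hw
  have h2 : i * w % w = 0 := Nat.mul_mod_left _ _
  rw [h1, h2]
  simp

lemma LinT_aff (F : ℕ → E) {w : ℕ} (hw : 0 < w) : AffOn (LinT F w) w := by
  intro i k hk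
  have hwr : (w:ℝ) ≠ 0 := by positivity
  rw [LinT_grid F hw, LinT_grid F hw]
  rcases Nat.lt_or_ge k w with h | h
  · have h1 : (i * w + k) / w = i := by
      rw [Nat.add_comm, Nat.add_mul_div_right _ _ hw, Nat.div_eq_of_lt h]
      omega
    have h2 : (i * w + k) % w = k := by
      rw [Nat.add_comm, Nat.add_mul_mod_self_right, Nat.mod_eq_of_lt h]
    unfold LinT
    rw [h1, h2]
  · have h3 : k = w := le_antisymm hk h
    subst h3
    have h1 : (i * k + k) = (i + 1) * k := by ring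
    rw [h1, LinT_grid F hw]
    rw [div_self hwr, one_smul]
    abel

lemma AffOn.step {R : ℕ → E} {N δ : ℕ} (hR : AffOn R (N * δ)) (hN : 0 < N) (hδ : 0 < δ) (p : ℕ) :
    R (p * δ) = R ((p / N) * (N * δ))
      + (((p % N : ℕ) : ℝ) / N) • (R ((p / N + 1) * (N * δ)) - R ((p / N) * (N * δ))) := by
  have hNr : (N:ℝ) ≠ 0 := by positivity
  have hδr : (δ:ℝ) ≠ 0 := by positivity
  have hmod := Nat.mod_lt p hN
  have hk : (p % N) * δ ≤ N * δ := Nat.mul_le_mul_right _ hmod.le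
  have := hR (p / N) ((p % N) * δ) hk
  have e : (p / N) * (N * δ) + (p % N) * δ = p * δ := by
    have : p = N * (p / N) + p % N := (Nat.div_add_mod p N).symm
    calc (p / N) * (N * δ) + (p % N) * δ = (N * (p / N) + p % N) * δ := by ring
      _ = p * δ := by rw [← this]
  rw [e] at this
  rw [this]
  congr 2
  push_cast
  field_simp

lemma AffOn.succ {R : ℕ → E} {N δ : ℕ} (hR : AffOn R (N * δ)) (hN : 0 < N) (hδ : 0 < δ) (p : ℕ) :
    R ((p + 1) * δ) - R (p * δ)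
      = (1 / (N:ℝ)) • (R ((p / N + 1) * (N * δ)) - R ((p / N) * (N * δ))) := by
  have hNr : (N:ℝ) ≠ 0 := by positivity
  have hδr : (δ:ℝ) ≠ 0 := by positivity
  have hmod := Nat.mod_lt p hN
  have hk : (p % N + 1) * δ ≤ N * δ := Nat.mul_le_mul_right _ hmod
  have h1 := hR (p / N) ((p % N + 1) * δ) hk
  have e : (p / N) * (N * δ) + (p % N + 1) * δ = (p + 1) * δ := by
    have : p = N * (p / N) + p % N := (Nat.div_add_mod p N).symm
    calc (p / N) * (N * δ) + (p % N + 1) * δ = (N * (p / N) + p % N + 1) * δ := by ring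
      _ = (p + 1) * δ := by rw [← this]
  rw [e] at h1
  rw [h1, hR.step hN hδ p]
  have e2 : (((p % N + 1) * δ : ℕ) : ℝ) / ((N * δ : ℕ) : ℝ) = ((p % N : ℕ) : ℝ) / N + 1 / N := by
    push_cast
    field_simp
  rw [e2, add_smul]
  abel

end Aff

section Bas
variable {ι I : Type} [Fintype I]

/-- convex combination form of the affine part -/
lemma lin_aff (Lt : Finset ι) (bl : ι → ℕ) (g : ι → I → ℝ) {R : ℕ → I → ℝ} {N δ : ℕ}
    (hR : AffOn R (N * δ)) (hN : 0 < N) (hδ : 0 < δ) (p : ℕ) :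
    Lin Lt bl N g p + R (p * δ)
      = (1 - ((p % N : ℕ) : ℝ) / N) • (Sm Lt bl g (p / N) + R ((p / N) * (N * δ)))
        + (((p % N : ℕ) : ℝ) / N) • (Sm Lt bl g (p / N + 1) + R ((p / N + 1) * (N * δ))) := by
  unfold Lin
  rw [hR.step hN hδ p, Sm_succ]
  module

lemma wn_aff {w₀ : I → ℝ} (hw : ∀ i, 0 ≤ w₀ i) (Lt : Finset ι) (bl : ι → ℕ) (g : ι → I → ℝ)
    {R : ℕ → I → ℝ} {N δ M : ℕ}
    (hR : AffOn R (N * δ)) (hN : 0 < N) (hδ : 0 < δ) {a : ℝ}
    (ha : ∀ i, i ≤ M → wn w₀ (Sm Lt bl g i + R (i * (N * δ))) ≤ a) {p : ℕ} (hp : p < N * M) :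
    wn w₀ (Lin Lt bl N g p + R (p * δ)) ≤ a := by
  rw [lin_aff Lt bl g hR hN hδ p]
  have hi : p / N < M := Nat.div_lt_of_lt_mul hp
  have hNr : (0:ℝ) < N := by positivity
  apply wn_convex hw
  · positivity
  · rw [div_le_one hNr]
    exact_mod_cast (Nat.mod_lt p hN).le
  · exact ha _ hi.le
  · exact ha _ hi

/-- the baseline bound in any seminorm -/
theorem bas_bound {w₀ : I → ℝ} (hw : ∀ i, 0 ≤ w₀ i) (Lt : Finset ι) (bl U : ι → ℕ) (g : ι → I → ℝ)
    {R : ℕ → I → ℝ} {N δ M : ℕ} (hU : ∀ u, U u < N)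
    (hR : AffOn R (N * δ)) (hN : 0 < N) (hδ : 0 < δ) {a d : ℝ}
    (ha : ∀ i, i ≤ M → wn w₀ (Sm Lt bl g i + R (i * (N * δ))) ≤ a)
    (hd : ∀ i, i < M → wn w₀ (R ((i + 1) * (N * δ)) - R (i * (N * δ))) ≤ d)
    {s : ℕ} (hs : 0 < s) (hsM : 16 * s + 1 < N * M) :
    wn w₀ (Bas Lt (fun u => bl u * N + U u) g s + R (16 * s * δ))
      ≤ a + d / N + (1 / 2) * (wn w₀ (Dv Lt bl U N g (16 * s - 1))
        + wn w₀ (Dv Lt bl U N g (16 * s + 1))) := by
  have hNr : (0:ℝ) < N := by positivity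
  set p := 16 * s - 1 with hp
  have hp1 : p + 1 = 16 * s := by omega
  have hp2 : 16 * s + 1 = p + 2 := by omega
  have h1 := wn_aff hw Lt bl g hR hN hδ ha (p := p) (by omega)
  have h2 := wn_aff hw Lt bl g hR hN hδ ha (p := p + 2) (by omega)
  have hs1 := hR.succ hN hδ p
  have hs2 := hR.succ hN hδ (p + 1)
  have hi1 : p / N < M := Nat.div_lt_of_lt_mul (by omega)
  have hi2 : (p + 1) / N < M := Nat.div_lt_of_lt_mul (by omega)
  have hd1 := hd _ hi1
  have hd2 := hd _ hi2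
  -- the identity
  have key : Bas Lt (fun u => bl u * N + U u) g s + R (16 * s * δ)
      = (1 / 2 : ℝ) • (Lin Lt bl N g p + R (p * δ)) + (1 / 2 : ℝ) • (Lin Lt bl N g (p + 2) + R ((p + 2) * δ))
        + (1 / 2 : ℝ) • (Dv Lt bl U N g p + Dv Lt bl U N g (p + 2))
        + ((1 / 2 : ℝ) * (1 / (N:ℝ))) • (R ((p / N + 1) * (N * δ)) - R ((p / N) * (N * δ)))
        - ((1 / 2 : ℝ) * (1 / (N:ℝ))) • (R (((p + 1) / N + 1) * (N * δ)) - R (((p + 1) / N) * (N * δ))) := by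
    unfold Bas
    rw [hp2, pre_eq Lt bl U N g hN hU, pre_eq Lt bl U N g hN hU]
    have e1 : R ((p + 2) * δ) = R (16 * s * δ) + (1 / (N:ℝ)) • (R (((p + 1) / N + 1) * (N * δ)) - R (((p + 1) / N) * (N * δ))) := by
      rw [← hs2, hp1]
      have : 16 * s + 1 = p + 2 := hp2
      rw [← this]
      abel
    have e2 : R (p * δ) = R (16 * s * δ) - (1 / (N:ℝ)) • (R ((p / N + 1) * (N * δ)) - R ((p / N) * (N * δ))) := by
      rw [← hs1, hp1]
      abel
    rw [e1, e2]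
    module
  rw [key]
  have hw1 : ∀ (c : ℝ) (y : I → ℝ), 0 ≤ c → wn w₀ (c • y) = c * wn w₀ y := by
    intro c y hc
    rw [wn_smul, abs_of_nonneg hc]
  have t1 := wn_sub_le hw
    ((1 / 2 : ℝ) • (Lin Lt bl N g p + R (p * δ)) + (1 / 2 : ℝ) • (Lin Lt bl N g (p + 2) + R ((p + 2) * δ))
        + (1 / 2 : ℝ) • (Dv Lt bl U N g p + Dv Lt bl U N g (p + 2))
        + ((1 / 2 : ℝ) * (1 / (N:ℝ))) • (R ((p / N + 1) * (N * δ)) - R ((p / N) * (N * δ))))
    (((1 / 2 : ℝ) * (1 / (N:ℝ))) • (R (((p + 1) / N + 1) * (N * δ)) - R (((p + 1) / N) * (N * δ))))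
  have t2 := wn_add_le hw
    ((1 / 2 : ℝ) • (Lin Lt bl N g p + R (p * δ)) + (1 / 2 : ℝ) • (Lin Lt bl N g (p + 2) + R ((p + 2) * δ))
        + (1 / 2 : ℝ) • (Dv Lt bl U N g p + Dv Lt bl U N g (p + 2)))
    (((1 / 2 : ℝ) * (1 / (N:ℝ))) • (R ((p / N + 1) * (N * δ)) - R ((p / N) * (N * δ))))
  have t3 := wn_add_le hw
    ((1 / 2 : ℝ) • (Lin Lt bl N g p + R (p * δ)) + (1 / 2 : ℝ) • (Lin Lt bl N g (p + 2) + R ((p + 2) * δ)))
    ((1 / 2 : ℝ) • (Dv Lt bl U N g p + Dv Lt bl U N g (p + 2)))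
  have t4 := wn_add_le hw
    ((1 / 2 : ℝ) • (Lin Lt bl N g p + R (p * δ)))
    ((1 / 2 : ℝ) • (Lin Lt bl N g (p + 2) + R ((p + 2) * δ)))
  have t5 := wn_add_le hw (Dv Lt bl U N g p) (Dv Lt bl U N g (p + 2))
  have hc0 : (0:ℝ) ≤ 1 / 2 := by norm_num
  have hc1 : (0:ℝ) ≤ (1 / 2 : ℝ) * (1 / (N:ℝ)) := by positivity
  rw [hw1 _ _ hc1] at t1 t2
  rw [hw1 _ _ hc0] at t3
  rw [hw1 _ _ hc0, hw1 _ _ hc0] at t4
  have hd1' : (1 / 2 : ℝ) * (1 / (N:ℝ)) * wn w₀ (R ((p / N + 1) * (N * δ)) - R ((p / N) * (N * δ)))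
      ≤ (1 / 2 : ℝ) * (1 / (N:ℝ)) * d := mul_le_mul_of_nonneg_left hd1 hc1
  have hd2' : (1 / 2 : ℝ) * (1 / (N:ℝ)) * wn w₀ (R (((p + 1) / N + 1) * (N * δ)) - R (((p + 1) / N) * (N * δ)))
      ≤ (1 / 2 : ℝ) * (1 / (N:ℝ)) * d := mul_le_mul_of_nonneg_left hd2 hc1
  have e3 : d / N = 2 * ((1 / 2 : ℝ) * (1 / (N:ℝ)) * d) := by
    field_simp
  rw [hp2, e3]
  linarith

end Bas

namespace Data
variable {ι I : Type} [Fintype ι] [Fintype I] [DecidableEq ι] [DecidableEq I] (D : Data ι I)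

lemma Cert12.wh_bound {D : Data ι I} {j : ℕ} {e : ℝ} {S : Finset ι} {c : ι → ℝ}
    (hC : D.Cert12 j e S c) (he : 0 ≤ e) :
    D.φ j * wn (D.wh j) (D.comb S c) ≤ √(C1 * (D.khat j + 2 * e + 1)) := by
  have hC1 := C1_ge
  have hφ := D.hφ j
  apply Real.le_sqrt_of_sq_le
  rw [mul_pow, D.wh_sq]
  have h1 : ∑ a ∈ range (j + 1), D.gn a (D.comb S c) / D.φ a ^ 2
      ≤ C1 * ∑ a ∈ range (j + 1), (D.kap a + e + ((j - a : ℕ) : ℝ)) / D.φ a ^ 2 := by
    rw [Finset.mul_sum]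
    apply Finset.sum_le_sum
    intro a ha
    rw [Finset.mem_range] at ha
    have h2 := hC.c1 a (by omega)
    rw [← mul_div_assoc]
    exact div_le_div_of_nonneg_right h2 (by positivity)
  have h3 := D.whiten_sum j he
  calc D.φ j ^ 2 * ∑ a ∈ range (j + 1), D.gn a (D.comb S c) / D.φ a ^ 2
      ≤ D.φ j ^ 2 * (C1 * ∑ a ∈ range (j + 1), (D.kap a + e + ((j - a : ℕ) : ℝ)) / D.φ a ^ 2) :=
        mul_le_mul_of_nonneg_left h1 (by positivity)
    _ = C1 * (D.φ j ^ 2 * ∑ a ∈ range (j + 1), (D.kap a + e + ((j - a : ℕ) : ℝ)) / D.φ a ^ 2) := by ring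
    _ ≤ C1 * (D.khat j + 2 * e + 1) := mul_le_mul_of_nonneg_left h3 (by linarith)

lemma Cert12.congr {D : Data ι I} {j : ℕ} {e : ℝ} {S : Finset ι} {c c' : ι → ℝ}
    (hC : D.Cert12 j e S c) (h : ∀ u ∈ S, c u = c' u) : D.Cert12 j e S c' := by
  have : D.comb S c = D.comb S c' := by
    ext i
    unfold comb
    apply Finset.sum_congr rfl
    intro u hu
    rw [h u hu]
  constructor
  · rw [← this]
    exact hC.c1
  · rw [← this]
    exact hC.c2

lemma Cert.congr {D : Data ι I} {j : ℕ} {e : ℝ} {S : Finset ι} {c c' : ι → ℝ}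
    (hC : D.Cert j e S c) (h : ∀ u ∈ S, c u = c' u) : D.Cert j e S c' := by
  refine ⟨hC.toCert12.congr h, ?_, ?_⟩
  · intro x
    have : ∑ u ∈ S, c' u * D.ip j u x ^ 2 = ∑ u ∈ S, c u * D.ip j u x ^ 2 :=
      Finset.sum_congr rfl fun u hu => by rw [h u hu]
    rw [this]
    exact hC.c3 x
  · intro j' hj'
    have : ∑ u ∈ S, c' u * D.chi j' u = ∑ u ∈ S, c u * D.chi j' u :=
      Finset.sum_congr rfl fun u hu => by rw [h u hu]
    rw [this]
    exact hC.c4 j' hj'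

lemma kap_nonneg (a : ℕ) : 0 ≤ D.kap a := by
  unfold kap
  positivity

lemma khat_nonneg (j : ℕ) : 0 ≤ D.khat j := by
  unfold khat
  apply Finset.sum_nonneg
  intro a _
  have h1 := D.hφ a
  have h2 := D.hφ j
  have := D.kap_nonneg a
  positivity

lemma sq_nonneg' (j : ℕ) (x : I → ℝ) : 0 ≤ D.sq j x :=
  Finset.sum_nonneg fun i _ => by split_ifs <;> positivity

lemma sqD_nonneg (j : ℕ) (x : I → ℝ) : 0 ≤ D.sqD j x :=
  Finset.sum_nonneg fun i _ => by split_ifs <;> positivity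

lemma sq_le_sqD {j : ℕ} (hj : j ≤ D.top) (x : I → ℝ) : D.φ j ^ 2 * D.sq j x ≤ D.sqD j x := by
  unfold sq sqD
  rw [Finset.mul_sum]
  apply Finset.sum_le_sum
  intro i _
  by_cases hi : D.gp i ≤ j
  · simp only [hi, if_true]
    have h1 := D.f_ge hj hi
    have h2 := D.hφ j
    rw [mul_pow]
    apply mul_le_mul_of_nonneg_right _ (sq_nonneg _)
    exact pow_le_pow_left₀ h2.le h1 2
  · simp [hi]

lemma ip_sq_le (j : ℕ) (u : ι) (x : I → ℝ) : D.ip j u x ^ 2 ≤ D.sq j x := by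
  have h1 := Real.sum_mul_le_sqrt_mul_sqrt Finset.univ
    (fun i => if D.gp i ≤ j then D.v u i else 0) (fun i => if D.gp i ≤ j then x i else 0)
  have e1 : ∑ i, (if D.gp i ≤ j then D.v u i else 0) * (if D.gp i ≤ j then x i else 0)
      = D.ip j u x := by
    unfold ip
    apply Finset.sum_congr rfl
    intro i _
    split_ifs <;> simp
  have e2 : ∑ i, (if D.gp i ≤ j then x i else 0) ^ 2 = D.sq j x := by
    unfold sq
    apply Finset.sum_congr rfl
    intro i _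
    split_ifs <;> simp
  have h2 : ∑ i, (if D.gp i ≤ j then D.v u i else 0) ^ 2 ≤ 1 := by
    refine le_trans (Finset.sum_le_sum fun i _ => ?_) (D.hv u)
    split_ifs
    · exact le_rfl
    · simp only [ne_eq, OfNat.ofNat_ne_zero, not_false_eq_true, zero_pow]
      positivity
  -- two sided
  have hC : |D.ip j u x| ≤ √(D.sq j x) := by
    rw [abs_le]
    have h3 : √(∑ i, (if D.gp i ≤ j then D.v u i else 0) ^ 2) ≤ 1 := by
      apply Real.sqrt_le_iff.2
      constructor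
      · norm_num
      · simpa using h2
    have hs := Real.sqrt_nonneg (D.sq j x)
    rw [e1, e2] at h1
    have h4 := Real.sum_mul_le_sqrt_mul_sqrt Finset.univ
      (fun i => - (if D.gp i ≤ j then D.v u i else 0)) (fun i => if D.gp i ≤ j then x i else 0)
    have e3 : ∑ i, (- (if D.gp i ≤ j then D.v u i else 0)) * (if D.gp i ≤ j then x i else 0)
        = - D.ip j u x := by
      rw [← e1, ← Finset.sum_neg_distrib]
      apply Finset.sum_congr rfl
      intro i _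
      ring
    have e4 : ∑ i, (- (if D.gp i ≤ j then D.v u i else 0)) ^ 2
        = ∑ i, (if D.gp i ≤ j then D.v u i else 0) ^ 2 :=
      Finset.sum_congr rfl fun i _ => by rw [neg_sq]
    rw [e3, e4, e2] at h4
    have h5 := mul_le_mul_of_nonneg_right h3 hs
    constructor <;> linarith
  have := sq_le_sq' (abs_le.1 hC).1 (abs_le.1 hC).2
  rwa [Real.sq_sqrt (D.sq_nonneg' j x)] at this

lemma chi_nonneg (j : ℕ) (u : ι) : 0 ≤ D.chi j u := by
  unfold chi
  apply le_min (by norm_num)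
  unfold Qf
  apply Finset.sum_nonneg
  intro i _
  split_ifs <;> positivity

lemma chi_le_one (j : ℕ) (u : ι) : D.chi j u ≤ 1 := min_le_left _ _

lemma chi_sq_le (j : ℕ) (u : ι) : D.chi j u ^ 2 ≤ D.chi j u := by
  have h1 := D.chi_nonneg j u
  have h2 := D.chi_le_one j u
  nlinarith

lemma gn_v_le {j h : ℕ} (hjh : j < h) (u : ι) (hu : D.Qf j u ≤ 1) :
    D.gn h (D.v u) ≤ (1 / 4 : ℝ) ^ (h - j) * D.chi j u := by
  have hchi : D.chi j u = D.Qf j u := min_eq_right hu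
  rw [hchi]
  unfold gn Qf
  rw [Finset.mul_sum]
  apply Finset.sum_le_sum
  intro i _
  by_cases hi : D.gp i = h
  · have : j < D.gp i := by omega
    simp only [hi, if_true, hjh]
    have e : (1 / 4 : ℝ) ^ (h - j) * (4:ℝ) ^ (h - j) = 1 := by
      rw [← mul_pow]
      norm_num
    have e2 : (1 / 4 : ℝ) ^ (h - j) * ((4:ℝ) ^ (h - j) * D.v u i ^ 2) = D.v u i ^ 2 := by
      rw [← mul_assoc, e, one_mul]
    exact e2.ge
  · simp only [hi, if_false]
    apply mul_nonneg (by positivity)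
    split_ifs <;> positivity

end Data

end Vale.Agent.Lib.P262S
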