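import Vale.Agent.Lib.P262S.Refine1

section
open Finset Real

namespace Vale.Agent.Lib.P262S

set_option linter.unusedSectionVars false

lemma abs_sum_mul_le {α : Type} (Z : Finset α) (f g : α → ℝ) :
    |∑ u ∈ Z, f u * g u| ≤ √(∑ u ∈ Z, f u ^ 2) * √(∑ u ∈ Z, g u ^ 2) := by
  rw [abs_le]
  constructor
  · have h := Real.sum_mul_le_sqrt_mul_sqrt Z (fun u => - f u) g
    have e1 : ∑ u ∈ Z, - f u * g u = - ∑ u ∈ Z, f u * g u := by
      rw [← Finset.sum_neg_distrib]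
      exact Finset.sum_congr rfl fun u _ => by ring
    have e2 : ∑ u ∈ Z, (- f u) ^ 2 = ∑ u ∈ Z, f u ^ 2 :=
      Finset.sum_congr rfl fun u _ => by rw [neg_sq]
    rw [e1, e2] at h
    linarith
  · exact Real.sum_mul_le_sqrt_mul_sqrt Z f g

section Ends
variable {ι E : Type} [AddCommGroup E] [Module ℝ E]

/-- clipped positions -/
def pm (M' s : ℕ) : ℕ := if s = 0 then 0 else if s < M' then 16 * s - 1 else 16 * M'
/-- clipped positions -/
def pp (M' s : ℕ) : ℕ := if s = 0 then 0 else if s < M' then 16 * s + 1 else 16 * M'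

lemma pm_pp_sum {M' s : ℕ} (hs : s < M') : (pm M' (s + 1) - pm M' s) + (pp M' (s + 1) - pp M' s) = 32 := by
  unfold pm pp
  by_cases h0 : s = 0
  · subst h0
    by_cases h1 : 0 + 1 < M'
    · simp [h1]
    · have : M' = 1 := by omega
      subst this
      simp
  · by_cases h1 : s + 1 < M'
    · simp only [h0, if_false, hs, if_true, h1, Nat.succ_ne_zero]
      omega
    · have : M' = s + 1 := by omega
      subst this
      simp only [h0, if_false, Nat.lt_irrefl, hs, if_true, Nat.succ_ne_zero]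
      omega

lemma pm_le {M' s : ℕ} (hs : s < M') : pm M' s ≤ pm M' (s + 1) := by
  unfold pm
  by_cases h0 : s = 0
  · simp [h0]
  · by_cases h1 : s + 1 < M'
    · simp only [h0, if_false, hs, if_true, h1, Nat.succ_ne_zero]
      omega
    · have : M' = s + 1 := by omega
      subst this
      simp only [h0, if_false, Nat.lt_irrefl, hs, if_true, Nat.succ_ne_zero]
      omega

lemma pp_le {M' s : ℕ} (hs : s < M') : pp M' s ≤ pp M' (s + 1) := by
  unfold pp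
  by_cases h0 : s = 0
  · simp [h0]
  · by_cases h1 : s + 1 < M'
    · simp only [h0, if_false, hs, if_true, h1, Nat.succ_ne_zero]
      omega
    · have : M' = s + 1 := by omega
      subst this
      simp only [h0, if_false, Nat.lt_irrefl, hs, if_true, Nat.succ_ne_zero]
      omega

lemma pm_top {M' s : ℕ} (hs : s ≤ M') : pm M' s ≤ 16 * M' := by
  unfold pm
  split_ifs <;> omega

lemma pp_top {M' s : ℕ} (hs : s ≤ M') : pp M' s ≤ 16 * M' := by
  unfold pp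
  split_ifs <;> omega

/-- baseline with the end conventions -/
noncomputable def BasE (Lt : Finset ι) (pos : ι → ℕ) (g : ι → E) (M' s : ℕ) : E :=
  (1 / 2 : ℝ) • (Sm Lt pos g (pm M' s) + Sm Lt pos g (pp M' s))

/-- residual with the end conventions -/
noncomputable def ResE (Lt : Finset ι) (pos : ι → ℕ) (c : ι → ℝ) (g : ι → E) (M' s : ℕ) : E :=
  if 0 < s ∧ s < M' then ∑ u ∈ Zs Lt pos s, c u • g u else 0

lemma sm_new_E (Lt : Finset ι) (pos : ι → ℕ) (χ : ι → ℝ) (hχ : ∀ u, χ u = 0 ∨ χ u = 1) (g : ι → E)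
    {M' s : ℕ} (hs : s ≤ M') (hu : ∀ u ∈ Lt, pos u < 16 * M') :
    Sm Lt (newBl pos χ M') g s
      = BasE Lt pos g M' s + ResE Lt pos (fun u => χ u - 1 / 2) g M' s := by
  unfold BasE ResE
  by_cases h0 : s = 0
  · subst h0
    simp [pm, pp, Sm_zero]
  · by_cases h1 : s < M'
    · have hs0 : 0 < s := Nat.pos_of_ne_zero h0
      rw [if_pos ⟨hs0, h1⟩]
      simp only [pm, pp, h0, if_false, h1, if_true]
      rw [sm_new Lt pos χ hχ g hs0 h1, z_sum Lt pos g hs0]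
      simp_rw [sub_smul]
      rw [Finset.sum_sub_distrib, ← Finset.smul_sum]
      module
    · have : s = M' := by omega
      subst this
      rw [sm_new_top Lt pos χ g hu, if_neg (by omega)]
      simp only [pm, pp, h0, if_false, h1]
      module

end Ends

section RealBounds
variable {ι : Type}

/-- Lin/Dv decomposition bounds for the baseline difference, real valued `g`. -/
lemma basE_diff (Lt : Finset ι) (bl U : ι → ℕ) (g : ι → ℝ) {b M : ℕ} (hb : 0 < b) (hM : 0 < M)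
    (hU : ∀ u, U u < 16 * b) {lo hi dg : ℝ}
    (hT : ∀ i, i < M → lo ≤ Tot Lt bl g i ∧ Tot Lt bl g i ≤ hi)
    (hD : ∀ p, |Dv Lt bl U (16 * b) g p| ≤ dg) {s : ℕ} (hs : s < M * b) :
    lo / b - 2 * dg ≤ BasE Lt (fun u => bl u * (16 * b) + U u) g (M * b) (s + 1)
        - BasE Lt (fun u => bl u * (16 * b) + U u) g (M * b) s
      ∧ BasE Lt (fun u => bl u * (16 * b) + U u) g (M * b) (s + 1)
        - BasE Lt (fun u => bl u * (16 * b) + U u) g (M * b) s ≤ hi / b + 2 * dg := by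
  have hN : 0 < 16 * b := by positivity
  have hbr : (0:ℝ) < b := by positivity
  have e16 : 16 * (M * b) = 16 * b * M := by ring
  unfold BasE
  simp only [pre_eq Lt bl U (16 * b) g hN hU, smul_eq_mul]
  have h1 := Lin_diff_bounds Lt bl (16 * b) g hN hT (pm_le hs)
    (by rw [← e16]; exact pm_top hs)
  have h2 := Lin_diff_bounds Lt bl (16 * b) g hN hT (pp_le hs)
    (by rw [← e16]; exact pp_top hs)
  have hsum : (((pm (M * b) (s + 1) - pm (M * b) s : ℕ) : ℝ)) + ((pp (M * b) (s + 1) - pp (M * b) s : ℕ) : ℝ) = 32 := by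
    exact_mod_cast pm_pp_sum hs
  set L1 : ℝ := ((pm (M * b) (s + 1) - pm (M * b) s : ℕ) : ℝ) with hL1
  set L2 : ℝ := ((pp (M * b) (s + 1) - pp (M * b) s : ℕ) : ℝ) with hL2
  have ehalf : ∀ c : ℝ, L1 / ((16 * b : ℕ) : ℝ) * c + L2 / ((16 * b : ℕ) : ℝ) * c = 2 * (c / b) := by
    intro c
    rw [← add_mul, ← add_div, hsum]
    push_cast
    field_simp
    ring
  have d1 := abs_le.1 (hD (pm (M * b) (s + 1)))
  have d2 := abs_le.1 (hD (pp (M * b) (s + 1)))
  have d3 := abs_le.1 (hD (pm (M * b) s))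
  have d4 := abs_le.1 (hD (pp (M * b) s))
  have e1 := ehalf lo
  have e2 := ehalf hi
  constructor <;> linarith [h1.1, h1.2, h2.1, h2.2, d1.1, d1.2, d2.1, d2.2, d3.1, d3.2, d4.1, d4.2]

/-- mass of a reservoir -/
lemma zs_mass (Lt : Finset ι) (bl U : ι → ℕ) (g : ι → ℝ) {b M : ℕ} (hb : 0 < b)
    (hU : ∀ u, U u < 16 * b) {lo hi dg : ℝ}
    (hT : ∀ i, i < M → lo ≤ Tot Lt bl g i ∧ Tot Lt bl g i ≤ hi)
    (hD : ∀ p, |Dv Lt bl U (16 * b) g p| ≤ dg) {s : ℕ} (hs : 0 < s) (hsM : s < M * b) :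
    lo / (8 * b) - 2 * dg ≤ ∑ u ∈ Zs Lt (fun u => bl u * (16 * b) + U u) s, g u
      ∧ ∑ u ∈ Zs Lt (fun u => bl u * (16 * b) + U u) s, g u ≤ hi / (8 * b) + 2 * dg := by
  have hN : 0 < 16 * b := by positivity
  have hbr : (0:ℝ) < b := by positivity
  have hz := z_sum Lt (fun u => bl u * (16 * b) + U u) g hs
  have e : ∑ u ∈ Zs Lt (fun u => bl u * (16 * b) + U u) s, g u
      = Sm Lt (fun u => bl u * (16 * b) + U u) g (16 * s + 1)
        - Sm Lt (fun u => bl u * (16 * b) + U u) g (16 * s - 1) := by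
    rw [hz]
    ring
  rw [e, pre_eq Lt bl U (16 * b) g hN hU, pre_eq Lt bl U (16 * b) g hN hU]
  have hq : 16 * s + 1 ≤ 16 * b * M := by
    have : 16 * b * M = 16 * (M * b) := by ring
    rw [this]
    omega
  have h1 := Lin_diff_bounds Lt bl (16 * b) g hN hT (p := 16 * s - 1) (q := 16 * s + 1) (by omega) hq
  have e2 : ((16 * s + 1 - (16 * s - 1) : ℕ) : ℝ) = 2 := by
    have : 16 * s + 1 - (16 * s - 1) = 2 := by omega
    rw [this]
    norm_num
  rw [e2] at h1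
  have e3 : ∀ c : ℝ, 2 / ((16 * b : ℕ) : ℝ) * c = c / (8 * b) := by
    intro c
    push_cast
    field_simp
    ring
  rw [e3, e3] at h1
  have d1 := abs_le.1 (hD (16 * s + 1))
  have d2 := abs_le.1 (hD (16 * s - 1))
  constructor <;> linarith [h1.1, h1.2, d1.1, d1.2, d2.1, d2.2]

end RealBounds

end Vale.Agent.Lib.P262S
end

section
open Finset Real

namespace Vale.Agent.Lib.P262S

set_option linter.unusedSectionVars false
set_option linter.unusedVariables false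

namespace Data
variable {ι I : Type} [Fintype ι] [Fintype I] [DecidableEq ι] [DecidableEq I] (D : Data ι I)

/-- context for a refinement: lights, old blocks, units -/
structure RCtx (Lt : Finset ι) (bl U : ι → ℕ) (j b : ℕ) : Prop where
  hb : 0 < b
  hU : ∀ u, U u < 16 * b
  hC : ∀ i w, w ≤ 16 * b → D.Cert j (eP (16 * b)) (Lt.filter fun u => bl u = i)
    (fun u => (if U u < w then (1:ℝ) else 0) - (w:ℝ) / ((16 * b : ℕ) : ℝ))

lemma units_exist {Lt : Finset ι} {j b : ℕ} (hj : j ≤ D.top) (hQ : ∀ u ∈ Lt, D.Qf j u ≤ 1)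
    (bl : ι → ℕ) (hb : 0 < b) : ∃ U, D.RCtx Lt bl U j b := by
  have h16 : 0 < 16 * b := by positivity
  have hev : Even (16 * b) := ⟨8 * b, by ring⟩
  have := fun i => exists_units D hj (Lt.filter fun u => bl u = i)
    (fun u hu => hQ u (Finset.mem_filter.1 hu).1) h16 hev
  choose unit h1 h2 using this
  refine ⟨fun u => unit (bl u) u, hb, fun u => h1 _ u, ?_⟩
  intro i w hw
  refine (h2 i w hw).congr ?_
  intro u hu
  have : bl u = i := (Finset.mem_filter.1 hu).2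
  simp only [this]

variable {D}
variable {Lt : Finset ι} {bl U : ι → ℕ} {j b : ℕ}

lemma RCtx.hN (hc : D.RCtx Lt bl U j b) : 0 < 16 * b := by
  have := hc.hb
  positivity

/-- the coefficient of the deviation at position `p` -/
noncomputable def dcoef (U : ι → ℕ) (b p : ℕ) (u : ι) : ℝ :=
  (if U u < p % (16 * b) then (1:ℝ) else 0) - ((p % (16 * b) : ℕ):ℝ) / ((16 * b : ℕ) : ℝ)

lemma RCtx.cert (hc : D.RCtx Lt bl U j b) (p : ℕ) :
    D.Cert j (eP (16 * b)) (Lt.filter fun u => bl u = p / (16 * b)) (dcoef U b p) :=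
  hc.hC _ _ (Nat.mod_lt _ hc.hN).le

lemma dv_vec (D : Data ι I) (Lt : Finset ι) (bl U : ι → ℕ) (b p : ℕ) :
    Dv Lt bl U (16 * b) D.v p = D.comb (Lt.filter fun u => bl u = p / (16 * b)) (dcoef U b p) := by
  ext i
  unfold Dv Dev comb dcoef
  rw [Finset.sum_apply]
  rfl

lemma dv_real (Lt : Finset ι) (bl U : ι → ℕ) (b p : ℕ) (g : ι → ℝ) :
    Dv Lt bl U (16 * b) g p = ∑ u ∈ Lt.filter (fun u => bl u = p / (16 * b)), dcoef U b p u * g u := by
  unfold Dv Dev dcoef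
  rfl

lemma RCtx.dv_ip (hc : D.RCtx Lt bl U j b) (x : I → ℝ) (p : ℕ) :
    |Dv Lt bl U (16 * b) (fun u => D.ip j u x ^ 2) p|
      ≤ C1 * √(D.khat j + eP (16 * b)) * √(D.sq j x) * √(D.sqD j x) / D.φ j := by
  rw [dv_real]
  exact (hc.cert p).c3 x

lemma RCtx.dv_chi (hc : D.RCtx Lt bl U j b) {j' : ℕ} (hj' : j' ≤ j) (p : ℕ) :
    |Dv Lt bl U (16 * b) (D.chi j') p|
      ≤ C1 * √((2:ℝ) ^ (j - j')) * √(eP (16 * b) + ((j - j' : ℕ) : ℝ)) := by
  rw [dv_real]
  exact (hc.cert p).c4 j' hj'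

lemma eP_nonneg (n : ℕ) : 0 ≤ eP n := by
  unfold eP
  have : 0 ≤ log ((n:ℝ) + 1) := Real.log_nonneg (by
    have : (0:ℝ) ≤ n := by positivity
    linarith)
  linarith

lemma eP_ge (n : ℕ) : 4 ≤ eP n := by
  unfold eP
  have : 0 ≤ log ((n:ℝ) + 1) := Real.log_nonneg (by
    have : (0:ℝ) ≤ n := by positivity
    linarith)
  linarith

lemma RCtx.dv_wh (hc : D.RCtx Lt bl U j b) (p : ℕ) :
    D.φ j * wn (D.wh j) (Dv Lt bl U (16 * b) D.v p)
      ≤ √(C1 * (D.khat j + 2 * eP (16 * b) + 1)) := by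
  rw [dv_vec]
  exact (hc.cert p).toCert12.wh_bound (eP_nonneg _)

lemma RCtx.dv_gr (hc : D.RCtx Lt bl U j b) {h : ℕ} (hh : j < h) (p : ℕ) :
    D.gr h (Dv Lt bl U (16 * b) D.v p)
      ≤ √(C1 * ((1 / 4 : ℝ) ^ (h - j) * (D.kap h + eP (16 * b) + ((h - j : ℕ) : ℝ)))) := by
  rw [dv_vec]
  exact D.gr_le_of_gn ((hc.cert p).c2 h hh)

/-- capacity of a reservoir -/
lemma RCtx.zs_cap (hc : D.RCtx Lt bl U j b) (hj : j ≤ D.top) {M : ℕ} {t E : ℝ}
    (hq : ∀ x, ∀ i, i < M → |Tot Lt bl (fun u => D.ip j u x ^ 2) i - t * D.sqD j x|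
      ≤ t * E * √(D.sq j x) * √(D.sqD j x))
    (hE0 : 0 ≤ E) (hE : E ≤ D.φ j / 8) (ht : 0 < t)
    (hcap : 128 * (C1 * √(D.khat j + eP (16 * b))) ≤ t / b * D.φ j ^ 2)
    {s : ℕ} (hs : 0 < s) (hsM : s < M * b) (x : I → ℝ) :
    t / b / 16 * D.sqD j x ≤ ∑ u ∈ Zs Lt (fun u => bl u * (16 * b) + U u) s, D.ip j u x ^ 2
      ∧ ∑ u ∈ Zs Lt (fun u => bl u * (16 * b) + U u) s, D.ip j u x ^ 2 ≤ t / b / 4 * D.sqD j x := by
  have hb := hc.hb
  have hbr : (0:ℝ) < b := by positivity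
  have hφ := D.hφ j
  set α := √(D.sq j x) with hα
  set β := √(D.sqD j x) with hβ
  have hα0 : 0 ≤ α := Real.sqrt_nonneg _
  have hβ0 : 0 ≤ β := Real.sqrt_nonneg _
  have hα2 : α ^ 2 = D.sq j x := Real.sq_sqrt (D.sq_nonneg' j x)
  have hβ2 : β ^ 2 = D.sqD j x := Real.sq_sqrt (D.sqD_nonneg j x)
  have hαβ : D.φ j * α ≤ β := by
    have h1 := D.sq_le_sqD hj x
    rw [← hα2, ← hβ2] at h1
    have h2 : (D.φ j * α) ^ 2 ≤ β ^ 2 := by
      rw [mul_pow]
      exact h1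
    exact (pow_le_pow_iff_left₀ (by positivity) hβ0 (by norm_num)).1 h2
  set nc := C1 * √(D.khat j + eP (16 * b)) with hnc
  have hnc0 : 0 ≤ nc := by
    have := C1_ge
    positivity
  have hT : ∀ i, i < M → t * (β ^ 2 - E * α * β) ≤ Tot Lt bl (fun u => D.ip j u x ^ 2) i
      ∧ Tot Lt bl (fun u => D.ip j u x ^ 2) i ≤ t * (β ^ 2 + E * α * β) := by
    intro i hi
    have h := abs_le.1 (hq x i hi)
    have e1 : t * E * √(D.sq j x) * √(D.sqD j x) = t * E * α * β := rfl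
    have e2 : t * D.sqD j x = t * β ^ 2 := by rw [hβ2]
    rw [e1, e2] at h
    constructor <;> nlinarith [h.1, h.2]
  have hD : ∀ p, |Dv Lt bl U (16 * b) (fun u => D.ip j u x ^ 2) p| ≤ nc * α * β / D.φ j :=
    fun p => hc.dv_ip x p
  have hm := zs_mass Lt bl U (fun u => D.ip j u x ^ 2) hb hc.hU hT hD hs hsM
  rw [← hβ2]
  set t' := t / b with ht'
  have ht'0 : 0 < t' := by positivity
  have e1 : ∀ c : ℝ, t * c / (8 * b) = t' / 8 * c := by
    intro c
    rw [ht']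
    field_simp
  rw [e1, e1] at hm
  have h1 : E * α * β ≤ β ^ 2 / 8 := by
    have h2 : E * α ≤ β / 8 := by nlinarith
    nlinarith
  have h3 : nc * α * β / D.φ j ≤ t' / 128 * β ^ 2 := by
    rw [div_le_iff₀ hφ]
    have h4 : 128 * nc ≤ t' * D.φ j ^ 2 := hcap
    have h5 : nc * (D.φ j * α) * β ≤ nc * β * β := by
      apply mul_le_mul_of_nonneg_right _ hβ0
      exact mul_le_mul_of_nonneg_left hαβ hnc0
    have h6 : nc * β ^ 2 ≤ t' / 128 * D.φ j ^ 2 * β ^ 2 := by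
      apply mul_le_mul_of_nonneg_right _ (sq_nonneg _)
      linarith
    -- divide by φ
    have h7 : nc * α * β * D.φ j ≤ t' / 128 * β ^ 2 * D.φ j * D.φ j := by nlinarith
    have h8 : nc * α * β ≤ t' / 128 * β ^ 2 * D.φ j := by
      by_contra hcon
      push Not at hcon
      nlinarith
    exact h8
  have hb0 : 0 ≤ β ^ 2 := sq_nonneg _
  have hprod : 0 ≤ t' * β ^ 2 := by positivity
  have h9 : t' / 8 * E * α * β ≤ t' / 8 * (β ^ 2 / 8) := by
    have := mul_le_mul_of_nonneg_left h1 (by positivity : 0 ≤ t' / 8)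
    nlinarith
  constructor
  · nlinarith [hm.1]
  · nlinarith [hm.2]

/-- second context: chosen steering and rounding -/
structure RC2 (D : Data ι I) (Lt : Finset ι) (bl U : ι → ℕ) (j M b δ : ℕ) (Fx : ℕ → I → ℝ)
    (y χ : ι → ℝ) (g0 Γ : ℝ) : Prop where
  hχ : ∀ u, χ u = 0 ∨ χ u = 1
  hy2 : ∀ s, 0 < s → s < M * b →
    ∑ u ∈ Zs Lt (fun u => bl u * (16 * b) + U u) s, y u ^ 2 ≤ 16 * g0 ^ 2 / Γ
  hG : ∀ s, 0 < s → s < M * b → ∀ i, D.gp i ≤ j →
    ∑ u ∈ Zs Lt (fun u => bl u * (16 * b) + U u) s, y u * D.v u i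
      = - (Bas Lt (fun u => bl u * (16 * b) + U u) D.v s + Fx (16 * s * δ)) i
  hR : ∀ s, 0 < s → s < M * b →
    D.Cert j eR (Zs Lt (fun u => bl u * (16 * b) + U u) s) (fun u => χ u - (1 / 2 + y u))

lemma mem_zs_sp {pos : ι → ℕ} {s : ℕ} {u : ι} (hu : u ∈ Zs Lt pos s) : (pos u + 1) / 16 = s := by
  have := (Finset.mem_filter.1 hu).2
  omega

/-- the whitened baseline is bounded -/
lemma RCtx.bas_wh (hc : D.RCtx Lt bl U j b) {M δ : ℕ} (hδ : 0 < δ) {Fx : ℕ → I → ℝ}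
    {gP gF gD g0 : ℝ}
    (hP : ∀ i, i ≤ M → wn (D.wh j) (Sm Lt bl D.v i + Fx (i * (16 * b * δ))) ≤ gP)
    (hF : ∀ τ, wn (D.wh j) (Fx τ - LinT Fx (16 * b * δ) τ) ≤ gF)
    (hD : ∀ i, i < M → wn (D.wh j) (Fx ((i + 1) * (16 * b * δ)) - Fx (i * (16 * b * δ))) ≤ gD)
    (hg0 : D.φ j * (gP + gF + gD / ((16 * b : ℕ) : ℝ)) + √(C1 * (D.khat j + 2 * eP (16 * b) + 1)) ≤ g0)
    {s : ℕ} (hs : 0 < s) (hsM : s < M * b) :
    wn (D.wh j) (Bas Lt (fun u => bl u * (16 * b) + U u) D.v s + Fx (16 * s * δ)) ≤ g0 / D.φ j := by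
  have hN := hc.hN
  have hw : 0 < 16 * b * δ := by positivity
  have hφ := D.hφ j
  have hA := LinT_aff Fx hw
  have hw0 := D.wh_nonneg j
  have hb := bas_bound (w₀ := D.wh j) hw0 Lt bl U D.v (R := LinT Fx (16 * b * δ)) (M := M) hc.hU
    hA hN hδ (a := gP) (d := gD)
    (by
      intro i hi
      rw [LinT_grid Fx hw]
      exact hP i hi)
    (by
      intro i hi
      rw [LinT_grid Fx hw, LinT_grid Fx hw]
      exact hD i hi)
    hs (by
      have : 16 * b * M = 16 * (M * b) := by ring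
      rw [this]
      omega)
  have e : Bas Lt (fun u => bl u * (16 * b) + U u) D.v s + Fx (16 * s * δ)
      = (Bas Lt (fun u => bl u * (16 * b) + U u) D.v s + LinT Fx (16 * b * δ) (16 * s * δ))
        + (Fx (16 * s * δ) - LinT Fx (16 * b * δ) (16 * s * δ)) := by abel
  rw [e]
  have h1 := wn_add_le hw0
    (Bas Lt (fun u => bl u * (16 * b) + U u) D.v s + LinT Fx (16 * b * δ) (16 * s * δ))
    (Fx (16 * s * δ) - LinT Fx (16 * b * δ) (16 * s * δ))
  have h2 := hF (16 * s * δ)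
  have h3 := hc.dv_wh (16 * s - 1)
  have h4 := hc.dv_wh (16 * s + 1)
  rw [le_div_iff₀ hφ]
  set W := √(C1 * (D.khat j + 2 * eP (16 * b) + 1)) with hW
  have h5 := mul_le_mul_of_nonneg_left (h1.trans (add_le_add hb h2)) hφ.le
  nlinarith

/-- **steering and rounding at all boundaries** -/
theorem RCtx.steer_round (hc : D.RCtx Lt bl U j b) (hj : j ≤ D.top) (hQ : ∀ u ∈ Lt, D.Qf j u ≤ 1)
    {M δ : ℕ} (hδ : 0 < δ) {Fx : ℕ → I → ℝ}
    {t E gP gF gD g0 : ℝ}
    (hq : ∀ x, ∀ i, i < M → |Tot Lt bl (fun u => D.ip j u x ^ 2) i - t * D.sqD j x|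
      ≤ t * E * √(D.sq j x) * √(D.sqD j x))
    (hE0 : 0 ≤ E) (hE : E ≤ D.φ j / 8) (ht : 0 < t)
    (hcap : 128 * (C1 * √(D.khat j + eP (16 * b))) ≤ t / b * D.φ j ^ 2)
    (hcap2 : 64 * g0 ≤ t / b * D.φ j ^ 2)
    (hP : ∀ i, i ≤ M → wn (D.wh j) (Sm Lt bl D.v i + Fx (i * (16 * b * δ))) ≤ gP)
    (hF : ∀ τ, wn (D.wh j) (Fx τ - LinT Fx (16 * b * δ) τ) ≤ gF)
    (hD : ∀ i, i < M → wn (D.wh j) (Fx ((i + 1) * (16 * b * δ)) - Fx (i * (16 * b * δ))) ≤ gD)
    (hg0 : D.φ j * (gP + gF + gD / ((16 * b : ℕ) : ℝ)) + √(C1 * (D.khat j + 2 * eP (16 * b) + 1)) ≤ g0) :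
    ∃ y χ : ι → ℝ, RC2 D Lt bl U j M b δ Fx y χ g0 (t / b * D.φ j ^ 2) := by
  have hb := hc.hb
  have hbr : (0:ℝ) < b := by positivity
  have hφ := D.hφ j
  set pos : ι → ℕ := fun u => bl u * (16 * b) + U u with hpos
  set Γ := t / b * D.φ j ^ 2 with hΓ
  have ht' : 0 < t / b := by positivity
  have hΓ0 : 0 < Γ := by positivity
  have key : ∀ s, ∃ ys χs : ι → ℝ, (∀ u, χs u = 0 ∨ χs u = 1) ∧ (0 < s → s < M * b →
      (∑ u ∈ Zs Lt pos s, ys u ^ 2 ≤ 16 * g0 ^ 2 / Γ)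
      ∧ (∀ i, D.gp i ≤ j → ∑ u ∈ Zs Lt pos s, ys u * D.v u i
          = - (Bas Lt pos D.v s + Fx (16 * s * δ)) i)
      ∧ D.Cert j eR (Zs Lt pos s) (fun u => χs u - (1 / 2 + ys u))) := by
    intro s
    by_cases hs : 0 < s ∧ s < M * b
    · obtain ⟨hs0, hsM⟩ := hs
      set G := Bas Lt pos D.v s + Fx (16 * s * δ) with hG
      have hGb : wn (D.wh j) G ≤ g0 / D.φ j := hc.bas_wh hδ hP hF hD hg0 hs0 hsM
      have hG0 : 0 ≤ wn (D.wh j) G := wn_nonneg _
      have hcc : 0 < t / b / 16 := by positivity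
      obtain ⟨y0, hy1, hy2, hy3⟩ := D.steer hj (Zs Lt pos s) G hcc
        (fun x => (hc.zs_cap hj hq hE0 hE ht hcap hs0 hsM x).1)
      have hg00 : 0 ≤ g0 / D.φ j := hG0.trans hGb
      have hg01 : 0 ≤ g0 := by
        have := mul_nonneg hg00 hφ.le
        rwa [div_mul_cancel₀ _ hφ.ne'] at this
      have hy4 : ∀ u, |y0 u| ≤ 1 / 4 := by
        intro u
        refine (hy3 u).trans ?_
        have h1 : wn (D.wh j) G / (t / b / 16) ≤ g0 / D.φ j / (t / b / 16) :=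
          div_le_div_of_nonneg_right hGb hcc.le
        have h2 : 1 / D.φ j * (g0 / D.φ j / (t / b / 16)) = 16 * g0 / Γ := by
          rw [hΓ]
          field_simp
        have h3 : 1 / D.φ j * (wn (D.wh j) G / (t / b / 16)) ≤ 1 / D.φ j * (g0 / D.φ j / (t / b / 16)) :=
          mul_le_mul_of_nonneg_left h1 (by positivity)
        rw [h2] at h3
        refine h3.trans ?_
        rw [div_le_iff₀ hΓ0]
        linarith
      obtain ⟨χ0, hχ1, hχ2⟩ := exists_round D hj (Zs Lt pos s)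
        (fun u hu => hQ u (Finset.mem_filter.1 hu).1) (fun u => 1 / 2 + y0 u)
        (fun u _ => by
          have := abs_le.1 (hy4 u)
          constructor <;> linarith [this.1, this.2])
      refine ⟨y0, χ0, hχ1, fun _ _ => ⟨?_, hy1, hχ2⟩⟩
      refine hy2.trans ?_
      have h1 : wn (D.wh j) G ^ 2 ≤ (g0 / D.φ j) ^ 2 := pow_le_pow_left₀ hG0 hGb 2
      have h2 : wn (D.wh j) G ^ 2 / (t / b / 16) ≤ (g0 / D.φ j) ^ 2 / (t / b / 16) :=
        div_le_div_of_nonneg_right h1 hcc.le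
      refine h2.trans (le_of_eq ?_)
      rw [hΓ]
      field_simp
    · refine ⟨0, 0, fun _ => Or.inl rfl, fun h1 h2 => absurd ⟨h1, h2⟩ hs⟩
  choose ys χs h1 h2 using key
  refine ⟨fun u => ys ((pos u + 1) / 16) u, fun u => χs ((pos u + 1) / 16) u, fun u => h1 _ u, ?_, ?_, ?_⟩
  · intro s hs hsM
    have e : ∑ u ∈ Zs Lt pos s, (ys ((pos u + 1) / 16) u) ^ 2 = ∑ u ∈ Zs Lt pos s, ys s u ^ 2 :=
      Finset.sum_congr rfl fun u hu => by rw [mem_zs_sp hu]
    rw [e]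
    exact (h2 s hs hsM).1
  · intro s hs hsM i hi
    have e : ∑ u ∈ Zs Lt pos s, (ys ((pos u + 1) / 16) u) * D.v u i
        = ∑ u ∈ Zs Lt pos s, ys s u * D.v u i :=
      Finset.sum_congr rfl fun u hu => by rw [mem_zs_sp hu]
    rw [e]
    exact (h2 s hs hsM).2.1 i hi
  · intro s hs hsM
    refine (h2 s hs hsM).2.2.congr ?_
    intro u hu
    rw [mem_zs_sp hu]

end Data

end Vale.Agent.Lib.P262S
end

section
open Finset Real

namespace Vale.Agent.Lib.P262S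

set_option linter.unusedSectionVars false
set_option linter.unusedVariables false

namespace Data
variable {ι I : Type} [Fintype ι] [Fintype I] [DecidableEq ι] [DecidableEq I] {D : Data ι I}
variable {Lt : Finset ι} {bl U : ι → ℕ} {j b M δ : ℕ} {Fx : ℕ → I → ℝ} {y χ : ι → ℝ} {g0 Γ : ℝ}

lemma gn_congr (D : Data ι I) {a : ℕ} {p q : I → ℝ} (h : ∀ i, D.gp i = a → p i = q i) :
    D.gn a p = D.gn a q := by
  unfold gn
  apply Finset.sum_congr rfl
  intro i _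
  split_ifs with hi
  · rw [h i hi]
  · rfl

lemma pos_lt (hb : 0 < b) (hU : ∀ u, U u < 16 * b) {u : ι} (hu : bl u < M) :
    bl u * (16 * b) + U u < 16 * (M * b) := by
  have h1 := hU u
  have h2 : (bl u + 1) * (16 * b) ≤ M * (16 * b) := Nat.mul_le_mul_right _ hu
  have e1 : (bl u + 1) * (16 * b) = bl u * (16 * b) + 16 * b := by ring
  have e2 : M * (16 * b) = 16 * (M * b) := by ring
  omega

/-- new blocks stay in range -/
lemma new_lt (hc : D.RCtx Lt bl U j b) (hbl : ∀ u ∈ Lt, bl u < M) {u : ι} (hu : u ∈ Lt) :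
    newBl (fun u => bl u * (16 * b) + U u) χ (M * b) u < M * b :=
  newBl_lt_top _ _ (pos_lt hc.hb hc.hU (hbl u hu))

/-- **fresh errors** on the steered coordinates -/
theorem RC2.fresh (h2 : RC2 D Lt bl U j M b δ Fx y χ g0 Γ) {a s : ℕ} (ha : a ≤ j) (hs : 0 < s)
    (hsM : s < M * b) :
    D.gn a (Sm Lt (newBl (fun u => bl u * (16 * b) + U u) χ (M * b)) D.v s + Fx (16 * s * δ))
      ≤ C1 * (D.kap a + eR + ((j - a : ℕ) : ℝ)) := by
  set pos : ι → ℕ := fun u => bl u * (16 * b) + U u with hpos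
  have hC := (h2.hR s hs hsM).c1 a ha
  refine le_trans (le_of_eq ?_) hC
  apply D.gn_congr
  intro i hi
  have hij : D.gp i ≤ j := by omega
  have hG := h2.hG s hs hsM i hij
  rw [sm_new_bas Lt pos χ y h2.hχ D.v hs hsM]
  simp only [Pi.add_apply, Finset.sum_apply, Pi.smul_apply, smul_eq_mul]
  have e : (Bas Lt pos D.v s + Fx (16 * s * δ)) i = Bas Lt pos D.v s i + Fx (16 * s * δ) i := rfl
  rw [e] at hG
  unfold comb
  linarith

/-- bias estimate for the quadratic forms -/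
lemma bias_q (h2 : RC2 D Lt bl U j M b δ Fx y χ g0 Γ) {s : ℕ} (hs : 0 < s) (hsM : s < M * b)
    (x : I → ℝ) {t' : ℝ} (ht' : 0 < t') (hΓ : Γ = t' * D.φ j ^ 2) (hg0 : 0 ≤ g0)
    (hup : ∑ u ∈ Zs Lt (fun u => bl u * (16 * b) + U u) s, D.ip j u x ^ 2 ≤ t' / 4 * D.sqD j x) :
    |∑ u ∈ Zs Lt (fun u => bl u * (16 * b) + U u) s, y u * D.ip j u x ^ 2|
      ≤ 2 * g0 * √(D.sq j x) * √(D.sqD j x) / D.φ j := by
  have hφ := D.hφ j
  set Z := Zs Lt (fun u => bl u * (16 * b) + U u) s with hZ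
  have h1 := abs_sum_mul_le Z y (fun u => D.ip j u x ^ 2)
  refine h1.trans ?_
  have hα0 := D.sq_nonneg' j x
  have hβ0 := D.sqD_nonneg j x
  rw [← Real.sqrt_mul (Finset.sum_nonneg fun u _ => sq_nonneg _)]
  apply Real.sqrt_le_iff.2
  refine ⟨by positivity, ?_⟩
  have h3 : ∑ u ∈ Z, (D.ip j u x ^ 2) ^ 2 ≤ D.sq j x * ∑ u ∈ Z, D.ip j u x ^ 2 := by
    rw [Finset.mul_sum]
    apply Finset.sum_le_sum
    intro u _
    have := D.ip_sq_le j u x
    nlinarith [sq_nonneg (D.ip j u x)]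
  have h4 : ∑ u ∈ Z, y u ^ 2 ≤ 16 * g0 ^ 2 / Γ := h2.hy2 s hs hsM
  have hΓ0 : 0 < Γ := by
    rw [hΓ]
    positivity
  have h5 : (∑ u ∈ Z, y u ^ 2) * ∑ u ∈ Z, (D.ip j u x ^ 2) ^ 2
      ≤ (16 * g0 ^ 2 / Γ) * (D.sq j x * (t' / 4 * D.sqD j x)) := by
    apply mul_le_mul h4
    · exact h3.trans (mul_le_mul_of_nonneg_left hup hα0)
    · exact Finset.sum_nonneg fun u _ => by positivity
    · positivity
  refine h5.trans (le_of_eq ?_)
  rw [hΓ, div_pow, mul_pow, mul_pow, Real.sq_sqrt hα0, Real.sq_sqrt hβ0]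
  field_simp
  ring

/-- **the new quadratic forms** -/
theorem RC2.qform (h2 : RC2 D Lt bl U j M b δ Fx y χ g0 Γ) (hc : D.RCtx Lt bl U j b) (hj : j ≤ D.top)
    (hbl : ∀ u ∈ Lt, bl u < M) {t E : ℝ}
    (hq : ∀ x, ∀ i, i < M → |Tot Lt bl (fun u => D.ip j u x ^ 2) i - t * D.sqD j x|
      ≤ t * E * √(D.sq j x) * √(D.sqD j x))
    (hE0 : 0 ≤ E) (hE : E ≤ D.φ j / 8) (ht : 0 < t)
    (hcap : 128 * (C1 * √(D.khat j + eP (16 * b))) ≤ t / b * D.φ j ^ 2)
    (hΓ : Γ = t / b * D.φ j ^ 2) (hg0 : 0 ≤ g0) (x : I → ℝ) {s : ℕ} (hs : s < M * b) :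
    |Tot Lt (newBl (fun u => bl u * (16 * b) + U u) χ (M * b)) (fun u => D.ip j u x ^ 2) s
        - t / b * D.sqD j x|
      ≤ t / b * (E + D.φ j * (4 * (C1 * √(D.khat j + eP (16 * b))) + 4 * g0) / Γ)
        * √(D.sq j x) * √(D.sqD j x) := by
  have hb := hc.hb
  have hbr : (0:ℝ) < b := by positivity
  have hφ := D.hφ j
  set pos : ι → ℕ := fun u => bl u * (16 * b) + U u with hpos
  set g : ι → ℝ := fun u => D.ip j u x ^ 2 with hg
  set α := √(D.sq j x) with hα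
  set β := √(D.sqD j x) with hβ
  have hα0 : 0 ≤ α := Real.sqrt_nonneg _
  have hβ0 : 0 ≤ β := Real.sqrt_nonneg _
  have hβ2 : β ^ 2 = D.sqD j x := Real.sq_sqrt (D.sqD_nonneg j x)
  set nc := C1 * √(D.khat j + eP (16 * b)) with hnc
  have hnc0 : 0 ≤ nc := by
    have := C1_ge
    positivity
  set t' := t / b with ht'
  have ht'0 : 0 < t' := by positivity
  have hu : ∀ u ∈ Lt, pos u < 16 * (M * b) := fun u hu => pos_lt hb hc.hU (hbl u hu)
  have hT : ∀ i, i < M → t * (β ^ 2 - E * α * β) ≤ Tot Lt bl g i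
      ∧ Tot Lt bl g i ≤ t * (β ^ 2 + E * α * β) := by
    intro i hi
    have h := abs_le.1 (hq x i hi)
    have e1 : t * E * √(D.sq j x) * √(D.sqD j x) = t * E * α * β := rfl
    have e2 : t * D.sqD j x = t * β ^ 2 := by rw [hβ2]
    rw [e1, e2] at h
    constructor <;> nlinarith [h.1, h.2]
  have hD : ∀ p, |Dv Lt bl U (16 * b) g p| ≤ nc * α * β / D.φ j := fun p => hc.dv_ip x p
  have hM0 : 0 < M := by
    rcases Nat.eq_zero_or_pos M with h | h
    · subst h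
      simp at hs
    · exact h
  have hdiff := basE_diff Lt bl U g hb hM0 hc.hU hT hD hs
  -- residual
  have hres : ∀ s', |ResE Lt pos (fun u => χ u - 1 / 2) g (M * b) s'|
      ≤ (2 * g0 + nc) * α * β / D.φ j := by
    intro s'
    unfold ResE
    by_cases hs' : 0 < s' ∧ s' < M * b
    · rw [if_pos hs']
      have hcap1 := (hc.zs_cap hj hq hE0 hE ht hcap hs'.1 hs'.2 x).2
      have hb1 := bias_q h2 hs'.1 hs'.2 x ht'0 hΓ hg0 hcap1
      have hb2 := (h2.hR s' hs'.1 hs'.2).c3 x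
      have e : ∑ u ∈ Zs Lt pos s', (χ u - 1 / 2) • g u
          = ∑ u ∈ Zs Lt pos s', y u * D.ip j u x ^ 2
            + ∑ u ∈ Zs Lt pos s', (χ u - (1 / 2 + y u)) * D.ip j u x ^ 2 := by
        rw [← Finset.sum_add_distrib]
        apply Finset.sum_congr rfl
        intro u _
        simp only [smul_eq_mul, hg]
        ring
      rw [e]
      refine (abs_add_le _ _).trans ?_
      have hmono : C1 * √(D.khat j + eR) * α * β / D.φ j ≤ nc * α * β / D.φ j := by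
        apply div_le_div_of_nonneg_right _ hφ.le
        have h3 : √(D.khat j + eR) ≤ √(D.khat j + eP (16 * b)) := by
          apply Real.sqrt_le_sqrt
          have := eP_ge (16 * b)
          unfold eR
          linarith
        have hC := C1_ge
        have h4 : C1 * √(D.khat j + eR) ≤ nc := mul_le_mul_of_nonneg_left h3 (by linarith)
        exact mul_le_mul_of_nonneg_right (mul_le_mul_of_nonneg_right h4 hα0) hβ0
      have e5 : (2 * g0 + nc) * α * β / D.φ j = 2 * g0 * α * β / D.φ j + nc * α * β / D.φ j := by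
        ring
      rw [e5]
      exact add_le_add hb1 (hb2.trans hmono)
    · rw [if_neg hs', abs_zero]
      positivity
  have hsm : ∀ s', s' ≤ M * b → Sm Lt (newBl pos χ (M * b)) g s'
      = BasE Lt pos g (M * b) s' + ResE Lt pos (fun u => χ u - 1 / 2) g (M * b) s' :=
    fun s' hs' => sm_new_E Lt pos χ h2.hχ g hs' hu
  have hTot : Tot Lt (newBl pos χ (M * b)) g s
      = Sm Lt (newBl pos χ (M * b)) g (s + 1) - Sm Lt (newBl pos χ (M * b)) g s := by
    rw [Sm_succ]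
    ring
  rw [hTot, hsm _ hs, hsm _ hs.le]
  have r1 := abs_le.1 (hres (s + 1))
  have r2 := abs_le.1 (hres s)
  have hΓ0 : 0 < Γ := by
    rw [hΓ]
    positivity
  have e3 : t' * (E + D.φ j * (4 * nc + 4 * g0) / Γ) * α * β
      = t' * E * α * β + (4 * nc + 4 * g0) * α * β / D.φ j := by
    rw [hΓ]
    field_simp
  rw [e3, abs_le, ← hβ2]
  have e4 : ∀ c : ℝ, t * c / b = t' * c := by
    intro c
    rw [ht']
    ring
  rw [e4, e4] at hdiff
  have e6 : (4 * nc + 4 * g0) * α * β / D.φ j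
      = 2 * (nc * α * β / D.φ j) + 2 * ((2 * g0 + nc) * α * β / D.φ j) := by ring
  rw [e6]
  constructor <;> nlinarith [hdiff.1, hdiff.2, r1.1, r1.2, r2.1, r2.2]

/-- **the new counts** -/
theorem RC2.xb (h2 : RC2 D Lt bl U j M b δ Fx y χ g0 Γ) (hc : D.RCtx Lt bl U j b)
    (hbl : ∀ u ∈ Lt, bl u < M) {j' : ℕ} (hj' : j' ≤ j) {X : ℝ}
    (hX : ∀ i, i < M → Tot Lt bl (D.chi j') i ≤ X) (hg0 : 0 ≤ g0) {s : ℕ} (hs : s < M * b) :
    Tot Lt (newBl (fun u => bl u * (16 * b) + U u) χ (M * b)) (D.chi j') s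
      ≤ X / b + 4 * (C1 * √((2:ℝ) ^ (j - j')) * √(eP (16 * b) + ((j - j' : ℕ) : ℝ)))
        + 2 * √(16 * g0 ^ 2 / Γ * (X / (8 * b)
            + 2 * (C1 * √((2:ℝ) ^ (j - j')) * √(eP (16 * b) + ((j - j' : ℕ) : ℝ))))) := by
  have hb := hc.hb
  have hbr : (0:ℝ) < b := by positivity
  set pos : ι → ℕ := fun u => bl u * (16 * b) + U u with hpos
  set g := D.chi j' with hg
  set nX := C1 * √((2:ℝ) ^ (j - j')) * √(eP (16 * b) + ((j - j' : ℕ) : ℝ)) with hnX
  have hC := C1_ge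
  have hnX0 : 0 ≤ nX := by positivity
  have hu : ∀ u ∈ Lt, pos u < 16 * (M * b) := fun u hu => pos_lt hb hc.hU (hbl u hu)
  have hT : ∀ i, i < M → (0:ℝ) ≤ Tot Lt bl g i ∧ Tot Lt bl g i ≤ X := by
    intro i hi
    refine ⟨Finset.sum_nonneg fun u _ => D.chi_nonneg j' u, hX i hi⟩
  have hD : ∀ p, |Dv Lt bl U (16 * b) g p| ≤ nX := fun p => hc.dv_chi hj' p
  have hM0 : 0 < M := by
    rcases Nat.eq_zero_or_pos M with h | h
    · subst h
      simp at hs
    · exact h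
  have hdiff := basE_diff Lt bl U g hb hM0 hc.hU hT hD hs
  have hres : ∀ s', |ResE Lt pos (fun u => χ u - 1 / 2) g (M * b) s'|
      ≤ √(16 * g0 ^ 2 / Γ * (X / (8 * b) + 2 * nX)) + nX := by
    intro s'
    unfold ResE
    by_cases hs' : 0 < s' ∧ s' < M * b
    · rw [if_pos hs']
      have hm := zs_mass Lt bl U g hb hc.hU hT hD hs'.1 hs'.2
      have e : ∑ u ∈ Zs Lt pos s', (χ u - 1 / 2) • g u
          = ∑ u ∈ Zs Lt pos s', y u * g u + ∑ u ∈ Zs Lt pos s', (χ u - (1 / 2 + y u)) * g u := by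
        rw [← Finset.sum_add_distrib]
        apply Finset.sum_congr rfl
        intro u _
        simp only [smul_eq_mul]
        ring
      rw [e]
      refine (abs_add_le _ _).trans (add_le_add ?_ ?_)
      · refine (abs_sum_mul_le _ _ _).trans ?_
        rw [← Real.sqrt_mul (Finset.sum_nonneg fun u _ => sq_nonneg _)]
        apply Real.sqrt_le_sqrt
        apply mul_le_mul (h2.hy2 s' hs'.1 hs'.2)
        · refine le_trans (Finset.sum_le_sum fun u _ => D.chi_sq_le j' u) ?_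
          refine le_trans hm.2 ?_
          linarith
        · exact Finset.sum_nonneg fun u _ => sq_nonneg _
        · exact le_trans (Finset.sum_nonneg fun u _ => sq_nonneg _) (h2.hy2 s' hs'.1 hs'.2)
      · have h3 := (h2.hR s' hs'.1 hs'.2).c4 j' hj'
        refine h3.trans ?_
        rw [hnX]
        have h4 : √(eR + ((j - j' : ℕ) : ℝ)) ≤ √(eP (16 * b) + ((j - j' : ℕ) : ℝ)) := by
          apply Real.sqrt_le_sqrt
          have := eP_ge (16 * b)
          unfold eR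
          linarith
        exact mul_le_mul_of_nonneg_left h4 (by positivity)
    · rw [if_neg hs', abs_zero]
      positivity
  have hsm : ∀ s', s' ≤ M * b → Sm Lt (newBl pos χ (M * b)) g s'
      = BasE Lt pos g (M * b) s' + ResE Lt pos (fun u => χ u - 1 / 2) g (M * b) s' :=
    fun s' hs' => sm_new_E Lt pos χ h2.hχ g hs' hu
  have hTot : Tot Lt (newBl pos χ (M * b)) g s
      = Sm Lt (newBl pos χ (M * b)) g (s + 1) - Sm Lt (newBl pos χ (M * b)) g s := by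
    rw [Sm_succ]
    ring
  rw [hTot, hsm _ hs, hsm _ hs.le]
  have r1 := abs_le.1 (hres (s + 1))
  have r2 := abs_le.1 (hres s)
  linarith [hdiff.2, r1.2, r2.1]

lemma gn_comb_le (D : Data ι I) (h : ℕ) (Z : Finset ι) (c : ι → ℝ) :
    D.gn h (D.comb Z c) ≤ (∑ u ∈ Z, c u ^ 2) * ∑ u ∈ Z, D.gn h (D.v u) := by
  unfold gn comb
  have h1 : ∀ i, (if D.gp i = h then (∑ u ∈ Z, c u * D.v u i) ^ 2 else 0)
      ≤ (∑ u ∈ Z, c u ^ 2) * ∑ u ∈ Z, if D.gp i = h then D.v u i ^ 2 else 0 := by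
    intro i
    by_cases hi : D.gp i = h
    · simp only [hi, if_true]
      exact Finset.sum_mul_sq_le_sq_mul_sq _ _ _
    · simp only [hi, if_false]
      simp
  refine (Finset.sum_le_sum fun i _ => h1 i).trans (le_of_eq ?_)
  rw [← Finset.mul_sum, Finset.sum_comm]

/-- **the unsteered groups** -/
theorem RC2.uu (h2 : RC2 D Lt bl U j M b δ Fx y χ g0 Γ) (hc : D.RCtx Lt bl U j b)
    (hQ : ∀ u ∈ Lt, D.Qf j u ≤ 1)
    (hbl : ∀ u ∈ Lt, bl u < M) (hM0 : 0 < M) (hδ : 0 < δ) {X : ℝ}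
    (hX : ∀ i, i < M → Tot Lt bl (D.chi j) i ≤ X) {h : ℕ} (hh : j < h)
    {R : ℕ → I → ℝ} (hR : AffOn R (16 * b * δ)) {a d : ℝ}
    (ha : ∀ i, i ≤ M → D.gr h (Sm Lt bl D.v i + R (i * (16 * b * δ))) ≤ a)
    (hd : ∀ i, i < M → D.gr h (R ((i + 1) * (16 * b * δ)) - R (i * (16 * b * δ))) ≤ d)
    {s : ℕ} (hs : s ≤ M * b) :
    D.gr h (Sm Lt (newBl (fun u => bl u * (16 * b) + U u) χ (M * b)) D.v s + R (16 * s * δ))
      ≤ a + d / ((16 * b : ℕ) : ℝ)
        + √(C1 * ((1 / 4 : ℝ) ^ (h - j) * (D.kap h + eP (16 * b) + ((h - j : ℕ) : ℝ))))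
        + √(C1 * ((1 / 4 : ℝ) ^ (h - j) * (D.kap h + eR + ((h - j : ℕ) : ℝ))))
        + √(16 * g0 ^ 2 / Γ * ((1 / 4 : ℝ) ^ (h - j) * (X / (8 * b)
            + 2 * (C1 * √((2:ℝ) ^ (j - j)) * √(eP (16 * b) + ((j - j : ℕ) : ℝ)))))) := by
  have hb := hc.hb
  have hbr : (0:ℝ) < b := by positivity
  have hw := D.wg_nonneg h
  have hN := hc.hN
  have hC := C1_ge
  set pos : ι → ℕ := fun u => bl u * (16 * b) + U u with hpos
  have hu : ∀ u ∈ Lt, pos u < 16 * (M * b) := fun u hu => pos_lt hb hc.hU (hbl u hu)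
  have hd0 : 0 ≤ d := (wn_nonneg _).trans (hd 0 hM0)
  have hNr : (0:ℝ) < ((16 * b : ℕ) : ℝ) := by positivity
  have hrest : 0 ≤ d / ((16 * b : ℕ) : ℝ)
        + √(C1 * ((1 / 4 : ℝ) ^ (h - j) * (D.kap h + eP (16 * b) + ((h - j : ℕ) : ℝ))))
        + √(C1 * ((1 / 4 : ℝ) ^ (h - j) * (D.kap h + eR + ((h - j : ℕ) : ℝ))))
        + √(16 * g0 ^ 2 / Γ * ((1 / 4 : ℝ) ^ (h - j) * (X / (8 * b)
            + 2 * (C1 * √((2:ℝ) ^ (j - j)) * √(eP (16 * b) + ((j - j : ℕ) : ℝ)))))) := by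
    positivity
  by_cases hs0 : s = 0
  · subst hs0
    have := ha 0 (Nat.zero_le _)
    simp only [Sm_zero, zero_mul, mul_zero] at this ⊢
    linarith
  by_cases hsM : s = M * b
  · subst hsM
    have e1 : Sm Lt (newBl pos χ (M * b)) D.v (M * b) = Sm Lt bl D.v M := by
      rw [sm_new_top Lt pos χ D.v hu]
      unfold Sm
      apply Finset.sum_congr _ (fun _ _ => rfl)
      ext u
      simp only [mem_filter]
      constructor
      · rintro ⟨h1, _⟩
        exact ⟨h1, hbl u h1⟩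
      · rintro ⟨h1, _⟩
        exact ⟨h1, hu u h1⟩
    have e2 : 16 * (M * b) * δ = M * (16 * b * δ) := by ring
    rw [e1, e2]
    have := ha M le_rfl
    linarith
  have hs1 : 0 < s := Nat.pos_of_ne_zero hs0
  have hs2 : s < M * b := by omega
  rw [sm_new_bas Lt pos χ y h2.hχ D.v hs1 hs2]
  have hbb := bas_bound (w₀ := D.wg h) hw Lt bl U D.v (R := R) (M := M) hc.hU hR hN hδ
    (a := a) (d := d) ha hd hs1 (by
      have : 16 * b * M = 16 * (M * b) := by ring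
      rw [this]
      omega)
  have e : Bas Lt pos D.v s + ∑ u ∈ Zs Lt pos s, y u • D.v u
        + ∑ u ∈ Zs Lt pos s, (χ u - (1 / 2 + y u)) • D.v u + R (16 * s * δ)
      = (Bas Lt pos D.v s + R (16 * s * δ)) + D.comb (Zs Lt pos s) y
        + D.comb (Zs Lt pos s) (fun u => χ u - (1 / 2 + y u)) := by
    have e1 : ∑ u ∈ Zs Lt pos s, y u • D.v u = D.comb (Zs Lt pos s) y := by
      ext i
      unfold comb
      simp [Finset.sum_apply]
    have e2 : ∑ u ∈ Zs Lt pos s, (χ u - (1 / 2 + y u)) • D.v u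
        = D.comb (Zs Lt pos s) (fun u => χ u - (1 / 2 + y u)) := by
      ext i
      unfold comb
      simp [Finset.sum_apply]
    rw [e1, e2]
    abel
  rw [e]
  have t1 := wn_add_le hw ((Bas Lt pos D.v s + R (16 * s * δ)) + D.comb (Zs Lt pos s) y)
    (D.comb (Zs Lt pos s) (fun u => χ u - (1 / 2 + y u)))
  have t2 := wn_add_le hw (Bas Lt pos D.v s + R (16 * s * δ)) (D.comb (Zs Lt pos s) y)
  have h3 := hc.dv_gr hh (16 * s - 1)
  have h4 := hc.dv_gr hh (16 * s + 1)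
  have h5 : D.gr h (D.comb (Zs Lt pos s) (fun u => χ u - (1 / 2 + y u)))
      ≤ √(C1 * ((1 / 4 : ℝ) ^ (h - j) * (D.kap h + eR + ((h - j : ℕ) : ℝ)))) :=
    D.gr_le_of_gn ((h2.hR s hs1 hs2).c2 h hh)
  have h6 : D.gr h (D.comb (Zs Lt pos s) y)
      ≤ √(16 * g0 ^ 2 / Γ * ((1 / 4 : ℝ) ^ (h - j) * (X / (8 * b)
            + 2 * (C1 * √((2:ℝ) ^ (j - j)) * √(eP (16 * b) + ((j - j : ℕ) : ℝ)))))) := by
    apply D.gr_le_of_gn
    refine (gn_comb_le D h _ y).trans ?_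
    have hz : ∑ u ∈ Zs Lt pos s, D.gn h (D.v u)
        ≤ (1 / 4 : ℝ) ^ (h - j) * (X / (8 * b)
            + 2 * (C1 * √((2:ℝ) ^ (j - j)) * √(eP (16 * b) + ((j - j : ℕ) : ℝ)))) := by
      have h7 : ∑ u ∈ Zs Lt pos s, D.gn h (D.v u)
          ≤ (1 / 4 : ℝ) ^ (h - j) * ∑ u ∈ Zs Lt pos s, D.chi j u := by
        rw [Finset.mul_sum]
        apply Finset.sum_le_sum
        intro u hu'
        exact D.gn_v_le hh u (hQ u (Finset.mem_filter.1 hu').1)
      refine h7.trans (mul_le_mul_of_nonneg_left ?_ (by positivity))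
      have hT : ∀ i, i < M → (0:ℝ) ≤ Tot Lt bl (D.chi j) i ∧ Tot Lt bl (D.chi j) i ≤ X := by
        intro i hi
        exact ⟨Finset.sum_nonneg fun u _ => D.chi_nonneg j u, hX i hi⟩
      have hm := zs_mass Lt bl U (D.chi j) hb hc.hU hT (fun p => hc.dv_chi le_rfl p) hs1 hs2
      linarith [hm.2]
    exact mul_le_mul (h2.hy2 s hs1 hs2) hz (Finset.sum_nonneg fun u _ => D.gn_nonneg _ _)
      (le_trans (Finset.sum_nonneg fun u _ => sq_nonneg _) (h2.hy2 s hs1 hs2))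
  unfold gr at *
  have ee : d / ((16 * b : ℕ) : ℝ) = d / ((16 * b : ℕ) : ℝ) := rfl
  linarith

end Data

end Vale.Agent.Lib.P262S
end
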