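import Vale.Agent.Lib.P262S.Defs

open Finset Real

namespace Vale.Agent.Lib.P262S

section Sm
set_option linter.unusedSectionVars false
variable {ι E : Type} [AddCommGroup E] [Module ℝ E]

/-- sum of `g` over the items with `key < p` -/
def Sm (Lt : Finset ι) (key : ι → ℕ) (g : ι → E) (p : ℕ) : E :=
  ∑ u ∈ Lt.filter (fun u => key u < p), g u

/-- sum of `g` over block `i` -/
def Tot (Lt : Finset ι) (bl : ι → ℕ) (g : ι → E) (i : ℕ) : E :=
  ∑ u ∈ Lt.filter (fun u => bl u = i), g u

/-- deviation inside block `i` at unit boundary `w` -/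
noncomputable def Dev (Lt : Finset ι) (bl unit : ι → ℕ) (N : ℕ) (g : ι → E) (i w : ℕ) : E :=
  ∑ u ∈ Lt.filter (fun u => bl u = i), ((if unit u < w then (1:ℝ) else 0) - (w:ℝ) / N) • g u

/-- piecewise linear interpolation -/
noncomputable def Lin (Lt : Finset ι) (bl : ι → ℕ) (N : ℕ) (g : ι → E) (p : ℕ) : E :=
  Sm Lt bl g (p / N) + (((p % N : ℕ) : ℝ) / N) • Tot Lt bl g (p / N)

/-- global deviation -/
noncomputable def Dv (Lt : Finset ι) (bl unit : ι → ℕ) (N : ℕ) (g : ι → E) (p : ℕ) : E :=
  Dev Lt bl unit N g (p / N) (p % N)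

variable (Lt : Finset ι) (bl unit : ι → ℕ) (N : ℕ) (g : ι → E)

lemma Sm_succ (i : ℕ) : Sm Lt bl g (i + 1) = Sm Lt bl g i + Tot Lt bl g i := by
  classical
  unfold Sm Tot
  rw [← Finset.sum_union]
  · apply Finset.sum_congr _ (fun _ _ => rfl)
    ext u
    simp only [mem_filter, mem_union]
    constructor
    · rintro ⟨h1, h2⟩
      rcases Nat.lt_succ_iff_lt_or_eq.1 h2 with h | h
      · exact Or.inl ⟨h1, h⟩
      · exact Or.inr ⟨h1, h⟩
    · rintro (⟨h1, h⟩ | ⟨h1, h⟩)
      · exact ⟨h1, by omega⟩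
      · exact ⟨h1, by omega⟩
  · rw [Finset.disjoint_left]
    intro u hu hu'
    simp only [mem_filter] at hu hu'
    omega

lemma Sm_zero : Sm Lt bl g 0 = 0 := by
  unfold Sm
  simp

lemma pre_eq (hN : 0 < N) (hu : ∀ u, unit u < N) (p : ℕ) :
    Sm Lt (fun u => bl u * N + unit u) g p = Lin Lt bl N g p + Dv Lt bl unit N g p := by
  classical
  have hNr : (N:ℝ) ≠ 0 := by positivity
  set i := p / N with hi
  set w := p % N with hw
  have hp : p = i * N + w := by
    rw [hi, hw, Nat.div_add_mod']
  have hwN : w < N := Nat.mod_lt _ hN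
  unfold Lin Dv Dev Sm Tot
  rw [← hi, ← hw]
  have h1 : Lt.filter (fun u => bl u * N + unit u < p)
      = Lt.filter (fun u => bl u < i) ∪ (Lt.filter (fun u => bl u = i)).filter (fun u => unit u < w) := by
    ext u
    simp only [mem_filter, mem_union]
    have hu1 := hu u
    constructor
    · rintro ⟨h1, h2⟩
      rcases lt_trichotomy (bl u) i with h | h | h
      · exact Or.inl ⟨h1, h⟩
      · refine Or.inr ⟨⟨h1, h⟩, ?_⟩
        rw [h, hp] at h2
        omega
      · exfalso
        have : (i + 1) * N ≤ bl u * N := Nat.mul_le_mul_right _ h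
        have e : (i + 1) * N = i * N + N := by ring
        omega
    · rintro (⟨h1, h⟩ | ⟨⟨h1, h⟩, h2⟩)
      · refine ⟨h1, ?_⟩
        have : (bl u + 1) * N ≤ i * N := Nat.mul_le_mul_right _ h
        have e : (bl u + 1) * N = bl u * N + N := by ring
        omega
      · refine ⟨h1, ?_⟩
        rw [h, hp]
        omega
  rw [h1, Finset.sum_union]
  · rw [add_assoc]
    congr 1
    rw [Finset.smul_sum, ← Finset.sum_add_distrib, Finset.sum_filter]
    apply Finset.sum_congr rfl
    intro u _
    by_cases h : unit u < w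
    · simp only [h, if_true, sub_smul, one_smul]
      abel
    · simp only [h, if_false, sub_smul, zero_smul]
      abel
  · rw [Finset.disjoint_left]
    intro u hu hu'
    simp only [mem_filter] at hu hu'
    omega

lemma Lin_succ (hN : 0 < N) (p : ℕ) :
    Lin Lt bl N g (p + 1) = Lin Lt bl N g p + (1 / (N:ℝ)) • Tot Lt bl g (p / N) := by
  have hNr : (N:ℝ) ≠ 0 := by positivity
  have hmod := Nat.mod_lt p hN
  by_cases h : p % N + 1 = N
  · have h1 : (p + 1) / N = p / N + 1 := by
      have e : p = N * (p / N) + p % N := (Nat.div_add_mod p N).symm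
      have e2 : p + 1 = N * (p / N + 1) := by
        conv_lhs => rw [e]
        rw [add_assoc, h]
        ring
      rw [e2, Nat.mul_div_cancel_left _ hN]
    have h2 : (p + 1) % N = 0 := by
      have e : p = N * (p / N) + p % N := (Nat.div_add_mod p N).symm
      have e2 : p + 1 = N * (p / N + 1) := by
        conv_lhs => rw [e]
        rw [add_assoc, h]
        ring
      rw [e2]
      simp
    unfold Lin
    rw [h1, h2, Sm_succ]
    simp only [Nat.cast_zero, zero_div, zero_smul, add_zero]
    rw [add_assoc, ← add_smul]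
    have : ((p % N : ℕ) : ℝ) / N + 1 / N = 1 := by
      have : ((p % N : ℕ) : ℝ) + 1 = N := by exact_mod_cast h
      field_simp
      linarith
    rw [this, one_smul]
  · have hlt : p % N + 1 < N := by omega
    have h1 : (p + 1) / N = p / N := by
      rw [Nat.add_div hN]
      have : ¬ N ≤ p % N + 1 % N := by
        rcases Nat.lt_or_ge 1 N with h1N | h1N
        · rw [Nat.mod_eq_of_lt h1N]
          omega
        · have : N = 1 := by omega
          subst this
          omega
      simp [this]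
      omega
    have h2 : (p + 1) % N = p % N + 1 := by
      rw [Nat.add_mod]
      have h1N : 1 < N := by omega
      rw [Nat.mod_eq_of_lt h1N]
      exact Nat.mod_eq_of_lt hlt
    unfold Lin
    rw [h1, h2, add_assoc, ← add_smul]
    congr 2
    push_cast
    field_simp

/-- Abel-free bound: differences of `Lin` for real `g` with block sums in `[lo, hi]` -/
lemma Lin_diff_bounds (g : ι → ℝ) (hN : 0 < N) {M : ℕ} {lo hi : ℝ}
    (hb : ∀ i, i < M → lo ≤ Tot Lt bl g i ∧ Tot Lt bl g i ≤ hi) {p q : ℕ} (hpq : p ≤ q)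
    (hq : q ≤ N * M) :
    ((q - p : ℕ) : ℝ) / N * lo ≤ Lin Lt bl N g q - Lin Lt bl N g p ∧
      Lin Lt bl N g q - Lin Lt bl N g p ≤ ((q - p : ℕ) : ℝ) / N * hi := by
  induction q, hpq using Nat.le_induction with
  | base => simp
  | succ q hpq ih =>
    have hq' : q ≤ N * M := by omega
    obtain ⟨h1, h2⟩ := ih hq'
    have hi1 : q / N < M := by
      apply Nat.div_lt_of_lt_mul
      omega
    obtain ⟨h3, h4⟩ := hb _ hi1
    have hL := Lin_succ (E := ℝ) Lt bl N g hN q
    rw [hL]
    have e : ((q + 1 - p : ℕ) : ℝ) = ((q - p : ℕ) : ℝ) + 1 := by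
      have : q + 1 - p = (q - p) + 1 := by omega
      rw [this]
      push_cast
      ring
    rw [e]
    have hNr : (0:ℝ) < N := by positivity
    simp only [smul_eq_mul]
    have e2 : (((q - p : ℕ) : ℝ) + 1) / N = ((q - p : ℕ) : ℝ) / N + 1 / N := by ring
    rw [e2]
    have h5 : 1 / (N:ℝ) * lo ≤ 1 / (N:ℝ) * Tot Lt bl g (q / N) :=
      mul_le_mul_of_nonneg_left h3 (by positivity)
    have h6 : 1 / (N:ℝ) * Tot Lt bl g (q / N) ≤ 1 / (N:ℝ) * hi :=
      mul_le_mul_of_nonneg_left h4 (by positivity)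
    constructor <;> nlinarith

end Sm

end Vale.Agent.Lib.P262S
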