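import Vale.Agent.Lib.P262S.Wn

open Finset Real

namespace Vale.Agent.Lib.P262S

namespace Data
variable {ι I : Type} [Fintype ι] [Fintype I] [DecidableEq I] (D : Data ι I)

lemma φ_anti {a j : ℕ} (h : a ≤ j) : D.φ j ≤ D.φ a := by
  have h1 := D.φ_ratio h
  have h2 := D.hφ a
  have h3 : (1 / 2 : ℝ) ^ (j - a) ≤ 1 := pow_le_one₀ (by norm_num) (by norm_num)
  rw [div_le_iff₀ h2] at h1
  nlinarith

lemma f_ge {j : ℕ} (hj : j ≤ D.top) {i : I} (hi : D.gp i ≤ j) : D.φ j ≤ D.f i :=
  (D.φ_anti hi).trans (D.hf i (hi.trans hj))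

lemma f_pos {j : ℕ} (hj : j ≤ D.top) {i : I} (hi : D.gp i ≤ j) : 0 < D.f i :=
  lt_of_lt_of_le (D.hφ j) (D.f_ge hj hi)

lemma ip_add (j : ℕ) (u : ι) (x z : I → ℝ) : D.ip j u (x + z) = D.ip j u x + D.ip j u z := by
  unfold ip
  rw [← Finset.sum_add_distrib]
  apply Finset.sum_congr rfl
  intro i _
  split_ifs
  · simp only [Pi.add_apply]
    ring
  · simp

lemma ip_smul (j : ℕ) (u : ι) (c : ℝ) (x : I → ℝ) : D.ip j u (c • x) = c * D.ip j u x := by
  unfold ip
  rw [Finset.mul_sum]
  apply Finset.sum_congr rfl
  intro i _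
  split_ifs
  · simp only [Pi.smul_apply, smul_eq_mul]
    ring
  · simp

lemma sum_ip_sq (j : ℕ) (Z : Finset ι) (h : I → ℝ) :
    ∑ u ∈ Z, D.ip j u h ^ 2
      = ∑ i, if D.gp i ≤ j then h i * ∑ u ∈ Z, D.ip j u h * D.v u i else 0 := by
  have e : ∀ u, D.ip j u h ^ 2
      = ∑ i, if D.gp i ≤ j then h i * (D.ip j u h * D.v u i) else 0 := by
    intro u
    have : D.ip j u h ^ 2 = D.ip j u h * D.ip j u h := by ring
    rw [this]
    conv_lhs => rw [show D.ip j u h * D.ip j u h
      = D.ip j u h * ∑ i, (if D.gp i ≤ j then D.v u i * h i else 0) from rfl]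
    rw [Finset.mul_sum]
    apply Finset.sum_congr rfl
    intro i _
    split_ifs
    · ring
    · simp
  simp_rw [e]
  rw [Finset.sum_comm]
  apply Finset.sum_congr rfl
  intro i _
  by_cases hi : D.gp i ≤ j
  · simp only [hi, if_true]
    rw [Finset.mul_sum]
  · simp [hi]

/-- **Steering**: solving the linear system on a reservoir with enough second moment. -/
theorem steer {j : ℕ} (hj : j ≤ D.top) (Z : Finset ι) (G : I → ℝ) {c : ℝ} (hc : 0 < c)
    (hq : ∀ x, c * D.sqD j x ≤ ∑ u ∈ Z, D.ip j u x ^ 2) :
    ∃ y : ι → ℝ, (∀ i, D.gp i ≤ j → ∑ u ∈ Z, y u * D.v u i = - G i) ∧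
      (∑ u ∈ Z, y u ^ 2 ≤ wn (D.wh j) G ^ 2 / c) ∧
      ∀ u, |y u| ≤ (1 / D.φ j) * (wn (D.wh j) G / c) := by
  classical
  -- the linear map
  let L : (I → ℝ) →ₗ[ℝ] (I → ℝ) :=
    { toFun := fun h i => if D.gp i ≤ j then ∑ u ∈ Z, D.ip j u h * D.v u i else h i
      map_add' := by
        intro x z
        ext i
        simp only [Pi.add_apply]
        split_ifs
        · rw [← Finset.sum_add_distrib]
          apply Finset.sum_congr rfl
          intro u _
          rw [ip_add]
          ring
        · rfl
      map_smul' := by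
        intro a x
        ext i
        simp only [Pi.smul_apply, smul_eq_mul, RingHom.id_apply]
        split_ifs
        · rw [Finset.mul_sum]
          apply Finset.sum_congr rfl
          intro u _
          rw [ip_smul]
          ring
        · rfl }
  have hLi : ∀ h i, L h i = if D.gp i ≤ j then ∑ u ∈ Z, D.ip j u h * D.v u i else h i :=
    fun _ _ => rfl
  have hinj : Function.Injective L := by
    rw [injective_iff_map_eq_zero]
    intro h hL
    have h0 : ∀ i, L h i = 0 := fun i => by rw [hL]; rfl
    have h1 : ∑ u ∈ Z, D.ip j u h ^ 2 = 0 := by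
      rw [D.sum_ip_sq]
      apply Finset.sum_eq_zero
      intro i _
      by_cases hi : D.gp i ≤ j
      · have := h0 i
        rw [hLi, if_pos hi] at this
        rw [if_pos hi, this, mul_zero]
      · rw [if_neg hi]
    have h2 := hq h
    rw [h1] at h2
    have h3 : D.sqD j h = 0 := by
      have h4 : 0 ≤ D.sqD j h := Finset.sum_nonneg fun i _ => by
        split_ifs <;> positivity
      nlinarith
    ext i
    by_cases hi : D.gp i ≤ j
    · unfold sqD at h3
      have h5 := (Finset.sum_eq_zero_iff_of_nonneg (fun i _ => by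
        split_ifs <;> positivity)).1 h3 i (Finset.mem_univ i)
      rw [if_pos hi] at h5
      have h6 := D.f_pos hj hi
      have h7 : D.f i * h i = 0 := by simpa using h5
      have h8 : h i = 0 := by
        rcases mul_eq_zero.1 h7 with h9 | h9
        · exact absurd h9 h6.ne'
        · exact h9
      simpa using h8
    · have := h0 i
      rw [hLi, if_neg hi] at this
      simpa using this
  have hsurj : Function.Surjective L := LinearMap.injective_iff_surjective.1 hinj
  obtain ⟨h, hh⟩ := hsurj (fun i => if D.gp i ≤ j then - G i else 0)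
  have hh2 : ∀ i, L h i = if D.gp i ≤ j then - G i else 0 := fun i => by rw [hh]
  have hys : ∀ i, D.gp i ≤ j → ∑ u ∈ Z, D.ip j u h * D.v u i = - G i := by
    intro i hi
    have := hh2 i
    rw [hLi, if_pos hi, if_pos hi] at this
    exact this
  set A := wn (D.wh j) G with hA
  have hA0 : 0 ≤ A := wn_nonneg _
  set s := √(D.sqD j h) with hs
  have hs0 : 0 ≤ s := Real.sqrt_nonneg _
  have hsq : 0 ≤ D.sqD j h := Finset.sum_nonneg fun i _ => by
    split_ifs <;> positivity
  have hs2 : s ^ 2 = D.sqD j h := Real.sq_sqrt hsq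
  -- Cauchy for the energy
  have hE : ∑ u ∈ Z, D.ip j u h ^ 2 ≤ s * A := by
    rw [D.sum_ip_sq]
    have e1 : ∀ i, (if D.gp i ≤ j then h i * ∑ u ∈ Z, D.ip j u h * D.v u i else 0)
        = (if D.gp i ≤ j then D.f i * h i else 0) * (if D.gp i ≤ j then - G i / D.f i else 0) := by
      intro i
      by_cases hi : D.gp i ≤ j
      · simp only [hi, if_true]
        rw [hys i hi]
        have := (D.f_pos hj hi).ne'
        field_simp
      · simp [hi]
    simp_rw [e1]
    refine (Real.sum_mul_le_sqrt_mul_sqrt _ _ _).trans ?_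
    have e2 : ∑ i, (if D.gp i ≤ j then D.f i * h i else 0) ^ 2 = D.sqD j h := by
      unfold sqD
      apply Finset.sum_congr rfl
      intro i _
      split_ifs <;> simp
    rw [e2, ← hs]
    apply mul_le_mul_of_nonneg_left _ hs0
    apply Real.sqrt_le_iff.2
    refine ⟨hA0, ?_⟩
    rw [hA, wn_sq (D.wh_nonneg j)]
    apply Finset.sum_le_sum
    intro i _
    by_cases hi : D.gp i ≤ j
    · simp only [hi, if_true, wh]
      have h1 := D.hf i (hi.trans hj)
      have h2 := D.hφ (D.gp i)
      rw [div_pow, neg_sq, one_div, div_eq_mul_inv, mul_comm]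
      apply mul_le_mul_of_nonneg_right _ (sq_nonneg _)
      apply inv_anti₀ (by positivity)
      exact pow_le_pow_left₀ h2.le h1 2
    · simp only [hi, if_false, wh]
      simp
  have hq' := hq h
  rw [← hs2] at hq'
  have hsA : s ≤ A / c := by
    rw [le_div_iff₀ hc]
    by_contra hcon
    push Not at hcon
    have hs1 : 0 < s := by
      by_contra h0
      have : s = 0 := le_antisymm (not_lt.1 h0) hs0
      rw [this] at hcon
      nlinarith
    nlinarith
  refine ⟨fun u => D.ip j u h, hys, ?_, ?_⟩
  · have h1 : s * A ≤ A / c * A := mul_le_mul_of_nonneg_right hsA hA0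
    have e : A / c * A = A ^ 2 / c := by ring
    rw [e] at h1
    exact hE.trans h1
  · intro u
    have h1 : |D.ip j u h| ≤ (1 / D.φ j) * s := by
      have e1 : D.ip j u h = ∑ i, (if D.gp i ≤ j then D.v u i / D.f i else 0)
          * (if D.gp i ≤ j then D.f i * h i else 0) := by
        unfold ip
        apply Finset.sum_congr rfl
        intro i _
        by_cases hi : D.gp i ≤ j
        · simp only [hi, if_true]
          have := (D.f_pos hj hi).ne'
          field_simp
        · simp [hi]
      have hφj := D.hφ j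
      have hb : ∑ i, (if D.gp i ≤ j then D.v u i / D.f i else 0) ^ 2 ≤ (1 / D.φ j) ^ 2 := by
        have h2 : ∀ i, (if D.gp i ≤ j then D.v u i / D.f i else 0) ^ 2
            ≤ D.v u i ^ 2 * (1 / D.φ j) ^ 2 := by
          intro i
          by_cases hi : D.gp i ≤ j
          · simp only [hi, if_true]
            have h3 := D.f_ge hj hi
            rw [div_pow, div_eq_mul_inv]
            apply mul_le_mul_of_nonneg_left _ (sq_nonneg _)
            rw [one_div, inv_pow]
            apply inv_anti₀ (by positivity)
            exact pow_le_pow_left₀ hφj.le h3 2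
          · simp only [hi, if_false]
            have : (0:ℝ) ≤ D.v u i ^ 2 * (1 / D.φ j) ^ 2 := by positivity
            simpa using this
        refine (Finset.sum_le_sum fun i _ => h2 i).trans ?_
        rw [← Finset.sum_mul]
        have h4 := D.hv u
        have h5 : (0:ℝ) ≤ (1 / D.φ j) ^ 2 := by positivity
        nlinarith
      have e2 : ∑ i, (if D.gp i ≤ j then D.f i * h i else 0) ^ 2 = D.sqD j h := by
        unfold sqD
        apply Finset.sum_congr rfl
        intro i _
        split_ifs <;> simp
      have hC1 := Real.sum_mul_le_sqrt_mul_sqrt Finset.univ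
        (fun i => if D.gp i ≤ j then D.v u i / D.f i else 0)
        (fun i => if D.gp i ≤ j then D.f i * h i else 0)
      have hC2 := Real.sum_mul_le_sqrt_mul_sqrt Finset.univ
        (fun i => - (if D.gp i ≤ j then D.v u i / D.f i else 0))
        (fun i => if D.gp i ≤ j then D.f i * h i else 0)
      rw [e2, ← hs] at hC1 hC2
      have hr : √(∑ i, (if D.gp i ≤ j then D.v u i / D.f i else 0) ^ 2) ≤ 1 / D.φ j := by
        apply Real.sqrt_le_iff.2
        exact ⟨by positivity, hb⟩
      have e3 : ∑ i, (- (if D.gp i ≤ j then D.v u i / D.f i else 0)) ^ 2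
          = ∑ i, (if D.gp i ≤ j then D.v u i / D.f i else 0) ^ 2 := by
        apply Finset.sum_congr rfl
        intro i _
        rw [neg_sq]
      rw [e3] at hC2
      rw [abs_le, e1]
      have h6 := mul_le_mul_of_nonneg_right hr hs0
      constructor
      · have e4 : ∑ i, (- (if D.gp i ≤ j then D.v u i / D.f i else 0))
            * (if D.gp i ≤ j then D.f i * h i else 0)
            = - ∑ i, (if D.gp i ≤ j then D.v u i / D.f i else 0)
              * (if D.gp i ≤ j then D.f i * h i else 0) := by
          rw [← Finset.sum_neg_distrib]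
          apply Finset.sum_congr rfl
          intro i _
          ring
        rw [e4] at hC2
        linarith
      · linarith
    refine h1.trans ?_
    apply mul_le_mul_of_nonneg_left hsA
    have := D.hφ j
    positivity

end Data

end Vale.Agent.Lib.P262S
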