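import Vale.Agent.Lib.P262S.Sm

open Finset Real

namespace Vale.Agent.Lib.P262S

section Wn
variable {I : Type} [Fintype I]

/-- weighted quadratic seminorm -/
noncomputable def wn (w y : I → ℝ) : ℝ := √(∑ i, w i * y i ^ 2)

variable {w : I → ℝ}

lemma wn_nonneg (y : I → ℝ) : 0 ≤ wn w y := Real.sqrt_nonneg _

lemma wn_sq (hw : ∀ i, 0 ≤ w i) (y : I → ℝ) : wn w y ^ 2 = ∑ i, w i * y i ^ 2 := by
  unfold wn
  rw [Real.sq_sqrt]
  exact Finset.sum_nonneg fun i _ => mul_nonneg (hw i) (sq_nonneg _)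

lemma wn_add_le (hw : ∀ i, 0 ≤ w i) (a b : I → ℝ) : wn w (a + b) ≤ wn w a + wn w b := by
  have ha := wn_nonneg (w := w) a
  have hb := wn_nonneg (w := w) b
  apply Real.sqrt_le_iff.2
  refine ⟨by positivity, ?_⟩
  have h1 : ∑ i, (√(w i) * a i) * (√(w i) * b i)
      ≤ √(∑ i, (√(w i) * a i) ^ 2) * √(∑ i, (√(w i) * b i) ^ 2) :=
    Real.sum_mul_le_sqrt_mul_sqrt _ _ _
  have e1 : ∀ y : I → ℝ, ∑ i, (√(w i) * y i) ^ 2 = ∑ i, w i * y i ^ 2 := by
    intro y
    apply Finset.sum_congr rfl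
    intro i _
    rw [mul_pow, Real.sq_sqrt (hw i)]
  rw [e1, e1] at h1
  have e2 : ∑ i, (√(w i) * a i) * (√(w i) * b i) = ∑ i, w i * (a i * b i) := by
    apply Finset.sum_congr rfl
    intro i _
    have := Real.mul_self_sqrt (hw i)
    calc _ = (√(w i) * √(w i)) * (a i * b i) := by ring
      _ = _ := by rw [this]
  rw [e2] at h1
  have e3 : ∑ i, w i * (a + b) i ^ 2
      = ∑ i, w i * a i ^ 2 + 2 * ∑ i, w i * (a i * b i) + ∑ i, w i * b i ^ 2 := by
    rw [Finset.mul_sum, ← Finset.sum_add_distrib, ← Finset.sum_add_distrib]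
    apply Finset.sum_congr rfl
    intro i _
    simp only [Pi.add_apply]
    ring
  rw [e3]
  have e4 := wn_sq hw a
  have e5 := wn_sq hw b
  have h2 : ∑ i, w i * (a i * b i) ≤ wn w a * wn w b := h1
  nlinarith

lemma wn_smul (c : ℝ) (y : I → ℝ) : wn w (c • y) = |c| * wn w y := by
  unfold wn
  have : ∑ i, w i * (c • y) i ^ 2 = c ^ 2 * ∑ i, w i * y i ^ 2 := by
    rw [Finset.mul_sum]
    apply Finset.sum_congr rfl
    intro i _
    simp only [Pi.smul_apply, smul_eq_mul]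
    ring
  rw [this, Real.sqrt_mul (sq_nonneg c), Real.sqrt_sq_eq_abs]

lemma wn_neg (y : I → ℝ) : wn w (-y) = wn w y := by
  have := wn_smul (w := w) (-1) y
  simpa using this

lemma wn_sub_le (hw : ∀ i, 0 ≤ w i) (a b : I → ℝ) : wn w (a - b) ≤ wn w a + wn w b := by
  rw [sub_eq_add_neg]
  exact (wn_add_le hw a (-b)).trans (by rw [wn_neg])

lemma wn_zero : wn w (0 : I → ℝ) = 0 := by
  unfold wn
  simp

lemma wn_sum_le {α : Type} (hw : ∀ i, 0 ≤ w i) (s : Finset α) (y : α → I → ℝ) :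
    wn w (∑ k ∈ s, y k) ≤ ∑ k ∈ s, wn w (y k) := by
  classical
  induction s using Finset.induction_on with
  | empty => simp [wn_zero]
  | insert a s ha ih =>
    rw [Finset.sum_insert ha, Finset.sum_insert ha]
    exact (wn_add_le hw _ _).trans (add_le_add le_rfl ih)

lemma wn_convex (hw : ∀ i, 0 ≤ w i) {c A : ℝ} (hc0 : 0 ≤ c) (hc1 : c ≤ 1) {a b : I → ℝ}
    (ha : wn w a ≤ A) (hb : wn w b ≤ A) : wn w ((1 - c) • a + c • b) ≤ A := by
  refine (wn_add_le hw _ _).trans ?_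
  rw [wn_smul, wn_smul, abs_of_nonneg (by linarith : 0 ≤ 1 - c), abs_of_nonneg hc0]
  nlinarith

lemma wn_mono_of_eq {a b : I → ℝ} (h : ∀ i, w i ≠ 0 → a i = b i) : wn w a = wn w b := by
  unfold wn
  congr 1
  apply Finset.sum_congr rfl
  intro i _
  by_cases hi : w i = 0
  · simp [hi]
  · rw [h i hi]

end Wn

lemma sum_quarter (c : ℝ) (N : ℕ) : ∑ n ∈ range N, (c + n) * (1 / 4 : ℝ) ^ n ≤ 2 * c + 1 ∨ c < 0 := by
  by_cases hc : c < 0
  · exact Or.inr hc
  left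
  push Not at hc
  have h1 : ∀ N : ℕ, ∑ n ∈ range N, (1 / 4 : ℝ) ^ n = 4 / 3 * (1 - (1 / 4 : ℝ) ^ N) := by
    intro N
    induction N with
    | zero => simp
    | succ N ih =>
      rw [Finset.sum_range_succ, ih, pow_succ]
      ring
  have h2 : ∀ N : ℕ, ∑ n ∈ range N, (n:ℝ) * (1 / 4 : ℝ) ^ n
      = 4 / 9 - 4 / 9 * (3 * N + 1) * (1 / 4 : ℝ) ^ N := by
    intro N
    induction N with
    | zero => simp
    | succ N ih =>
      rw [Finset.sum_range_succ, ih, pow_succ]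
      push_cast
      ring
  have e : ∑ n ∈ range N, (c + n) * (1 / 4 : ℝ) ^ n
      = c * ∑ n ∈ range N, (1 / 4 : ℝ) ^ n + ∑ n ∈ range N, (n:ℝ) * (1 / 4 : ℝ) ^ n := by
    rw [Finset.mul_sum, ← Finset.sum_add_distrib]
    apply Finset.sum_congr rfl
    intro n _
    ring
  rw [e, h1, h2]
  have h3 : (0:ℝ) ≤ (1 / 4 : ℝ) ^ N := by positivity
  have h4 : (0:ℝ) ≤ (3 * (N:ℝ) + 1) * (1 / 4 : ℝ) ^ N := by positivity
  nlinarith

namespace Data
variable {ι I : Type} [Fintype ι] [Fintype I] (D : Data ι I)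

/-- weights of the group seminorm -/
noncomputable def wg (a : ℕ) : I → ℝ := fun i => if D.gp i = a then 1 else 0

lemma wg_nonneg (a : ℕ) (i : I) : 0 ≤ D.wg a i := by
  unfold wg
  split_ifs <;> norm_num

/-- group seminorm -/
noncomputable def gr (a : ℕ) (y : I → ℝ) : ℝ := wn (D.wg a) y

lemma gr_sq (a : ℕ) (y : I → ℝ) : D.gr a y ^ 2 = D.gn a y := by
  unfold gr gn
  rw [wn_sq (D.wg_nonneg a)]
  apply Finset.sum_congr rfl
  intro i _
  unfold wg
  split_ifs <;> simp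

lemma gr_le_of_gn {a : ℕ} {y : I → ℝ} {c : ℝ} (h : D.gn a y ≤ c) : D.gr a y ≤ √c := by
  rw [← D.gr_sq] at h
  exact Real.le_sqrt_of_sq_le h

lemma gn_nonneg (a : ℕ) (y : I → ℝ) : 0 ≤ D.gn a y := by
  rw [← D.gr_sq]
  positivity

/-- whitening weights -/
noncomputable def wh (j : ℕ) : I → ℝ := fun i => if D.gp i ≤ j then 1 / D.φ (D.gp i) ^ 2 else 0

lemma wh_nonneg (j : ℕ) (i : I) : 0 ≤ D.wh j i := by
  unfold wh
  split_ifs <;> positivity

lemma wh_sq (j : ℕ) (y : I → ℝ) :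
    wn (D.wh j) y ^ 2 = ∑ a ∈ range (j + 1), D.gn a y / D.φ a ^ 2 := by
  classical
  rw [wn_sq (D.wh_nonneg j)]
  unfold gn wh
  have : ∀ a, (∑ i, if D.gp i = a then y i ^ 2 else 0) / D.φ a ^ 2
      = ∑ i, if D.gp i = a then y i ^ 2 / D.φ a ^ 2 else 0 := by
    intro a
    rw [Finset.sum_div]
    apply Finset.sum_congr rfl
    intro i _
    split_ifs <;> simp
  simp_rw [this]
  rw [Finset.sum_comm]
  apply Finset.sum_congr rfl
  intro i _
  by_cases h : D.gp i ≤ j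
  · simp only [h, if_true]
    rw [Finset.sum_eq_single (D.gp i)]
    · simp
      ring
    · intro b _ hb
      rw [if_neg (Ne.symm hb)]
    · intro hh
      exact absurd (Finset.mem_range.2 (by omega)) hh
  · simp only [h, if_false, zero_mul]
    symm
    apply Finset.sum_eq_zero
    intro b hb
    rw [Finset.mem_range] at hb
    rw [if_neg]
    omega

lemma φ_ratio {a j : ℕ} (h : a ≤ j) : D.φ j / D.φ a ≤ (1 / 2 : ℝ) ^ (j - a) := by
  induction j, h using Nat.le_induction with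
  | base =>
    have := D.hφ a
    simp [this.ne']
  | succ j h ih =>
    have h1 := D.hφ2 j
    have h2 := D.hφ a
    have h3 := D.hφ j
    have e : j + 1 - a = (j - a) + 1 := by omega
    rw [e, pow_succ, div_le_iff₀ h2]
    rw [div_le_iff₀ h2] at ih
    nlinarith

/-- key numerical lemma for whitening sums -/
lemma whiten_sum (j : ℕ) {c : ℝ} (hc : 0 ≤ c) :
    D.φ j ^ 2 * ∑ a ∈ range (j + 1), (D.kap a + c + ((j - a : ℕ) : ℝ)) / D.φ a ^ 2
      ≤ D.khat j + 2 * c + 1 := by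
  have hkap : ∀ a, 0 ≤ D.kap a := by
    intro a
    unfold kap
    positivity
  have hterm : ∀ a ∈ range (j + 1), D.φ j ^ 2 * ((D.kap a + c + ((j - a : ℕ) : ℝ)) / D.φ a ^ 2)
      ≤ D.kap a * (D.φ j / D.φ a) + (c + ((j - a : ℕ) : ℝ)) * (1 / 4 : ℝ) ^ (j - a) := by
    intro a ha
    have haj : a ≤ j := by
      rw [Finset.mem_range] at ha
      omega
    have h1 := D.φ_ratio haj
    have hφa := D.hφ a
    have hφj := D.hφ j
    set x := D.φ j / D.φ a with hx
    have hx0 : 0 < x := by positivity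
    have hx1 : x ≤ 1 := by
      refine h1.trans (pow_le_one₀ (by norm_num) (by norm_num))
    have e : D.φ j ^ 2 * ((D.kap a + c + ((j - a : ℕ) : ℝ)) / D.φ a ^ 2)
        = (D.kap a + c + ((j - a : ℕ) : ℝ)) * x ^ 2 := by
      rw [hx]
      field_simp
    rw [e]
    have h2 : x ^ 2 ≤ (1 / 4 : ℝ) ^ (j - a) := by
      have : ((1 / 2 : ℝ) ^ (j - a)) ^ 2 = (1 / 4 : ℝ) ^ (j - a) := by
        rw [← pow_mul, mul_comm, pow_mul]
        norm_num
      rw [← this]
      exact pow_le_pow_left₀ hx0.le h1 2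
    have h3 : x ^ 2 ≤ x := by nlinarith
    have hk := hkap a
    have hn : (0:ℝ) ≤ ((j - a : ℕ) : ℝ) := by positivity
    have h4 : D.kap a * x ^ 2 ≤ D.kap a * x := mul_le_mul_of_nonneg_left h3 hk
    have h5 : (c + ((j - a : ℕ) : ℝ)) * x ^ 2 ≤ (c + ((j - a : ℕ) : ℝ)) * (1 / 4 : ℝ) ^ (j - a) :=
      mul_le_mul_of_nonneg_left h2 (by positivity)
    nlinarith
  rw [Finset.mul_sum]
  refine (Finset.sum_le_sum hterm).trans ?_
  rw [Finset.sum_add_distrib]
  have h6 : ∑ a ∈ range (j + 1), (c + ((j - a : ℕ) : ℝ)) * (1 / 4 : ℝ) ^ (j - a)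
      = ∑ n ∈ range (j + 1), (c + (n:ℝ)) * (1 / 4 : ℝ) ^ n := by
    have := Finset.sum_range_reflect (fun n => (c + (n:ℝ)) * (1 / 4 : ℝ) ^ n) (j + 1)
    rw [← this]
    apply Finset.sum_congr rfl
    intro a ha
    rw [Finset.mem_range] at ha
    have : j + 1 - 1 - a = j - a := by omega
    rw [this]
  rw [h6]
  have h7 := sum_quarter c (j + 1)
  rcases h7 with h7 | h7
  · unfold khat
    linarith
  · linarith

end Data

end Vale.Agent.Lib.P262S
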